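import Vale.Agent.P073.H239.FSpec
import Vale.Agent.P073.H911.VolForms
import Vale.Agent.P073.H819.Mod
import Vale.Agent.P073.H523.SumPas

/-!
# P073, [CHAIN]: the data of the chain up to Round 2 (statements)

* `TgtA`: the oracle of the target for fixed gauge `τ`, `c`; `TgtG`: the oracle;
* `BoxG`: the oracle of the boxes, with its origin;
* `St1C`: Round 1, in the form of the chain;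
* `SpecUse`: [TGT-USE];
* `ChX`: the result: the data of Round 2 with all numbers.
-/

open Set Metric Topology Filter MeasureTheory Matrix WithLp
open scoped ENNReal NNReal

namespace Vale.Agent.P073.H234.Ch

open Vale.Agent.P073
open Vale.Agent.P073.St (V Mat)
open Vale.Agent.P073.SQ (ev)
open Vale.Agent.P073.AB (Idx Part edge eInt cl RatGood)
open Vale.Agent.P073.H73 (MinEdge)
open Vale.Agent.P073.H194 (cellT Gen)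
open Vale.Agent.P073.H696
open Vale.Agent.P073.H239 (DomL DomO)
open Vale.Agent.P073.H726 (LBOn)
open Vale.Agent.P073.H851 (M3)
open _root_.P073 (ConHomeo)
open _root_.P073.Net (dyc dyo)

/-- extra properties of the target -/
abbrev XT' (Λ : Set V) := (V → ℝ) → Set Idx → ConHomeo Λ Λ → (V → ℝ) → Prop

/-- the oracle of the target, for fixed `τ`, `c` -/
def TgtA (Cu : ℝ) (Lc : M3 → ℝ) (Ω Λ : Set V) (ε ε' : ℝ) (j : ℕ) (v : V) (M₀ : ℝ) (Zo : Set V)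
    (XT : XT' Λ) (τ : V → ℝ) (c : ℝ≥0∞) : Prop :=
  ∀ (B : Type) (A : B → M3) (b : B → V) (D D' : B → Set V) (α W : B → ℝ≥0∞) (δt : V → ℝ),
    (∀ k, (A k).det ≠ 0) →
    (∀ k, IsCompact (D k) ∧ IsCompact (D' k) ∧ D' k ⊆ interior (D k)) →
    (∀ k, (fun x => A k *ᵥ x + b k) '' D k ⊆ Λ) →
    (∀ k l, k ≠ l → Disjoint ((fun x => A k *ᵥ x + b k) '' D k)
      ((fun x => A l *ᵥ x + b l) '' D l)) →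
    (∀ C ⊆ Λ, IsCompact C → {k | ((fun x => A k *ᵥ x + b k) '' D k ∩ C).Nonempty}.Finite) →
    ∫⁻ y in Λ \ ⋃ k, (fun x => A k *ᵥ x + b k) '' D' k, ENNReal.ofReal (1 / τ y) ^ 3 ≤ c →
    (∀ k, α k ≠ ⊤) → (∀ k, W k ≠ ⊤) →
    ∑' k : {k : B // ENNReal.ofReal (M₀ * |(A k).det|) < α k}, α k.1 * volume (D k.1) ≤
      ENNReal.ofReal ε →
    ∑' k, α k * volume {x | x ∈ D k ∧ A k *ᵥ x + b k ∈ Zo} ≤ ENNReal.ofReal ε →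
    LBOn Λ δt →
    ∃ (ρ : V → ℝ) (J₀ J : Set Idx) (κ : Idx → B) (n : Idx → ℕ) (w : Idx → Fin 3 → ℤ)
      (Act Core CoreN : Set V) (Tt : ConHomeo Λ Λ) (r' : V → ℝ),
      Tgt Cu Lc Λ ε' (1 / 2 ^ j) A b D α W δt v ρ J₀ J κ n w Act Core CoreN Tt ∧
      LBOn Ω r' ∧ XT ρ J₀ Tt r'

/-- the oracle of the target; the origin comes after `τ`, `c`, with the property `G` -/
def TgtG (G : V → (ℕ → ℕ) → Prop) (Cu : ℝ) (Lc : M3 → ℝ) (Ω Λ : Set V) (ε ε' : ℝ) (j : ℕ)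
    (M₀ : ℝ) (Zo : Set V) (XT : XT' Λ) : Prop :=
  ∃ (τ : V → ℝ) (c : ℝ≥0∞), (Continuous τ ∧ (∀ y, 0 ≤ τ y) ∧ (∀ y, 0 < τ y ↔ y ∈ Λ) ∧ c ≠ 0) ∧
    ∀ (v : V) (nn : ℕ → ℕ), G v nn → TgtA Cu Lc Ω Λ ε ε' j v M₀ Zo XT τ c

/-- the oracle of the boxes, with its origin -/
def BoxG (G : V → (ℕ → ℕ) → Prop) (p εB ε M₀ : ℝ) (Ω Λ : Set V) (f : V → V) (F : V → Mat)
    (S : Set V) : Prop :=
  ∀ (τ : V → ℝ) (c : ℝ≥0∞), Continuous τ → (∀ y, 0 ≤ τ y) → (∀ y, 0 < τ y ↔ y ∈ Λ) → c ≠ 0 →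
    ∃ φ : V → ℝ, (∀ x, 0 < φ x) ∧ ∀ (κ μ : V → ℝ) (s : V → ℕ),
    (∀ x, 0 < κ x) → (∀ x, 0 < μ x) → ∃ (v : V) (nn : ℕ → ℕ) (K : Set Idx) (x : Idx → V),
      G v nn ∧ Boxes p εB M₀ c τ φ κ μ s Ω Λ f F v nn K x ∧
      (∀ k ∈ K, Disjoint (dyc v k.1 k.2) S) ∧
      ∑' k : {k : Idx // k ∈ K ∧ M₀ * |(cl (F (x k))).det| < ‖cl (F (x k))‖ ^ p},
        ‖cl (F (x k.1))‖ₑ ^ p * volume (dyc v k.1.1 k.1.2) ≤ ENNReal.ofReal ε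

theorem TgtG.of_tgtO {Cu : ℝ} {Lc : M3 → ℝ} {Ω Λ : Set V} {ε ε' : ℝ} {j : ℕ} {v : V}
    {nn : ℕ → ℕ} {M₀ : ℝ} {Zo : Set V} {XT : XT' Λ}
    (h : H239.TgtO Cu Lc Ω Λ ε ε' j v M₀ Zo XT) :
    TgtG (fun v' nn' => v' = v ∧ nn' = nn) Cu Lc Ω Λ ε ε' j M₀ Zo XT := by
  obtain ⟨τ, c, h1, h2⟩ := h
  refine ⟨τ, c, h1, ?_⟩
  rintro v' nn' ⟨rfl, rfl⟩
  exact h2

theorem BoxG.of_boxO {p εB ε M₀ : ℝ} {Ω Λ : Set V} {f : V → V} {F : V → Mat} {v : V}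
    {nn : ℕ → ℕ} {S : Set V} (h : H239.BoxO p εB ε M₀ Ω Λ f F v nn S) :
    BoxG (fun v' nn' => v' = v ∧ nn' = nn) p εB ε M₀ Ω Λ f F S := by
  intro τ c h1 h2 h3 h4
  obtain ⟨φ, h5, h⟩ := h τ c h1 h2 h3 h4
  refine ⟨φ, h5, fun κ μ s h6 h7 => ?_⟩
  obtain ⟨K, x, h8, h9, h10⟩ := h κ μ s h6 h7
  exact ⟨v, nn, K, x, ⟨rfl, rfl⟩, h8, h9, h10⟩

/-- the inner block without its outermost layer of cells -/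
def blk4 (k : Idx) (n : ℕ) : Set (Fin 3 → ℤ) :=
  {z | ∀ i, 2 ^ (n - k.1) * k.2 i + 4 ≤ z i ∧ z i + 5 ≤ 2 ^ (n - k.1) * (k.2 i + 1)}

/-- **Round 1, in the form of the chain.** `E₀ y`: constant of the solid cubes which are not in the
outermost layer, `Eb y`: constant of all cubes in the boxes (functions of the point), `C₂`: constant
of the cubes outside of the boxes. -/
def St1C (p : ℝ) : Prop :=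
  ∃ C₂ : ℝ, 0 < C₂ ∧
  ∀ (Ω Λ : Set V) (f : V → V) (F : V → Mat), St.IsBoundedDomain Ω → St.IsBoundedDomain Λ →
    St.IsHomeo Ω Λ f → St.IsSobolev p Ω f F →
  ∃ E₀ : V → ℝ, (∀ y, ‖cl (F y)‖ ^ p ≤ E₀ y) ∧
  ∀ c₀ : V → ℝ, (∀ y, 0 < c₀ y ∧ c₀ y ≤ 1 / 64) →
  ∃ Eb : V → ℝ, (∀ y, E₀ y ≤ Eb y) ∧
  ∀ (a : V → ℕ) (ε₁ b : ℝ), (∀ y, 4 ≤ a y) → 0 < ε₁ → 0 < b →
  ∃ (k₁ s : V → ℕ) (κ₀ μ₀ : V → ℝ), (∀ y, 0 < κ₀ y ∧ 0 < μ₀ y ∧ 1 / 2 ^ k₁ y ≤ c₀ y ∧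
    2 ≤ k₁ y ∧ a y + k₁ y ≤ s y) ∧
  ∀ (κ μ : V → ℝ), (∀ y, 0 < κ y ∧ κ y ≤ κ₀ y ∧ 0 < μ y ∧ μ y ≤ μ₀ y) →
  ∀ (ε M₀ : ℝ) (c : ℝ≥0∞) (τ φ : V → ℝ) (v : V) (nn : ℕ → ℕ) (K : Set Idx) (x : Idx → V),
    Boxes p ε M₀ c τ φ κ μ s Ω Λ f F v nn K x →
  ∀ δs : V → ℝ, LBOn Ω δs → ∃ r : V → ℝ, LBOn Ω r ∧
  ∀ (εD : ℝ≥0∞) (tolD : Idx → ℝ≥0∞) (I : Set Idx) (N' : Idx → ℕ),
    Dom Ω v (HF p Ω F) K (fun k => k.1 + a (x k)) (fun k => k.1 + s (x k)) r εD tolD I N' →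
    (∀ k ∈ K, N' k ∈ range nn) →
    (∀ k ∈ K, tolD k ≤ ENNReal.ofReal ((1 / 2 ^ (k.1 + s (x k))) ^ 3)) →
  ∀ tol : Idx → ℝ≥0∞, (∀ q, tol q ≠ 0) →
  ∃ (Eq : Idx → ℝ) (h₁ : ConHomeo Ω Λ), (∀ q, 0 ≤ Eq q) ∧
    (∀ q, (∀ k ∈ K, ¬ dyc v q.1 q.2 ⊆ dyc v k.1 k.2) → Eq q ≤ C₂) ∧
    (∀ k ∈ K, ∀ q : Idx, dyc v q.1 q.2 ⊆ dyc v k.1 k.2 → Eq q ≤ Eb (x k)) ∧
    (∀ k ∈ K, ∀ z ∈ blk4 k (k.1 + a (x k)), ∀ q : Idx, q.1 = k.1 + a (x k) + k₁ (x k) →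
      dyc v q.1 q.2 ⊆ dyc v (k.1 + a (x k)) z → Eq q ≤ E₀ (x k)) ∧
    St1 p ε₁ Ω Λ f F v (HF p Ω F) K x (fun k => k.1 + a (x k)) (fun k => c₀ (x k))
      (fun k => E₀ (x k)) Eq δs tol
      (part1 v K (fun k => k.1 + a (x k)) (fun k => k₁ (x k)) I)
      (solid v K (fun k => k.1 + a (x k))
        (part1 v K (fun k => k.1 + a (x k)) (fun k => k₁ (x k)) I)) h₁ ∧
    (∀ y ∈ Ω, (∀ k ∈ K, y ∉ dyc v k.1 k.2) → ‖h₁.toFun y - f y‖ ≤ b) ∧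
    ∀ e, MinEdge v (part1 v K (fun k => k.1 + a (x k)) (fun k => k₁ (x k)) I) e →
      (∀ k ∈ K, Disjoint (edge v e) (dyc v k.1 k.2)) →
      eInt v e (fun x => ENNReal.ofReal ‖lineDeriv ℝ h₁.toFun x (ev e.2) - cl (F x) (ev e.2)‖) ≤
        ENNReal.ofReal (b / 2 ^ e.1.1)

/-- **[TGT-USE]** (622) -/
def SpecUse (p : ℝ) : Prop :=
  ∀ (Cu : ℝ) (Lc : M3 → ℝ) (Ω Λ : Set V) (f : V → V) (F : V → Mat) (εB ε ε' ε₂ M₀ : ℝ) (j : ℕ)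
    (c : ℝ≥0∞) (τ φ κ μ : V → ℝ) (s : V → ℕ) (v : V) (nn : ℕ → ℕ) (K : Set Idx) (x : Idx → V)
    (c₀ : V → ℝ) (a : V → ℕ) (N : Idx → ℕ) (Zo : Set V) (XT : XT' Λ),
    St.IsBoundedDomain Ω → St.IsBoundedDomain Λ → St.IsHomeo Ω Λ f →
    Boxes p εB M₀ c τ φ κ μ s Ω Λ f F v nn K x →
    (∀ y, 0 < c₀ y ∧ c₀ y ≤ 1 / 64) → (∀ y, 4 ≤ a y) → (∀ y, 24 / 2 ^ a y + 24 * c₀ y ≤ φ y) →
    (∀ y, 0 < κ y ∧ κ y ≤ c₀ y / 2 ^ a y) →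
    ∑' k : {k : Idx // k ∈ K ∧ M₀ * |(cl (F (x k))).det| < ‖cl (F (x k))‖ ^ p},
      ‖cl (F (x k.1))‖ₑ ^ p * volume (dyc v k.1.1 k.1.2) ≤ ENNReal.ofReal ε →
    ∑' k : {k // k ∈ K}, ‖cl (F (x k.1))‖ₑ ^ p *
      volume {y | y ∈ deep v (fun k => k.1 + a (x k)) (3 * c₀ (x k.1)) k.1 ∧
        am f F (x k.1) y ∈ Zo} ≤ ENNReal.ofReal ε →
    0 < ε₂ → TgtA Cu Lc Ω Λ ε ε' j v M₀ Zo XT τ c →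
    ∃ (W : {k // k ∈ K} → ℝ≥0∞) (δt ρ : V → ℝ) (J₀ J : Set Idx) (κ' : Idx → {k // k ∈ K})
      (nt : Idx → ℕ) (w : Idx → Fin 3 → ℤ) (Act Core CoreN : Set V) (Tt : ConHomeo Λ Λ)
      (r' : V → ℝ),
      (∀ k : {k // k ∈ K},
        ENNReal.ofReal ((Lc (Mx F x k) * (1 + ‖cl (F (x k))‖)) ^ p) ≤ W k) ∧
      Tgt Cu Lc Λ ε' (1 / 2 ^ j) (fun k : {k // k ∈ K} => Mx F x k.1) (fun k => bx f F x k.1)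
        (fun k => deep v (fun k => k.1 + a (x k)) (3 * c₀ (x k.1)) k.1)
        (fun k => ‖cl (F (x k.1))‖ₑ ^ p) W δt v ρ J₀ J κ' nt w Act Core CoreN Tt ∧
      (∀ k ∈ K, ∀ y ∈ deep v (fun k => k.1 + a (x k)) (2 * c₀ (x k)) k,
        δt (am f F (x k) y) ≤ c₀ (x k) / 16 / 2 ^ (k.1 + a (x k)) ∧
        δt (am f F (x k) y) < 1 / 2 ^ N k) ∧
      (∀ y, δt y ≤ ε₂) ∧ LBOn Ω r' ∧ XT ρ J₀ Tt r'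

/-- **[ZO]** the cost of the exceptional set (523) -/
def SpecZo (p : ℝ) : Prop :=
  ∀ (Ω Λ : Set V) (f : V → V) (F : V → Mat) (εB ε M₀ r : ℝ)
    (c : ℝ≥0∞) (τ φ κ μ : V → ℝ) (s : V → ℕ) (v : V) (nn : ℕ → ℕ) (K : Set Idx) (x : Idx → V)
    (c₀ : V → ℝ) (a : V → ℕ) (Zo : Set V),
    St.IsBoundedDomain Ω → St.IsHomeo Ω Λ f → St.IsSobolev p Ω f F →
    Boxes p εB M₀ c τ φ κ μ s Ω Λ f F v nn K x → (∀ y, 0 < c₀ y) → 0 < ε → 0 < r →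
    (∀ y, κ y ≤ r) → (∀ y, 2 ^ p * κ y * (volume Ω).toReal ≤ ε) →
    ∫⁻ x in {x | x ∈ Ω ∧ ∃ y ∈ Zo, ‖f x - y‖ ≤ r}, HF p Ω F x ≤ ENNReal.ofReal (ε / 2 ^ p) →
    ∑' k : {k // k ∈ K}, ‖cl (F (x k.1))‖ₑ ^ p *
      volume {y | y ∈ deep v (fun k => k.1 + a (x k)) (3 * c₀ (x k.1)) k.1 ∧
        am f F (x k.1) y ∈ Zo} ≤ ENNReal.ofReal ε

/-- the constants of a point which are known before `a` -/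
noncomputable def Q₀ (p : ℝ) (F : V → Mat) (E₀ : V → ℝ) (y : V) : ℝ :=
  1 + |E₀ y| + ‖cl (F y)‖ ^ p

/-- all constants of a point -/
noncomputable def Q₁ (p : ℝ) (F : V → Mat) (E₀ Eb : V → ℝ) (y : V) : ℝ :=
  (1 + |E₀ y| + |Eb y|) * (1 + ‖cl (F y)‖ ^ p)

/-- **The result of the chain.** `X`: the data of Round 2; `ε₃`: all errors of the energies. -/
structure ChX {p Cu : ℝ} {Lc : M3 → ℝ} {δ : ℝ} {j : ℕ} {ε' : ℝ} {Ω Λ : Set V} {f : V → V}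
    {F : V → Mat} {v : V} (X : R2 p Cu Lc δ j ε' Ω Λ f F v) (C₂ εB M₀ r₀ b ε₃ : ℝ) (c : ℝ≥0∞)
    (τ φ κ μ : V → ℝ) (s : V → ℕ) (nn : ℕ → ℕ) (c₀ : V → ℝ) (a k₁ : V → ℕ) (E₀ Eb r : V → ℝ)
    (εD : ℝ≥0∞) (tolD : Idx → ℝ≥0∞) (I : Set Idx) (N' : Idx → ℕ) : Prop where
  H : X.H = HF p Ω F
  n : X.n = fun k => k.1 + a (X.x k)
  cc : X.c₀ = fun k => c₀ (X.x k)
  E : X.E = fun k => E₀ (X.x k)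
  box : Boxes p εB M₀ c τ φ κ μ s Ω Λ f F v nn X.K X.x
  dom : DomL Ω v (HF p Ω F) X.K X.n (fun k => k.1 + s (X.x k)) r εD tolD r₀ I N'
  I₁ : X.I₁ = part1 v X.K X.n (fun k => k₁ (X.x k)) I
  S : X.S = solid v X.K X.n X.I₁
  C₂0 : 0 < C₂
  E₀Q : ∀ y, ‖cl (F y)‖ ^ p ≤ E₀ y
  Eb0 : ∀ y, E₀ y ≤ Eb y
  Eq0 : ∀ q, 0 ≤ X.Eq q
  Eq1 : ∀ q, (∀ k ∈ X.K, ¬ dyc v q.1 q.2 ⊆ dyc v k.1 k.2) → X.Eq q ≤ C₂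
  Eq2 : ∀ k ∈ X.K, ∀ q : Idx, dyc v q.1 q.2 ⊆ dyc v k.1 k.2 → X.Eq q ≤ Eb (X.x k)
  Eq3 : ∀ k ∈ X.K, ∀ z ∈ blk4 k (X.n k), ∀ q : Idx, q.1 = X.n k + k₁ (X.x k) →
    dyc v q.1 q.2 ⊆ dyc v (X.n k) z → X.Eq q ≤ E₀ (X.x k)
  c₀1 : ∀ y, 0 < c₀ y ∧ c₀ y ≤ 1 / 64
  a4 : ∀ y, 4 ≤ a y
  k₁s : ∀ y, 1 / 2 ^ k₁ y ≤ c₀ y ∧ 2 ≤ k₁ y ∧ a y + k₁ y ≤ s y
  ε₃0 : 0 < ε₃
  cQ : ∀ y, 24 * c₀ y * Q₀ p F E₀ y ≤ ε₃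
  aQ : ∀ y, 48 / 2 ^ a y * Q₁ p F E₀ Eb y ≤ ε₃
  κQ : ∀ y, 0 < κ y ∧ κ y * Q₁ p F E₀ Eb y ≤ ε₃
  μr : ∀ y, 0 < μ y ∧ μ y ≤ r₀
  εDQ : ENNReal.ofReal C₂ * εD ≤ ENNReal.ofReal ε₃
  tolDQ : ∀ k ∈ X.K, ENNReal.ofReal (Q₁ p F E₀ Eb (X.x k)) * tolD k ≤
    ENNReal.ofReal ε₃ * volume (dyc v k.1 k.2)
  tolQ : ∑' q : {q : Idx // q ∈ X.I₁ \ X.S}, ENNReal.ofReal (X.Eq q.1) *
    (nSq v X.I₁ q.1 * X.tol q.1) ≤ ENNReal.ofReal ε₃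
  /-- closeness off the boxes -/
  clo : ∀ y ∈ Ω, (∀ k ∈ X.K, y ∉ dyc v k.1 k.2) → ‖X.h₁.toFun y - f y‖ ≤ b
  /-- the edges off the boxes -/
  edg : ∀ e, MinEdge v X.I₁ e → (∀ k ∈ X.K, Disjoint (edge v e) (dyc v k.1 k.2)) →
    eInt v e (fun x => ENNReal.ofReal ‖lineDeriv ℝ X.h₁.toFun x (ev e.2) -
      cl (F x) (ev e.2)‖) ≤ ENNReal.ofReal (b / 2 ^ e.1.1)

end Vale.Agent.P073.H234.Ch
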