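import Vale.Agent.P073.H234.RData
import Vale.Agent.P073.H234.CellMod
import Vale.Agent.P073.H190.ColB3

/-!
# P073, P2 (exponent two, rank three): interfaces of the assembly

Generations: `m` (big cubes), `n` (good cells, sub-cubes of the big cubes), `N` (fine tiles in and
around the good cells), `m + j` (own lattice), `m ≤ n < N ≤ m + j`.

* `Tch`: the tiles of generation `N` which touch a good cell;
* `SubCells`: the good cells;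
* `Sel`: the own squares whose two cubes are in tiles which touch one good cell;
* `Cleaned`: the conical homeomorphism after the retractions and the collapse;
* `NetRes2`: the result which is fed to the machines;
* `NetInP2`: the main proposition.
-/

namespace Vale.Agent.P073.H234

open MeasureTheory Set Filter Topology Metric Vale.Agent.P073.St Vale.Agent.P073.AB
open Vale.Agent.P073.SQ (ev)
open Vale.Agent.P073.AB.P86 (rel)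
open _root_.P073.Net (dyc dyo)
open _root_.P073 (ConBall ConHomeo)
open scoped ENNReal

/-- the tile `u` of generation `N` touches the cell `z` of generation `n` -/
def Touch (v : V) (n N : ℕ) (z u : Fin 3 → ℤ) : Prop := (dyc v N u ∩ dyc v n z).Nonempty

/-- the tile `u` of generation `N` touches a good cell -/
def Tch (v : V) (n N : ℕ) (J' : Finset (Fin 3 → ℤ)) (u : Fin 3 → ℤ) : Prop :=
  ∃ z ∈ J', Touch v n N z u

/-- the own squares (generation `M'`) whose two cubes are in tiles which touch one good cell -/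
def Sel (v : V) (M' n N : ℕ) (J' : Finset (Fin 3 → ℤ)) (s : Idx × Fin 3) : Prop :=
  s.1.1 = M' ∧ ∃ z ∈ J', ∃ u u', Touch v n N z u ∧ Touch v n N z u' ∧
    dyc v M' s.1.2 ⊆ dyc v N u ∧ dyc v M' (dn s) ⊆ dyc v N u'

variable {p : ℝ} {ε : ℝ≥0∞} {θ M κ c₀ t₀ δ₀ ε₁ β σ : ℝ} {j : ℕ} {Ω Λ : Set V} {f : V → V}
  {F : V → Mat} {T : Set V} {v : V} {m : ℕ}

/-- the good cells (generation `n`) in the big cubes -/
structure SubCells (C : P2Cells p ε θ M κ c₀ t₀ δ₀ j Ω Λ f F T v m) (n : ℕ)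
    (J' : Finset (Fin 3 → ℤ)) (π : (Fin 3 → ℤ) → Fin 3 → ℤ) : Prop where
  mem : ∀ z ∈ J', π z ∈ C.J
  sub : ∀ z ∈ J', dyc v n z ⊆ dyo v m (π z)

/-- the selected discs -/
def selI {A : (Fin 3 → ℤ) → V → V} {J : Finset (Fin 3 → ℤ)}
    (Nk : Necks θ M β σ f v m j J A) (n N : ℕ) (J' : Finset (Fin 3 → ℤ)) : Set Nk.ι :=
  {i | Sel v (m + j) n N J' (Nk.s i)}

/-- the selected neck cubes -/
def selG {A : (Fin 3 → ℤ) → V → V} {J : Finset (Fin 3 → ℤ)}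
    (Nk : Necks θ M β σ f v m j J A) (n N : ℕ) (J' : Finset (Fin 3 → ℤ)) : Set Nk.γ :=
  {g | ∃ i ∈ selI Nk n N J', ∀ x ∈ Nk.c i, f x ∈ Metric.ball (Nk.b g) (Nk.ρ g)}

/-- **the cleaned homeomorphism** `h₁ = T ∘ h'`; `h'`: after the retractions of the selected discs;
`T`: collapse of the selected neck cubes -/
structure Cleaned (C : P2Cells p ε θ M κ c₀ t₀ δ₀ j Ω Λ f F T v m)
    (Nk : Necks θ M β σ f v m j C.J C.A) (n N : ℕ) (J' : Finset (Fin 3 → ℤ)) (η l₀ : ℝ)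
    (o : Nk.γ → V) (h₀ h' h₁ : ConHomeo Ω Λ) (Tc : V → V) (G : Finset Nk.γ) : Prop where
  Gsel : ∀ g, g ∈ G ↔ g ∈ selG Nk n N J'
  ρle : ∀ g, Nk.ρ g ≤ σ / 2 ^ (m + j)
  near₀ : ∀ x ∈ Ω, ‖h₀.toFun x - f x‖ ≤ η
  eq : ∀ x ∈ Ω, h₁.toFun x = Tc (h'.toFun x)
  col : Vale.Agent.P073.H190.IsColB Nk.b Nk.ρ (fun _ => 1 / 2 ^ (m + j)) G σ l₀ Tc
  off : ∀ x, x ∉ Λ → Tc x = x
  disc : ∀ i ∈ selI Nk n N J', ∃ g ∈ G, ∀ x ∈ Nk.D i, h'.toFun x ∈ Metric.ball (Nk.b g) (Nk.ρ g)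
  dich : ∀ x ∈ Ω, (∀ i ∈ selI Nk n N J', x ∉ qC v (Nk.s i)) → h'.toFun x = h₀.toFun x ∨
    ∃ g ∈ G, h'.toFun x ∈ Metric.ball (Nk.b g) (Nk.ρ g)
  avoid : ∀ g ∈ G, ∀ x ∈ NSet v m j C.J t₀ Nk.D Nk.c Ω (o g) (16 * β / θ / 2 ^ (m + j)),
    h'.toFun x ∉ closedBall (Nk.b g) (Nk.ρ g)
  /-- the point `o g` is on a selected square -/
  pt : ∀ g ∈ G, ∃ z s, NeckPt C β (Nk.b g) (o g) z s ∧ Sel v (m + j) n N J' s

/-- **the result for the machines** (`N = n + k₁ + k₀`) -/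
structure NetRes2 (v : V) (I : Set Idx) (n k₁ k₀ : ℕ) (J : Finset (Fin 3 → ℤ)) (C ε τ : ℝ)
    (A : (Fin 3 → ℤ) → V → V) (f : V → V) (F : V → Mat) (Ω : Set V) (σ : V → ℝ)
    (δ : Idx × Fin 3 → ℝ) (h : V → V) : Prop where
  near : ∀ x ∈ Ω, ‖h x - f x‖ ≤ ε
  /-- in the fine layer of a good cell, all points -/
  layer : ∀ z ∈ J, ∀ x ∈ dyc v n z, x ∉ interior (boxB v n k₁ z) →
    ‖h x - A z x‖ ≤ C / 2 ^ (n + k₁ + k₀)
  /-- in the box `B`, all points -/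
  inn : ∀ z ∈ J, ∀ x ∈ boxB v n k₁ z, ‖h x - A z x‖ ≤ C / 2 ^ (n + k₁)
  /-- in the protected box -/
  box : ∀ z ∈ J, ∀ x ∈ boxR v n k₁ z, h x = A z x
  /-- the edges of generation `n + k₁` in the box `B`: length -/
  gap : ∀ z ∈ J, ∀ e : Idx × Fin 3, e.1.1 = n + k₁ → edge v e ⊆ boxB v n k₁ z →
    eInt v e (fun x => ENNReal.ofReal ‖lineDeriv ℝ h x (ev e.2)‖) ≤
      ENNReal.ofReal (C / 2 ^ (n + k₁))
  /-- the edges of the tiles of generation `N` which touch the cell: closeness and length -/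
  own : ∀ z ∈ J, ∀ u, Touch v n (n + k₁ + k₀) z u → ∀ e : Idx × Fin 3,
    EdgeOf e (n + k₁ + k₀, u) → Disjoint (edge v e) (interior (boxB v n k₁ z)) →
    (∀ x ∈ edge v e, ‖h x - A z x‖ ≤ C / 2 ^ (n + k₁ + k₀)) ∧
    eInt v e (fun x => ENNReal.ofReal ‖lineDeriv ℝ h x (ev e.2)‖) ≤
      ENNReal.ofReal (C / 2 ^ (n + k₁ + k₀))
  /-- the squares between two tiles which touch good cells (then they touch a common one) -/
  osq : ∀ s : Idx × Fin 3, s.1.1 = n + k₁ + k₀ → Tch v n (n + k₁ + k₀) J s.1.2 →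
    Tch v n (n + k₁ + k₀) J (dn s) → ∃ z ∈ J, Touch v n (n + k₁ + k₀) z s.1.2 ∧
      Touch v n (n + k₁ + k₀) z (dn s) ∧
      ∀ x ∈ squ v s, x ∉ interior (boxB v n k₁ z) → ‖h x - A z x‖ ≤ C / 2 ^ (n + k₁ + k₀)
  /-- connected sets outside of the good cells and of the tiles which touch them: as `f`, or near
  the boundary layers of the images of the good cells, and then small -/
  off : ∀ S ⊆ Ω, IsPreconnected S → (∀ z ∈ J, Disjoint S (dyo v n z)) →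
    (∀ u, Tch v n (n + k₁ + k₀) J u → Disjoint S (dyo v (n + k₁ + k₀) u)) →
    (∀ x ∈ S, ‖h x - f x‖ ≤ σ x) ∨
    ∀ D, (∀ x ∈ S, ∀ y ∈ S, ‖f x - f y‖ ≤ D) →
      (∀ x ∈ S, ∀ y ∈ S, ‖h x - h y‖ ≤ 2 * D + τ) ∧
      ∀ x ∈ S, ∃ z ∈ J, ∃ y ∈ dyc v n z, y ∉ interior (boxB v n k₁ z) ∧
        ‖h x - A z y‖ ≤ 2 * D + τ + C / 2 ^ (n + k₁ + k₀)
  /-- lengths of all the edges of `I` outside of the open boxes `B` -/
  len : ∀ e : Idx × Fin 3, (∃ q ∈ I, EdgeOf e q) →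
    (∀ z ∈ J, Disjoint (edge v e) (interior (boxB v n k₁ z))) →
    eInt v e (fun x => ENNReal.ofReal ‖lineDeriv ℝ h x (ev e.2)‖) ≤
      8 * eInt v e (fun x => ENNReal.ofReal ‖cl (F x) (ev e.2)‖) + ENNReal.ofReal (δ e)

/-- **[NETIN-P2]** `I` contains all the tiles of generation `n + k₁ + k₀` which touch the good
cells (also the ones inside). -/
def NetInP2 : Prop :=
  ∃ (C : ℝ → ℝ → ℝ) (K₀ : ℝ → ℝ → ℕ → ℕ), (∀ θ M, 0 < C θ M) ∧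
    ∀ (θ M : ℝ) (k₁ k₃ : ℕ), 0 < θ → 0 < M → 3 ≤ k₁ → 1 ≤ k₃ →
    ∃ (k₂ : ℕ) (β σ₀ κ₀ : ℝ), 0 < β ∧ β ≤ 1 / 8 ∧ 0 < σ₀ ∧ σ₀ ≤ β / 2 ∧ 0 < κ₀ ∧
    ∀ κ, 0 < κ → κ ≤ κ₀ → ∀ (p : ℝ) (ε : ℝ≥0∞) (c₀ t₀ δ₀ ε₁ : ℝ) (Ω Λ : Set V) (f : V → V)
      (F : V → Mat) (T : Set V) (v : V) (m : ℕ)
      (P : P2Cells p ε θ M κ c₀ t₀ δ₀ (k₃ + k₁ + K₀ θ M k₁ + k₂) Ω Λ f F T v m),
      St.IsBoundedDomain Ω → St.IsBoundedDomain Λ → St.IsHomeo Ω Λ f → RatGood v Ω f F →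
      TSet θ M κ t₀ δ₀ ε₁ Ω f F T → 0 ≤ ε₁ → 0 < t₀ →
      1 / 2 ^ m ≤ δ₀ → 4 / 2 ^ m < c₀ →
      Nonempty (Necks θ M β σ₀ f v m (k₃ + k₁ + K₀ θ M k₁ + k₂) P.J P.A) →
      ∀ (J' : Finset (Fin 3 → ℤ)) (π : (Fin 3 → ℤ) → Fin 3 → ℤ), SubCells P (m + k₃) J' π →
      ∀ I : Set Idx, Part Ω v I →
      (∀ u, Tch v (m + k₃) (m + k₃ + k₁ + K₀ θ M k₁) J' u →
        ((m + k₃ + k₁ + K₀ θ M k₁, u) : Idx) ∈ I) →
      (∀ e : Idx × Fin 3, (∃ q ∈ I, EdgeOf e q) →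
        eInt v e (fun x => ENNReal.ofReal ‖cl (F x) (ev e.2)‖) ≠ ⊤) →
      ∀ (σ : V → ℝ) (δ : Idx × Fin 3 → ℝ) (τ : ℝ), ContinuousOn σ Ω → (∀ x ∈ Ω, 0 < σ x) →
      (∀ e, 0 < δ e) → 0 < τ →
      ∃ h : ConHomeo Ω Λ, NetRes2 v I (m + k₃) k₁ (K₀ θ M k₁) J' (C θ M)
        (4 * ε₁ + C θ M / 2 ^ m) τ (fun z => P.A (π z)) f F Ω σ δ h.toFun

end Vale.Agent.P073.H234
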