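import Vale.Agent.P073.H333.ChoiceD
import Vale.Agent.P073.H953.NeckSq

/-!
# P073, P2 (exponent two, rank three): definitions

* `TSet`: a compact set of uniformly good points (Whitney property, rays);
* `P2Cells`: big good cubes of generation `m`, all of whose vertices of generation `m + j` are in
  `T`; the own lattice is the lattice of generation `m + j` in the big cubes;
* `Clean`: the own squares which are not contained in the boundary of a big cube;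
* `Necks`: the necks of `f` on the clean squares;
* `NSet`: the points which must never enter a given neck cube.
-/

namespace Vale.Agent.P073.H234

open MeasureTheory Set Filter Topology Metric Vale.Agent.P073.St Vale.Agent.P073.AB
open Vale.Agent.P073.SQ (ev)
open Vale.Agent.P073.AB.P86 (rel)
open Vale.Agent.P073.H194 (sInt)
open _root_.P073.Net (dyc dyo)
open _root_.P073 (ConBall)
open scoped ENNReal

/-- **uniformly good points** -/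
structure TSet (θ M κ t₀ δ₀ ε₁ : ℝ) (Ω : Set V) (f : V → V) (F : V → Mat) (T : Set V) : Prop where
  comp : IsCompact T
  sub : ∀ a ∈ T, closedBall a (4 * t₀) ⊆ Ω
  low : ∀ a ∈ T, ∀ w, θ * ‖w‖ ≤ ‖cl (F a) w‖
  upp : ∀ a ∈ T, ∀ w, ‖cl (F a) w‖ ≤ M * ‖w‖
  two : ∀ a ∈ T, ∀ b ∈ T, ‖b - a‖ ≤ 4 * t₀ → ‖cl (F b) - cl (F a)‖ ≤ κ ∧
    ‖f b - f a - cl (F a) (b - a)‖ ≤ κ * ‖b - a‖
  ray : ∀ a ∈ T, ∀ i : Fin 3, ∀ t : ℝ, |t| ≤ 2 * t₀ →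
    ‖f (a + t • ev i) - f a - t • cl (F a) (ev i)‖ ≤ κ * |t|
  far : ∀ a ∈ T, ∀ y ∈ Ω, t₀ / 2 ≤ ‖y - a‖ → δ₀ ≤ ‖f y - f a‖
  osc : ∀ a ∈ T, ∀ y, ‖y - a‖ ≤ 4 * t₀ → ‖f y - f a‖ ≤ ε₁

/-- **the big good cubes**, generation `m`, own lattice of generation `m + j` -/
structure P2Cells (p : ℝ) (ε : ℝ≥0∞) (θ M κ c₀ t₀ δ₀ : ℝ) (j : ℕ) (Ω Λ : Set V) (f : V → V)
    (F : V → Mat) (T : Set V) (v : V) (m : ℕ) where
  /-- the big cubes -/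
  J : Finset (Fin 3 → ℤ)
  /-- affine maps -/
  A : (Fin 3 → ℤ) → V → V
  /-- their linear parts -/
  L : (Fin 3 → ℤ) → V →L[ℝ] V
  aff : ∀ z ∈ J, ∀ x y, A z y - A z x = L z (y - x)
  below : ∀ z ∈ J, ∀ w, θ * ‖w‖ ≤ ‖L z w‖
  above : ∀ z ∈ J, ∀ w, ‖L z w‖ ≤ M * ‖w‖
  dyad : ∃ N : ℕ, ∀ z ∈ J, (∀ i j, ∃ a : ℤ, L z (ev j) i = a / 2 ^ N) ∧
    ∀ i, ∃ b : ℤ, A z v i = b / 2 ^ N
  vert : ∀ z ∈ J, ∀ a : Fin 3 → ℤ, pt v (m + j) a ∈ dyc v m z → pt v (m + j) a ∈ T ∧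
    ‖f (pt v (m + j) a) - A z (pt v (m + j) a)‖ ≤ κ / 2 ^ (m + j) ∧
    ‖cl (F (pt v (m + j) a)) - L z‖ ≤ κ
  edge : ∀ z ∈ J, ∀ e : Idx × Fin 3, e.1.1 = m + j → edge v e ⊆ dyc v m z →
    eInt v e (fun x => ENNReal.ofReal ‖cl (F x) (ev e.2) - L z (ev e.2)‖) ≤
      ENNReal.ofReal (κ / 2 ^ (m + j))
  square : ∀ z ∈ J, ∀ s : Idx × Fin 3, s.1.1 = m + j → squ v s ⊆ dyc v m z →
    sInt v s (fun x => ‖cl (F x) - L z‖ₑ ^ (2:ℝ)) ≤ ENNReal.ofReal (κ / 4 ^ (m + j))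
  small : 4 / 2 ^ m ≤ t₀
  fine : 64 * (M + 1) / 2 ^ m ≤ δ₀
  dist : ∀ z ∈ J, ∀ y, (∃ x ∈ dyc v m z, ‖y - x‖ ≤ 4 / 2 ^ m) → c₀ ≤ infDist y Ωᶜ ∧
    c₀ ≤ infDist (f y) Λᶜ ∧ c₀ ≤ infDist (A z y) Λᶜ
  s1 : ∑ z ∈ J, ∫⁻ y in dyc v m z, ‖cl (F y) - L z‖ₑ ^ p ≤ ε
  s2 : ∫⁻ y in Ω \ ⋃ z ∈ J, dyc v m z, ‖cl (F y)‖ₑ ^ p ≤ ε

/-- the cubes of generation `m + j` in the big cubes -/
def ownQ (v : V) (m j : ℕ) (J : Finset (Fin 3 → ℤ)) : Set (Fin 3 → ℤ) :=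
  {w | ∃ z ∈ J, dyc v (m + j) w ⊆ dyc v m z}

/-- the union of the open own cubes -/
def ownO (v : V) (m j : ℕ) (J : Finset (Fin 3 → ℤ)) : Set V :=
  ⋃ w ∈ ownQ v m j J, dyo v (m + j) w

/-- the lower one of the two cubes at a square -/
def dn (s : Idx × Fin 3) : Fin 3 → ℤ := fun k => if k = s.2 then s.1.2 k - 1 else s.1.2 k

/-- clean squares: generation `m + j`, both adjacent cubes are in the big cube `z` -/
def Clean (v : V) (m j : ℕ) (z : Fin 3 → ℤ) (s : Idx × Fin 3) : Prop :=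
  s.1.1 = m + j ∧ dyc v (m + j) s.1.2 ⊆ dyc v m z ∧ dyc v (m + j) (dn s) ⊆ dyc v m z

/-- the necks of `f` on all clean squares; `β`: closeness outside of the necks, in units of the
lattice; `σ`: local sum of the radii -/
structure Necks (θ M β σ : ℝ) (f : V → V) (v : V) (m j : ℕ) (J : Finset (Fin 3 → ℤ))
    (A : (Fin 3 → ℤ) → V → V) where
  /-- discs -/
  ι : Type
  fin : Finite ι
  /-- neck cubes -/
  γ : Type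
  ffin : Fintype γ
  /-- square of the disc -/
  s : ι → Idx × Fin 3
  D : ι → Set V
  c : ι → Set V
  b : γ → V
  ρ : γ → ℝ
  clean : ∀ i, ∃ z ∈ J, Clean v m j z (s i)
  ball : ∀ i, ConBall 2 (D i) (c i)
  disj : ∀ i i', i ≠ i' → Disjoint (D i) (D i')
  sub : ∀ i, D i ⊆ rel v (s i)
  op : ∀ i, ∃ U, IsOpen U ∧ D i \ c i = squ v (s i) ∩ U
  circ : ∀ i, ∃ g, ∀ x ∈ c i, f x ∈ Metric.ball (b g) (ρ g)
  close : ∀ z ∈ J, ∀ s, Clean v m j z s → ∀ x ∈ squ v s, (∀ i, x ∉ D i \ c i) →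
    ‖f x - A z x‖ ≤ β / 2 ^ (m + j)
  pos : ∀ g, 0 < ρ g
  bdisj : ∀ g g', g ≠ g' → Disjoint (closedBall (b g) (ρ g)) (closedBall (b g') (ρ g'))
  loc : ∀ y, ∑ g with ‖b g - y‖ ≤ 8 / 2 ^ (m + j), ρ g ≤ σ / 2 ^ (m + j)
  near : ∀ g, ∃ z ∈ J, ∃ s, Clean v m j z s ∧ ∃ x ∈ squ v s, ‖b g - A z x‖ ≤ 2 * β / 2 ^ (m + j)

/-- the lattice box around the point `o` -/
def dbox (v : V) (m : ℕ) (t₀ : ℝ) (o : V) : Set V :=
  {x | ∀ k, v k + ((⌊2 ^ m * (o k - v k)⌋ : ℝ) - ⌈2 ^ m * t₀⌉) / 2 ^ m < x k ∧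
    x k < v k + ((⌊2 ^ m * (o k - v k)⌋ : ℝ) + 1 + ⌈2 ^ m * t₀⌉) / 2 ^ m}

/-- the points outside of the box -/
def NExt (v : V) (m j : ℕ) (J : Finset (Fin 3 → ℤ)) (t₀ : ℝ) {ι : Type} (D c : ι → Set V)
    (Ω : Set V) (o : V) : Set V :=
  {x | x ∈ Ω ∧ x ∉ ownO v m j J ∧ (∀ i, x ∉ D i \ c i) ∧ x ∉ dbox v m t₀ o}

/-- the good points of the clean squares outside of the discs -/
def NSq (v : V) (m j : ℕ) (J : Finset (Fin 3 → ℤ)) {ι : Type} (D : ι → Set V) (o : V) (R : ℝ) :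
    Set V :=
  {x | (∃ z ∈ J, ∃ s, Clean v m j z s ∧ x ∈ squ v s) ∧ (∀ i, x ∉ D i) ∧ R < ‖x - o‖}

/-- the boundary circles of the discs -/
def NCi {ι : Type} (c : ι → Set V) (o : V) (R : ℝ) : Set V :=
  {x | ∃ i, x ∈ c i ∧ ∃ y ∈ c i, R < ‖y - o‖}

/-- the own edges -/
def NEd (v : V) (m j : ℕ) (J : Finset (Fin 3 → ℤ)) (o : V) (R : ℝ) : Set V :=
  {x | (∃ z ∈ J, ∃ e : Idx × Fin 3, e.1.1 = m + j ∧ edge v e ⊆ dyc v m z ∧ x ∈ edge v e) ∧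
    R < ‖x - o‖}

/-- the rays from the own vertices which point away from `o` -/
def NRay (v : V) (m j : ℕ) (J : Finset (Fin 3 → ℤ)) (t₀ : ℝ) (o : V) (R : ℝ) : Set V :=
  {x | ∃ z ∈ J, ∃ a : Fin 3 → ℤ, pt v (m + j) a ∈ dyc v m z ∧ ∃ (k : Fin 3) (t : ℝ),
    |t| ≤ 2 * t₀ ∧ x = pt v (m + j) a + t • ev k ∧ 0 ≤ t * (pt v (m + j) a k - o k) ∧
    |pt v (m + j) a k - o k| = ‖pt v (m + j) a - o‖ ∧ R < ‖pt v (m + j) a - o‖}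

/-- **the points which must never enter the neck cube of `o`** -/
def NSet (v : V) (m j : ℕ) (J : Finset (Fin 3 → ℤ)) (t₀ : ℝ) {ι : Type} (D c : ι → Set V)
    (Ω : Set V) (o : V) (R : ℝ) : Set V :=
  NExt v m j J t₀ D c Ω o ∪ NSq v m j J D o R ∪ NCi c o R ∪ NEd v m j J o R ∪ NRay v m j J t₀ o R

/-- **[PATHS]** -/
def SpecPaths : Prop :=
  ∀ (Ω : Set V) (v : V) (m j : ℕ) (J : Finset (Fin 3 → ℤ)) (t₀ : ℝ) (ι : Type) (D c : ι → Set V)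
    (s : ι → Idx × Fin 3) (o : V) (R : ℝ), IsOpen Ω → IsPreconnected Ω → Finite ι → 0 < R →
    4 / 2 ^ m ≤ t₀ → 2 ≤ j →
    (∃ z ∈ J, dyc v m z ⊆ ball o (2 / 2 ^ m)) → closedBall o (3 * t₀) ⊆ Ω →
    (∀ z ∈ J, dyc v m z ⊆ Ω) →
    (∀ z ∈ J, ∀ a : Fin 3 → ℤ, pt v (m + j) a ∈ dyc v m z →
      closedBall (pt v (m + j) a) (4 * t₀) ⊆ Ω) →
    (∀ i, ∃ z ∈ J, Clean v m j z (s i)) → (∀ i, ConBall 2 (D i) (c i)) →
    (∀ i i', i ≠ i' → Disjoint (D i) (D i')) → (∀ i, D i ⊆ rel v (s i)) →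
    (∀ i, ∃ U, IsOpen U ∧ D i \ c i = squ v (s i) ∩ U) →
    IsPreconnected (NSet v m j J t₀ D c Ω o R)

end Vale.Agent.P073.H234
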