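import Vale.Agent.P073.H234.ChainDef
import Vale.Agent.P073.H333.NetInA

/-!
# P073, [CHAIN]: the data of the chain up to Round 2 (existence)
-/

open Set Metric Topology Filter MeasureTheory Matrix WithLp
open scoped ENNReal NNReal

namespace Vale.Agent.P073.H234.Ch

open Vale.Agent.P073
open Vale.Agent.P073.St (V Mat)
open Vale.Agent.P073.SQ (ev)
open Vale.Agent.P073.AB (Idx Part edge eInt cl RatGood)
open Vale.Agent.P073.H73 (MinEdge)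
open Vale.Agent.P073.H194 (cellT Gen)
open Vale.Agent.P073.H696
open Vale.Agent.P073.H239 (DomL DomO)
open Vale.Agent.P073.H726 (LBOn)
open Vale.Agent.P073.H851 (M3)
open _root_.P073 (ConHomeo)
open _root_.P073.Net (dyc dyo)

theorem Q₀_pos (p : ℝ) (F : V → Mat) (E₀ : V → ℝ) (y : V) : 0 < Q₀ p F E₀ y := by
  unfold Q₀; positivity

theorem Q₁_pos (p : ℝ) (F : V → Mat) (E₀ Eb : V → ℝ) (y : V) : 0 < Q₁ p F E₀ Eb y := by
  unfold Q₁; positivity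

/-- the choice of the margins -/
theorem exists_c₀ {φ Q : V → ℝ} (hφ : ∀ x, 0 < φ x) (hQ : ∀ x, 0 < Q x) {ε : ℝ} (hε : 0 < ε) :
    ∃ c₀ : V → ℝ, (∀ x, 0 < c₀ x ∧ c₀ x ≤ 1 / 64) ∧ ∀ x, 24 * c₀ x ≤ φ x / 2 ∧
      24 * c₀ x * Q x ≤ ε := by
  refine ⟨fun x => min (1 / 64) (min (φ x / 48) (ε / (24 * Q x))), fun x => ⟨?_, min_le_left _ _⟩,
    fun x => ⟨?_, ?_⟩⟩
  · have := hφ x
    have := hQ x
    exact lt_min (by norm_num) (lt_min (by positivity) (by positivity))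
  · have : min (1 / 64) (min (φ x / 48) (ε / (24 * Q x))) ≤ φ x / 48 :=
      (min_le_right _ _).trans (min_le_left _ _)
    linarith
  · have h1 : min (1 / 64) (min (φ x / 48) (ε / (24 * Q x))) ≤ ε / (24 * Q x) :=
      (min_le_right _ _).trans (min_le_right _ _)
    have h2 := hQ x
    rw [le_div_iff₀ (by positivity)] at h1
    linarith

/-- the choice of the depths -/
theorem exists_a {φ Q : V → ℝ} (hφ : ∀ x, 0 < φ x) (hQ : ∀ x, 0 < Q x) {ε : ℝ} (hε : 0 < ε) :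
    ∃ a : V → ℕ, (∀ x, 4 ≤ a x) ∧ ∀ x, 24 / 2 ^ a x ≤ φ x / 2 ∧ 48 / 2 ^ a x * Q x ≤ ε := by
  have h1 : ∀ x, ∃ a : ℕ, 4 ≤ a ∧ 24 / 2 ^ a ≤ φ x / 2 ∧ 48 / 2 ^ a * Q x ≤ ε := by
    intro x
    have h2 := hφ x
    have h3 := hQ x
    obtain ⟨a, ha⟩ := exists_pow_lt_of_lt_one
      (show 0 < min (φ x / 48) (ε / (48 * Q x)) from lt_min (by positivity) (by positivity))
      (show (1 / 2 : ℝ) < 1 by norm_num)
    have h4 : ((1:ℝ) / 2 ^ (max 4 a)) ≤ (1 / 2) ^ a := by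
      rw [← _root_.one_div_pow]
      exact pow_le_pow_of_le_one (by norm_num) (by norm_num) (le_max_right _ _)
    have h5 : (1:ℝ) / 2 ^ (max 4 a) ≤ φ x / 48 := h4.trans (ha.le.trans (min_le_left _ _))
    have h6 : (1:ℝ) / 2 ^ (max 4 a) ≤ ε / (48 * Q x) := h4.trans (ha.le.trans (min_le_right _ _))
    refine ⟨max 4 a, le_max_left _ _, ?_, ?_⟩
    · have : (24:ℝ) / 2 ^ (max 4 a) = 24 * (1 / 2 ^ (max 4 a)) := by ring
      rw [this]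
      linarith
    · have : (48:ℝ) / 2 ^ (max 4 a) = 48 * (1 / 2 ^ (max 4 a)) := by ring
      rw [this]
      rw [le_div_iff₀ (by positivity)] at h6
      linarith
  choose a h2 h3 using h1
  exact ⟨a, h2, h3⟩

/-- the solid cubes in a box: their generation -/
theorem solid_gen {Ω : Set V} {v : V} {H : V → ℝ≥0∞} {K : Set Idx} {n N N' k₁ : Idx → ℕ}
    {r : V → ℝ} {ε : ℝ≥0∞} {tol : Idx → ℝ≥0∞} {I : Set Idx}
    (D : Dom Ω v H K n N r ε tol I N')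
    (hdisj : ∀ k ∈ K, ∀ k' ∈ K, k ≠ k' → Disjoint (dyo v k.1 k.2) (dyo v k'.1 k'.2))
    (hn : ∀ k ∈ K, k.1 ≤ n k) {k q : Idx} (hk : k ∈ K)
    (hq : q ∈ solid v K n (part1 v K n k₁ I)) (hqk : dyc v q.1 q.2 ⊆ dyc v k.1 k.2) :
    q.1 = n k + k₁ k ∨ q.1 = N k := by
  -- two cubes of `K` which meet
  have key : ∀ k' ∈ K, (dyc v k.1 k.2 ∩ dyo v k'.1 k'.2).Nonempty → k = k' := by
    rintro k' hk' ⟨y, hy, hy'⟩
    by_contra hne
    have h1 := hdisj k hk k' hk' hne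
    have h2 : dyc v k.1 k.2 ⊆ closure (dyo v k.1 k.2) := by
      rw [H333.closure_dyo]
    obtain ⟨z, hz, hz'⟩ := mem_closure_iff.1 (h2 hy) _ (_root_.P073.Net.isOpen_dyo v k'.1 k'.2) hy'
    exact disjoint_left.1 h1 hz' hz
  obtain ⟨hq1, k', hk', y, hyq, hyk'⟩ := hq
  have hkk : k = k' := key k' hk' ⟨y, hqk hyq, H911.blkS_sub (hn k' hk') hyk'⟩
  subst hkk
  rcases hq1 with ⟨hqI, -⟩ | ⟨k'', hk'', he, z, hz, hs⟩
  · right
    rcases D.out k hk q hqI hqk with h | ⟨-, h⟩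
    · exact h.1
    · exact (disjoint_left.1 h hyq hyk').elim
  · left
    have h3 : dyc v q.1 q.2 ⊆ dyo v k''.1 k''.2 :=
      hs.trans ((subset_biUnion_of_mem (u := fun z => dyc v (n k'') z) hz).trans
        (H911.blkS_sub (hn k'' hk'')))
    have : k = k'' := key k'' hk'' ⟨y, hqk hyq, h3 hyq⟩
    rw [this]
    exact he

/-- the numbers `κ` -/
theorem exists_κ {κ₀ c₀ Q : V → ℝ} {a : V → ℕ} (h1 : ∀ y, 0 < κ₀ y) (h2 : ∀ y, 0 < c₀ y)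
    (h3 : ∀ y, 0 < Q y) {ε₃ r t : ℝ} (hε : 0 < ε₃) (hr : 0 < r) (ht : 0 < t) :
    ∃ κ : V → ℝ, ∀ y, 0 < κ y ∧ κ y ≤ κ₀ y ∧ κ y ≤ c₀ y / 2 ^ a y ∧ κ y * Q y ≤ ε₃ ∧ κ y ≤ r ∧
      κ y ≤ t := by
  refine ⟨fun y => min (κ₀ y) (min (c₀ y / 2 ^ a y) (min (ε₃ / Q y) (min r t))), fun y => ?_⟩
  have a1 := h1 y
  have a2 := h2 y
  have a3 := h3 y
  refine ⟨lt_min a1 (lt_min (by positivity) (lt_min (by positivity) (lt_min hr ht))),
    min_le_left _ _, (min_le_right _ _).trans (min_le_left _ _), ?_,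
    (min_le_right _ _).trans ((min_le_right _ _).trans ((min_le_right _ _).trans
      (min_le_left _ _))), (min_le_right _ _).trans ((min_le_right _ _).trans
      ((min_le_right _ _).trans (min_le_right _ _)))⟩
  have : min (κ₀ y) (min (c₀ y / 2 ^ a y) (min (ε₃ / Q y) (min r t))) ≤ ε₃ / Q y :=
    (min_le_right _ _).trans ((min_le_right _ _).trans (min_le_left _ _))
  rwa [le_div_iff₀ a3] at this

/-- the tolerances of the partition of the domain -/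
theorem exists_tolD {v : V} {Q : Idx → ℝ} (hQ : ∀ k, 0 < Q k) {ε₃ : ℝ} (hε : 0 < ε₃)
    (N : Idx → ℕ) : ∃ tolD : Idx → ℝ≥0∞, (∀ k, tolD k ≠ 0) ∧
      (∀ k, tolD k ≤ ENNReal.ofReal ((1 / 2 ^ N k) ^ 3)) ∧
      ∀ k, ENNReal.ofReal (Q k) * tolD k ≤ ENNReal.ofReal ε₃ * volume (dyc v k.1 k.2) := by
  have hv : ∀ k : Idx, volume (dyc v k.1 k.2) = ENNReal.ofReal ((1 / 2 ^ k.1) ^ 3) := fun k => by
    rw [H989.volume_dyc]
  refine ⟨fun k => ENNReal.ofReal (min ((1 / 2 ^ N k) ^ 3) (ε₃ / Q k * (1 / 2 ^ k.1) ^ 3)),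
    fun k => ?_, fun k => ENNReal.ofReal_le_ofReal (min_le_left _ _), fun k => ?_⟩
  · have := hQ k
    exact (ENNReal.ofReal_pos.2 (lt_min (by positivity) (by positivity))).ne'
  · have h1 := hQ k
    rw [hv, ← ENNReal.ofReal_mul h1.le, ← ENNReal.ofReal_mul hε.le]
    refine ENNReal.ofReal_le_ofReal ?_
    have h2 : min ((1 / 2 ^ N k) ^ 3) (ε₃ / Q k * (1 / 2 ^ k.1) ^ 3) ≤
        ε₃ / Q k * (1 / 2 ^ k.1) ^ 3 := min_le_right _ _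
    calc Q k * min ((1 / 2 ^ N k) ^ 3) (ε₃ / Q k * (1 / 2 ^ k.1) ^ 3) ≤
        Q k * (ε₃ / Q k * (1 / 2 ^ k.1) ^ 3) := mul_le_mul_of_nonneg_left h2 h1.le
      _ = _ := by field_simp

theorem mod_mono {Ω Λ : Set V} {f : V → V} {δ c₀ : ℝ} {J₀ : Set Idx} {Tt : V → V} {δs δ' : V → ℝ}
    (h : Mod Ω Λ f δ c₀ J₀ Tt δs) (h' : ∀ a, δ' a ≤ δs a) : Mod Ω Λ f δ c₀ J₀ Tt δ' :=
  fun a ha y hy y' hy' h1 h2 => h a ha y hy y' hy' h1 (h2.trans (h' a))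

/-- the sum of the tolerances -/
theorem exists_tolQ {Ω : Set V} {v : V} {I K : Set Idx} {n k₁ : Idx → ℕ} (hI : Part Ω v I)
    (C₂ : ℝ) (B : Idx → ℝ) {ε : ℝ≥0∞} (hε : ε ≠ 0) :
    ∃ tol : Idx → ℝ≥0∞, (∀ q, tol q ≠ 0) ∧ ∀ Eq : Idx → ℝ,
      (∀ q, (∀ k ∈ K, ¬ dyc v q.1 q.2 ⊆ dyc v k.1 k.2) → Eq q ≤ C₂) →
      (∀ k ∈ K, ∀ q : Idx, dyc v q.1 q.2 ⊆ dyc v k.1 k.2 → Eq q ≤ B k) →
      ∑' q : {q : Idx // q ∈ part1 v K n k₁ I \ solid v K n (part1 v K n k₁ I)},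
        ENNReal.ofReal (Eq q.1) * (nSq v (part1 v K n k₁ I) q.1 * tol q.1) ≤ ε := by
  obtain ⟨tol, h1, h2⟩ := H523.exists_tol hI (H523.EMx v K C₂ B) hε
  refine ⟨tol, fun q => (h1 q).1, fun Eq h3 h4 => ?_⟩
  have h5 := h2 (part1 v K n k₁ I \ solid v K n (part1 v K n k₁ I)) Eq
    (fun q hq => (H523.pas_mem hq).1) fun q _ => H523.le_EMx h3 h4 q
  refine le_trans (le_of_eq ?_) h5
  refine tsum_congr fun q => ?_
  rw [H523.nSq_eq (H523.pas_mem q.2).2]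

/-- **[CHAIN], the data** -/
theorem exists_chX {p : ℝ} (hSt : St1C p) (hUse : SpecUse p) (hZo : SpecZo p) :
    ∃ C₂ : ℝ, 0 < C₂ ∧ ∀ (Cu δ : ℝ) (Lc : M3 → ℝ) (j : ℕ) (Ω Λ : Set V) (f : V → V) (F : V → Mat)
      (G : V → (ℕ → ℕ) → Prop) (εB ε ε' M₀ b r₀ : ℝ) (S Zo : Set V) (XT : XT' Λ)
      (XD : V → Set Idx → Prop), 1 ≤ Cu → (∀ M, 1 ≤ Lc M) → 0 < δ → 7 ≤ j →
      St.IsBoundedDomain Ω → St.IsBoundedDomain Λ → St.IsHomeo Ω Λ f → St.IsSobolev p Ω f F →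
      0 < ε → 0 < ε' → ε' ≤ 1 → 0 < b → 0 < r₀ →
      (∃ r > 0, ∫⁻ x in {x | x ∈ Ω ∧ ∃ y ∈ Zo, ‖f x - y‖ ≤ r}, HF p Ω F x ≤
        ENNReal.ofReal (ε / 2 ^ p)) →
      BoxG G p εB ε M₀ Ω Λ f F S → TgtG G Cu Lc Ω Λ ε ε' j M₀ Zo XT →
      (∀ v nn, G v nn → DomO Ω v nn (HF p Ω F) S r₀ (XD v)) → ∀ ε₃ > 0,
      ∃ (v : V) (nn : ℕ → ℕ) (X : R2 p Cu Lc δ j ε' Ω Λ f F v) (c : ℝ≥0∞) (τ φ κ μ : V → ℝ)
        (s : V → ℕ) (c₀ : V → ℝ) (a k₁ : V → ℕ) (E₀ Eb r : V → ℝ) (εD : ℝ≥0∞)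
        (tolD : Idx → ℝ≥0∞) (I : Set Idx) (N' : Idx → ℕ) (r' : V → ℝ), G v nn ∧
        XT X.ρ X.J₀ X.Tt r' ∧ (∀ a ∈ Ω, X.δs a ≤ r' a) ∧ XD v I ∧
        (∀ k ∈ X.K, Disjoint (dyc v k.1 k.2) S) ∧
        ChX X C₂ εB M₀ r₀ b ε₃ c τ φ κ μ s nn c₀ a k₁ E₀ Eb r εD tolD I N' := by
  obtain ⟨C₂, hC₂, hSt⟩ := hSt
  refine ⟨C₂, hC₂, ?_⟩
  intro Cu δ Lc j Ω Λ f F G εB ε ε' M₀ b r₀ S Zo XT XD hCu hLc hδ hj hΩ hΛ hf hF hε hε' hε1 hb hr₀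
    hZ hB hT hD ε₃ hε₃
  obtain ⟨rZ, hrZ, hZ⟩ := hZ
  obtain ⟨τ, c, ⟨hτc, hτ0, hτp, hc⟩, hT⟩ := hT
  obtain ⟨φ, hφ, hB⟩ := hB τ c hτc hτ0 hτp hc
  obtain ⟨E₀, hE₀, hSt⟩ := hSt Ω Λ f F hΩ hΛ hf hF
  obtain ⟨c₀, hc₀, hc₀φ⟩ := exists_c₀ hφ (Q₀_pos p F E₀) hε₃
  obtain ⟨Eb, hEb, hSt⟩ := hSt c₀ hc₀
  obtain ⟨a, ha4, haφ⟩ := exists_a hφ (Q₁_pos p F E₀ Eb) hε₃
  obtain ⟨k₁, s, κ₀, μ₀, hks, hSt⟩ := hSt a ε' b ha4 hε' hb
  have h2p : (0:ℝ) < 2 ^ p := by positivity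
  have hvol : 0 ≤ (volume Ω).toReal := ENNReal.toReal_nonneg
  obtain ⟨κ, hκ⟩ := exists_κ (a := a) (fun y => (hks y).1) (fun y => (hc₀ y).1)
    (Q₁_pos p F E₀ Eb) hε₃ hrZ
    (show 0 < ε / (2 ^ p * ((volume Ω).toReal + 1)) by positivity)
  set μ : V → ℝ := fun y => min (μ₀ y) r₀ with hμ
  have hμ0 : ∀ y, 0 < μ y := fun y => lt_min (hks y).2.1 hr₀
  obtain ⟨v, nn, K, x, hG, Bx, hKS, hhigh⟩ := hB κ μ s (fun y => (hκ y).1) hμ0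
  have hSt := hSt κ μ (fun y => ⟨(hκ y).1, (hκ y).2.1, hμ0 y, min_le_left _ _⟩) εB M₀ c τ φ v nn K
    x Bx
  -- the target
  have hZs := hZo Ω Λ f F εB ε M₀ rZ c τ φ κ μ s v nn K x c₀ a Zo hΩ hf hF Bx
    (fun y => (hc₀ y).1) hε hrZ (fun y => (hκ y).2.2.2.2.1) (fun y => by
      have h1 := (hκ y).2.2.2.2.2
      rw [le_div_iff₀ (by positivity)] at h1
      have h2 : 2 ^ p * κ y * (volume Ω).toReal ≤ κ y * (2 ^ p * ((volume Ω).toReal + 1)) := by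
        have h3 : 0 < κ y * 2 ^ p := mul_pos (hκ y).1 h2p
        nlinarith
      linarith) hZ
  obtain ⟨W, δt, ρ, J₀, J, κ', nt, w, Act, Core, CoreN, Tt, r', hW, tg, hsz, hszε, hr', hXT⟩ :=
    hUse Cu Lc Ω Λ f F εB ε ε' ε' M₀ j c τ φ κ μ s v nn K x c₀ a (fun k => k.1 + s (x k)) Zo XT
      hΩ hΛ hf Bx hc₀ ha4 (fun y => by linarith [(hc₀φ y).1, (haφ y).1])
      (fun y => ⟨(hκ y).1, (hκ y).2.2.1⟩) hhigh hZs hε' (hT v nn hG)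
  -- the modulus
  have hfc : ContinuousOn f Ω ∧ MapsTo f Ω Λ := by
    obtain ⟨g, h1, h2, -⟩ := hf
    exact ⟨h2, fun x hx => (h1.1 x hx).1⟩
  obtain ⟨δ', hδ', hmod⟩ := H819.exists_mod (Ω := Ω) (f := f) Tt hΩ.1 hΛ hfc.1 hfc.2 tg.size
    (fun t ht => tg.tile t (tg.sub ht)) hδ (c₀ := 1 / 64) (by norm_num)
  set δs : V → ℝ := fun a => min (δ' a) (r' a) with hδs
  obtain ⟨r, hr, hSt⟩ := hSt δs (hδ'.min hr')
  -- the domain
  obtain ⟨tolD, htD, htD3, htDQ⟩ := exists_tolD (v := v) (fun k : Idx => Q₁_pos p F E₀ Eb (x k)) hε₃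
    (fun k => k.1 + s (x k))
  obtain ⟨I, N', dom, hNN, hXD⟩ := hD v nn hG K (fun k => k.1 + a (x k)) (fun k => k.1 + s (x k)) r
    (ENNReal.ofReal (ε₃ / C₂)) tolD (fun k hk => ⟨(Bx.pt k hk).2.1, by
      have := ha4 (x k)
      omega, by
      have := (hks (x k)).2.2.2
      omega⟩) Bx.disj Bx.fin hKS hr
    (ENNReal.ofReal_pos.2 (by positivity)).ne' htD
  obtain ⟨tol, htol, htolQ⟩ := exists_tolQ (K := K) (n := fun k => k.1 + a (x k))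
    (k₁ := fun k => k₁ (x k)) dom.part C₂ (fun k => Eb (x k))
    (ENNReal.ofReal_pos.2 hε₃).ne'
  obtain ⟨Eq, h₁, e0, e1, e2, e3, st, clo, edg⟩ := hSt (ENNReal.ofReal (ε₃ / C₂)) tolD I N'
    dom.toDom hNN (fun k _ => htD3 k) tol htol
  have hgen : ∀ k ∈ K, ∀ q ∈ solid v K (fun k => k.1 + a (x k))
      (part1 v K (fun k => k.1 + a (x k)) (fun k => k₁ (x k)) I), dyc v q.1 q.2 ⊆ dyc v k.1 k.2 →
      k.1 + a (x k) + k₁ (x k) ≤ q.1 ∧ q.1 ≤ k.1 + s (x k) := by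
    intro k hk q hq hqk
    have h1 := (hks (x k)).2.2.2
    rcases solid_gen dom.toDom Bx.disj (fun k _ => Nat.le_add_right _ _) hk hq hqk with h | h
    · omega
    · omega
  set X : R2 p Cu Lc δ j ε' Ω Λ f F v :=
    { H := HF p Ω F
      K := K
      x := x
      n := fun k => k.1 + a (x k)
      c₀ := fun k => c₀ (x k)
      E := fun k => E₀ (x k)
      Eq := Eq
      δs := δs
      tol := tol
      I₁ := part1 v K (fun k => k.1 + a (x k)) (fun k => k₁ (x k)) I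
      S := solid v K (fun k => k.1 + a (x k))
        (part1 v K (fun k => k.1 + a (x k)) (fun k => k₁ (x k)) I)
      h₁ := h₁
      W := W
      δt := δt
      ρ := ρ
      J₀ := J₀
      J := J
      κ := κ'
      nt := nt
      w := w
      Act := Act
      Core := Core
      CoreN := CoreN
      Tt := Tt
      hε := ⟨hε', hε1⟩
      hCu := hCu
      hLc := hLc
      hj := hj
      hδ := hδ
      hΩ := hΩ
      hΛ := hΛ
      hf := hf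
      box := fun k hk => ⟨(Bx.pt k hk).2.1, by
        have := ha4 (x k)
        omega, (hc₀ (x k)).1, (hc₀ (x k)).2, (Bx.pt k hk).2.2.1, hE₀ (x k)⟩
      hW := hW
      disj := Bx.disj
      fin := Bx.fin
      st := st
      tg := tg
      mod := mod_mono hmod fun a => min_le_left _ _
      sz := fun k hk y hy => (hsz k hk y hy).1
      sz' := fun k hk q hq hqk y hy => (hsz k hk y hy).2.trans_le
        (one_div_le_one_div_of_le (by positivity)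
          (pow_le_pow_right₀ (by norm_num) (hgen k hk q hq hqk).2))
      szε := hszε
      szS := fun k hk q hq hqk => by
        have h1 := (hgen k hk q hq hqk).1
        have h2 := (hks (x k)).2.2.1
        have h3 : (1:ℝ) / 2 ^ q.1 ≤ 1 / 2 ^ (k.1 + a (x k) + k₁ (x k)) :=
          one_div_le_one_div_of_le (by positivity) (pow_le_pow_right₀ (by norm_num) h1)
        refine h3.trans ?_
        rw [pow_add _ (k.1 + a (x k)), ← one_div_mul_one_div, div_eq_mul_one_div (c₀ (x k)),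
          mul_comm]
        exact mul_le_mul_of_nonneg_right h2 (by positivity) } with hX
  refine ⟨v, nn, X, c, τ, φ, κ, μ, s, c₀, a, k₁, E₀, Eb, r, ENNReal.ofReal (ε₃ / C₂), tolD, I, N',
    r', hG, hXT, fun a _ => min_le_right _ _, hXD, hKS, ?_⟩
  exact
    { H := rfl
      n := rfl
      cc := rfl
      E := rfl
      box := Bx
      dom := dom
      I₁ := rfl
      S := rfl
      C₂0 := hC₂
      E₀Q := hE₀
      Eb0 := hEb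
      Eq0 := e0
      Eq1 := e1
      Eq2 := e2
      Eq3 := e3
      c₀1 := hc₀
      a4 := ha4
      k₁s := fun y => (hks y).2.2
      ε₃0 := hε₃
      cQ := fun y => (hc₀φ y).2
      aQ := fun y => (haφ y).2
      κQ := fun y => ⟨(hκ y).1, (hκ y).2.2.2.1⟩
      μr := fun y => ⟨hμ0 y, min_le_right _ _⟩
      εDQ := by
        rw [← ENNReal.ofReal_mul hC₂.le, mul_div_cancel₀ _ hC₂.ne']
      tolDQ := fun k _ => htDQ k
      tolQ := htolQ Eq e1 e2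
      clo := clo
      edg := edg }

/-- **[CHAIN-B]** the local energies (989). The constant depends only on `p` and `C₂`. -/
def SpecEnCh (p : ℝ) : Prop :=
  ∀ C₂ : ℝ, 0 < C₂ → ∃ C : ℝ, ∀ (Ω : Set V) (ε₂ : ℝ), St.IsBoundedDomain Ω → 0 < ε₂ →
    ∃ ε₃ > 0, ∀ (Cu δ : ℝ) (Lc : M3 → ℝ) (j : ℕ) (ε' : ℝ) (Λ : Set V) (f : V → V) (F : V → Mat)
      (v : V) (X : R2 p Cu Lc δ j ε' Ω Λ f F v) (εB M₀ r₀ b : ℝ) (c : ℝ≥0∞) (τ φ κ μ : V → ℝ)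
      (s : V → ℕ) (nn : ℕ → ℕ) (c₀ : V → ℝ) (a k₁ : V → ℕ) (E₀ Eb r : V → ℝ) (εD : ℝ≥0∞)
      (tolD : Idx → ℝ≥0∞) (I : Set Idx) (N' : Idx → ℕ), St.IsSobolev p Ω f F →
      ChX X C₂ εB M₀ r₀ b ε₃ c τ φ κ μ s nn c₀ a k₁ E₀ Eb r εD tolD I N' →
      ∀ A : Set V, H239.enX X A ≤ ENNReal.ofReal C *
        (∫⁻ y in {y | y ∈ Ω ∧ infDist y A ≤ r₀}, HF p Ω F y) + ENNReal.ofReal ε₂

/-- **[CHAIN]** -/
theorem specChain_of {p : ℝ} (hp : 0 ≤ p) (hSt : H304.K3C p → St1C p) (hUse : SpecUse p)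
    (hZo : SpecZo p) (hEn : SpecEnCh p) : H239.SpecChain p := by
  intro hK
  obtain ⟨C₂, hC₂, H⟩ := exists_chX (hSt hK) hUse hZo
  obtain ⟨C, hEn⟩ := hEn C₂ hC₂
  have h2p : (1:ℝ) ≤ 2 ^ p := Real.one_le_rpow (by norm_num) hp
  refine ⟨max C (2 ^ p), h2p.trans (le_max_right _ _), ?_⟩
  intro Cu δ Lc j hCu hLc hδ hj Ω Λ f F v nn εB ε ε' ε₂ M₀ b r₀ S Zo XT XD hΩ hΛ hf hF rat mono gen
    hε hεε hε1 hε₂ hM₀ hb hr₀ hS hSc hZ hB hT hD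
  obtain ⟨ε₃, hε₃, hEn⟩ := hEn Ω ε₂ hΩ hε₂
  obtain ⟨rZ, hrZ, hZ⟩ := hZ
  obtain ⟨v', nn', X, c, τ, φ, κ, μ, s, c₀, a, k₁, E₀, Eb, r, εD, tolD, I, N', r', ⟨rfl, rfl⟩, hXT,
    hsm, hXD, hKS, hX⟩ := H Cu δ Lc j Ω Λ f F (fun v' nn' => v' = v ∧ nn' = nn) εB ε ε' M₀ b r₀ S
      Zo XT (fun _ => XD) hCu hLc hδ hj hΩ hΛ hf hF hε (hε.trans_le hεε) hε1 hb hr₀
      ⟨rZ, hrZ, hZ.trans (ENNReal.ofReal_le_ofReal
        (div_le_div_of_nonneg_left hε.le (by linarith) (le_max_right _ _)))⟩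
      (BoxG.of_boxO hB) (TgtG.of_tgtO hT) (by rintro v' nn' ⟨rfl, rfl⟩; exact hD) ε₃ hε₃
  refine ⟨X, I, fun k => k₁ (X.x k), r', ?_⟩
  exact
    { xt := hXT
      small := hsm
      xd := hXD
      eq := hX.I₁
      off := hKS
      en := fun A => by
        refine (hEn Cu δ Lc j ε' Λ f F _ X εB M₀ r₀ b c τ φ κ μ s nn' c₀ a k₁ E₀ Eb r εD tolD I N'
          hF hX A).trans ?_
        gcongr
        exact le_max_left _ _
      close := hX.clo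
      edge := hX.edg }

end Vale.Agent.P073.H234.Ch
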