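import Vale.Agent.P073.H234.ChainUse
import Vale.Agent.P073.H989.ChainEn

/-!
# P073, [CHAIN]: `SpecChain p` from Round 1 (`St1C p`)
-/

open Set Metric Topology Filter MeasureTheory Matrix WithLp
open scoped ENNReal NNReal

namespace Vale.Agent.P073.H234.Ch

open Vale.Agent.P073

/-- **[CHAIN]**: the only open input is Round 1 -/
theorem specChain {p : ℝ} (hp : 1 ≤ p) (hSt : H304.K3C p → St1C p) : H239.SpecChain p :=
  specChain_of' hp hSt (H989.specEnCh hp)

end Vale.Agent.P073.H234.Ch
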