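import Vale.Agent.P073.H234.ChainUse
import Vale.Agent.P073.H911.BoxesFin
import Vale.Agent.P073.H851.TgtC
import Vale.Agent.P073.H194.DomL

/-!
# P073, [CHAIN] for finite distortion: the data of Round 2
-/

open Set Metric Topology Filter MeasureTheory Matrix WithLp
open scoped ENNReal NNReal

namespace Vale.Agent.P073.H234.Ch

open Vale.Agent.P073
open Vale.Agent.P073.St (V Mat)
open Vale.Agent.P073.SQ (ev)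
open Vale.Agent.P073.AB (Idx Part edge eInt cl RatGood FinDist)
open Vale.Agent.P073.H73 (MinEdge)
open Vale.Agent.P073.H194 (cellT Gen)
open Vale.Agent.P073.H696
open Vale.Agent.P073.H239 (DomL DomO)
open Vale.Agent.P073.H726 (LBOn)
open Vale.Agent.P073.H851 (M3)
open _root_.P073 (ConHomeo)
open _root_.P073.Net (dyc dyo)

theorem lbOn_const (Ω : Set V) {c : ℝ} (hc : 0 < c) : LBOn Ω fun _ => c :=
  fun _ _ => ⟨c, hc, Eventually.of_forall fun _ _ => le_rfl⟩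

theorem lint_HF_ne_top {p : ℝ} {Ω : Set V} {f : V → V} {F : V → Mat} (hp : 1 ≤ p)
    (hΩ : St.IsBoundedDomain Ω) (hF : St.IsSobolev p Ω f F) : ∫⁻ y, HF p Ω F y ≠ ⊤ := by
  have e : ∫⁻ y, HF p Ω F y = ∫⁻ y in Ω, ‖cl (F y)‖ₑ ^ p := by
    rw [← lintegral_indicator hΩ.1.measurableSet]
    refine lintegral_congr fun y => ?_
    by_cases hy : y ∈ Ω
    · simp only [HF, indicator_of_mem hy]
    · have h0 : ‖Ω.indicator (fun y => cl (F y)) y‖ₑ = 0 := by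
        rw [indicator_of_notMem hy]
        exact enorm_zero (E := V →L[ℝ] V)
      rw [HF, h0, indicator_of_notMem hy]
      exact ENNReal.zero_rpow_of_pos (by linarith)
  rw [e]
  exact PK.IsSob.lintegral_ne_top hp hF

/-- the target, no exceptional set -/
theorem tgtG_of {Cu : ℝ} {Lc : M3 → ℝ} (Ω Λ : Set V) {ε : ℝ} {j : ℕ} {M₀ : ℝ}
    (G : V → (ℕ → ℕ) → Prop) (hj : 2 ≤ j)
    (h : ∃ (τ : V → ℝ) (c : ℝ≥0∞),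
      (Continuous τ ∧ (∀ y, 0 ≤ τ y) ∧ (∀ y, 0 < τ y ↔ y ∈ Λ) ∧ c ≠ 0) ∧
      ∀ (B : Type) (A : B → M3) (b : B → V) (D D' : B → Set V) (α W : B → ℝ≥0∞) (δt : V → ℝ)
        (j : ℕ) (v : V),
        (∀ k, (A k).det ≠ 0) →
        (∀ k, IsCompact (D k) ∧ IsCompact (D' k) ∧ D' k ⊆ interior (D k)) →
        (∀ k, (fun x => A k *ᵥ x + b k) '' D k ⊆ Λ) →
        (∀ k l, k ≠ l → Disjoint ((fun x => A k *ᵥ x + b k) '' D k)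
          ((fun x => A l *ᵥ x + b l) '' D l)) →
        (∀ C ⊆ Λ, IsCompact C → {k | ((fun x => A k *ᵥ x + b k) '' D k ∩ C).Nonempty}.Finite) →
        ∫⁻ y in Λ \ ⋃ k, (fun x => A k *ᵥ x + b k) '' D' k, ENNReal.ofReal (1 / τ y) ^ 3 ≤ c →
        (∀ k, α k ≠ ⊤) → (∀ k, W k ≠ ⊤) →
        ∑' k : {k : B // ENNReal.ofReal (M₀ * |(A k).det|) < α k}, α k.1 * volume (D k.1) ≤
          ENNReal.ofReal ε →
        LBOn Λ δt → 2 ≤ j →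
        ∃ (ρ : V → ℝ) (J₀ J : Set Idx) (κ : Idx → B) (n : Idx → ℕ) (w : Idx → Fin 3 → ℤ)
          (Act Core CoreN : Set V) (Tt : ConHomeo Λ Λ),
          Tgt Cu Lc Λ (2 * ε) (1 / 2 ^ j) A b D α W δt v ρ J₀ J κ n w Act Core CoreN Tt) :
    TgtG G Cu Lc Ω Λ ε (2 * ε) j M₀ ∅ fun _ _ _ _ => True := by
  obtain ⟨τ, c, h1, h⟩ := h
  refine ⟨τ, c, h1, fun v nn _ B A b D D' α W δt a1 a2 a3 a4 a5 a6 a7 a8 a9 _ a10 => ?_⟩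
  obtain ⟨ρ, J₀, J, κ, n, w, Act, Core, CoreN, Tt, ht⟩ :=
    h B A b D D' α W δt j v a1 a2 a3 a4 a5 a6 a7 a8 a9 a10 hj
  exact ⟨ρ, J₀, J, κ, n, w, Act, Core, CoreN, Tt, fun _ => 1, ht, lbOn_const Ω one_pos, trivial⟩

/-- the origins of the boxes -/
def GM (p : ℝ) (Ω : Set V) (f : V → V) (F : V → Mat) (v : V) (nn : ℕ → ℕ) : Prop :=
  StrictMono nn ∧ RatGood v Ω f F ∧ Gen v nn (HF p Ω F)

theorem boxG_of {p ε M₀ : ℝ} {Ω Λ : Set V} {f : V → V} {F : V → Mat}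
    (h : ∀ (τ : V → ℝ) (c : ℝ≥0∞), Continuous τ → (∀ y, 0 ≤ τ y) → (∀ y, 0 < τ y ↔ y ∈ Λ) →
      c ≠ 0 → ∃ φ : V → ℝ, (∀ x, 0 < φ x) ∧ ∀ (κ μ : V → ℝ) (s : V → ℕ), (∀ x, 0 < κ x) →
      (∀ x, 0 < μ x) → ∃ (v : V) (nn : ℕ → ℕ) (K : Set Idx) (x : Idx → V),
        Boxes p ε M₀ c τ φ κ μ s Ω Λ f F v nn K x) :
    BoxG (GM p Ω f F) p ε ε M₀ Ω Λ f F ∅ := by
  intro τ c h1 h2 h3 h4
  obtain ⟨φ, h5, h⟩ := h τ c h1 h2 h3 h4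
  refine ⟨φ, h5, fun κ μ s h6 h7 => ?_⟩
  obtain ⟨v, nn, K, x, B⟩ := h κ μ s h6 h7
  exact ⟨v, nn, K, x, ⟨B.mono, B.rat, B.gen⟩, B, fun k _ => disjoint_empty _, B.high⟩

/-- **[CHAIN] for finite distortion.** -/
theorem exists_chM {p : ℝ} (hp : 3 ≤ p) (hSt : St1C p) :
    ∃ (C₂ Cu : ℝ) (Lc : M3 → ℝ), 0 < C₂ ∧ 1 ≤ Cu ∧ (∀ M, 1 ≤ Lc M) ∧
      ∀ (δ : ℝ) (j : ℕ), 0 < δ → 7 ≤ j → ∀ (Ω Λ : Set V) (f : V → V) (F : V → Mat),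
      St.IsBoundedDomain Ω → St.IsBoundedDomain Λ → St.IsHomeo Ω Λ f → St.IsSobolev p Ω f F →
      FinDist Ω F → ∀ ε : ℝ, 0 < ε → ε ≤ 1 / 2 → ∀ ε₃ > 0,
      ∃ (v : V) (nn : ℕ → ℕ) (X : R2 p Cu Lc δ j (2 * ε) Ω Λ f F v) (M₀ : ℝ) (c : ℝ≥0∞)
        (τ φ κ μ : V → ℝ) (s : V → ℕ) (c₀ : V → ℝ) (a k₁ : V → ℕ) (E₀ Eb r : V → ℝ) (εD : ℝ≥0∞)
        (tolD : Idx → ℝ≥0∞) (I : Set Idx) (N' : Idx → ℕ),
        ChX X C₂ ε M₀ 1 1 ε₃ c τ φ κ μ s nn c₀ a k₁ E₀ Eb r εD tolD I N' := by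
  obtain ⟨C₂, hC₂, H⟩ := exists_chX hSt (specUse (by linarith)) (H16.specZo (by linarith))
  obtain ⟨Cu, Lc, hCu, hLc, hT⟩ := H851.specTgt
  refine ⟨C₂, Cu, Lc, hC₂, hCu, hLc, ?_⟩
  intro δ j hδ hj Ω Λ f F hΩ hΛ hf hF hfd ε hε hε1 ε₃ hε₃
  obtain ⟨M₀, hM₀, hB⟩ := H911.specBoxes hp Ω Λ f F hΩ hΛ hf hF hfd ε hε
  obtain ⟨v, nn, X, c, τ, φ, κ, μ, s, c₀, a, k₁, E₀, Eb, r, εD, tolD, I, N', r', -, -, -, -, -,
    hX⟩ := H Cu δ Lc j Ω Λ f F (GM p Ω f F) ε ε (2 * ε) M₀ 1 1 ∅ ∅ (fun _ _ _ _ => True)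
      (fun _ _ => True) hCu hLc hδ hj hΩ hΛ hf hF hε (by linarith) (by linarith) one_pos one_pos
      ⟨1, one_pos, by simp⟩ (boxG_of hB) (tgtG_of Ω Λ _ (by omega) (hT Λ hΛ ε hε M₀ hM₀))
      (fun v nn hG K n N r ε' tol h1 h2 h3 h4 h5 h6 h7 => by
        obtain ⟨I, N', h8, h9, -⟩ := H194.specDomL Ω v nn (HF p Ω F) ∅ 1 0 hΩ hG.1 hG.2.2
          (lint_HF_ne_top (by linarith) hΩ hF) one_pos (empty_subset _) isCompact_empty K n N r ε'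
          tol h1 h2 h3 h4 h5 h6 h7
        exact ⟨I, N', h8, h9, trivial⟩) ε₃ hε₃
  exact ⟨v, nn, X, M₀, c, τ, φ, κ, μ, s, c₀, a, k₁, E₀, Eb, r, εD, tolD, I, N', hX⟩

end Vale.Agent.P073.H234.Ch
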