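import Vale.Agent.P073.H234.Chain
import Vale.Agent.P073.H622.TgtUse
import Vale.Agent.P073.H16.ZoSpec

/-!
# P073, [CHAIN]: [TGT-USE] and [ZO-SUM] are plugged in
-/

open Set Metric Topology Filter MeasureTheory Matrix WithLp
open scoped ENNReal NNReal

namespace Vale.Agent.P073.H234.Ch

open Vale.Agent.P073

theorem specUse {p : ℝ} (hp : 0 ≤ p) : SpecUse p := by
  intro Cu Lc Ω Λ f F εB ε ε' ε₂ M₀ j c τ φ κ μ s v nn K x c₀ a N Zo XT hΩ hΛ hf B hc₀ ha hφ hκ
    hhigh hZ hε₂ hT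
  exact H622.tgt_useO hp hΛ hf B hc₀ hφ (fun y => (hκ y).2) (fun _ => rfl) hhigh hZ hT N hε₂

/-- **[CHAIN]**: the open inputs are Round 1 and the local energies -/
theorem specChain_of' {p : ℝ} (hp : 1 ≤ p) (hSt : H304.K3C p → St1C p) (hEn : SpecEnCh p) :
    H239.SpecChain p :=
  specChain_of (by linarith) hSt (specUse (by linarith)) (H16.specZo hp) hEn

end Vale.Agent.P073.H234.Ch
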