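import Vale.Agent.P073.H234.Cleaned
import Vale.Agent.P073.H439.CloseSub

/-!
# P073, P2: existence of the cleaned homeomorphism
-/

namespace Vale.Agent.P073.H234

open MeasureTheory Set Filter Topology Metric Vale.Agent.P073.St Vale.Agent.P073.AB
open Vale.Agent.P073.SQ (ev)
open Vale.Agent.P073.AB.P86 (rel)
open _root_.P073.Net (dyc dyo)
open _root_.P073 (ConBall ConHomeo)
open scoped ENNReal

variable {p : ℝ} {ε : ℝ≥0∞} {θ M κ c₀ t₀ δ₀ ε₁ β σ : ℝ} {j : ℕ} {Ω Λ : Set V} {f : V → V}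
  {F : V → Mat} {T : Set V} {v : V} {m : ℕ}
  {C : P2Cells p ε θ M κ c₀ t₀ δ₀ j Ω Λ f F T v m}

/-- restriction to sub-families -/
theorem data_restrict {I J I' J' : Type*} {Ω Λ : Set V} {h : V → V} {q E κ O : I → Set V}
    {φ : I → V →L[ℝ] ℝ} {c : I → ℝ} {b : J → V} {ρ' : J → ℝ} {N : J → Set V}
    (D : H726.RA.Data Ω Λ h q E κ O φ c b ρ' N) (u : I' → I) (hu : Function.Injective u)
    (w : J' → J) (hw : Function.Injective w) :
    H726.RA.Data Ω Λ h (fun i => q (u i)) (fun i => E (u i)) (fun i => κ (u i))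
      (fun i => O (u i)) (fun i => φ (u i)) (fun i => c (u i)) (fun g => b (w g))
      (fun g => ρ' (w g)) (fun g => N (w g)) where
  ball := fun i => D.ball _
  one := fun i => D.one _
  flat := fun i => D.flat _
  Oo := fun i => D.Oo _
  EO := fun i => D.EO _
  OΩ := fun i => D.OΩ _
  Oq := fun i => D.Oq _
  EE := fun i i' h => D.EE _ _ fun h' => h (hu h')
  qE := fun i i' => D.qE _ _
  BΛ := fun g => D.BΛ _
  disj := fun g g' h => D.disj _ _ fun h' => h (hw h')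
  Nc := fun g => D.Nc _
  NΩ := fun g => D.NΩ _
  Nq := fun i g => D.Nq _ _
  NE := fun i g => D.NE _ _
  NB := fun g => D.NB _
  far := fun g => D.far _

/-- the radii are small -/
theorem Necks.ρ_le {J : Finset (Fin 3 → ℤ)} {A : (Fin 3 → ℤ) → V → V}
    (Nk : Necks θ M β σ f v m j J A) (g : Nk.γ) : Nk.ρ g ≤ σ / 2 ^ (m + j) := by
  let _ := Nk.ffin
  refine le_trans ?_ (Nk.loc (Nk.b g))
  refine Finset.single_le_sum (f := Nk.ρ) (fun g _ => (Nk.pos g).le) ?_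
  rw [Finset.mem_filter]
  refine ⟨Finset.mem_univ _, ?_⟩
  rw [sub_self, norm_zero]
  positivity

/-- the circles are nonempty, and off all open discs -/
theorem Necks.exists_circ {J : Finset (Fin 3 → ℤ)} {A : (Fin 3 → ℤ) → V → V}
    (Nk : Necks θ M β σ f v m j J A) (i : Nk.ι) :
    ∃ x ∈ Nk.c i, x ∈ squ v (Nk.s i) ∧ ∀ i', x ∉ Nk.D i' \ Nk.c i' := by
  obtain ⟨x, hx⟩ := H439.bdry_nonempty (Nk.ball i)
  have hxD : x ∈ Nk.D i := (Nk.ball i).1 hx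
  refine ⟨x, hx, P86.rel_sub (Nk.sub i hxD), fun i' hi' => ?_⟩
  by_cases hii : i' = i
  · subst hii
    exact hi'.2 hx
  · exact disjoint_left.1 (Nk.disj i' i hii) hi'.1 hxD

/-- the points `o g` -/
theorem Necks.exists_pt (Nk : Necks θ M β σ f v m j C.J C.A) (hσ : σ ≤ β / 2) (n N : ℕ)
    (J' : Finset (Fin 3 → ℤ)) : ∃ (o : Nk.γ → V) (zz : Nk.γ → Fin 3 → ℤ)
      (ss : Nk.γ → Idx × Fin 3), (∀ g, NeckPt C β (Nk.b g) (o g) (zz g) (ss g)) ∧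
      ∀ g ∈ selG Nk n N J', Sel v (m + j) n N J' (ss g) := by
  have key : ∀ g : Nk.γ, ∃ (o : V) (z : Fin 3 → ℤ) (s : Idx × Fin 3),
      NeckPt C β (Nk.b g) o z s ∧ (g ∈ selG Nk n N J' → Sel v (m + j) n N J' s) := by
    intro g
    by_cases hg : g ∈ selG Nk n N J'
    · obtain ⟨i, hi, hc⟩ := hg
      obtain ⟨x, hx, hxs, hxD⟩ := Nk.exists_circ i
      obtain ⟨z, hz, hs⟩ := Nk.clean i
      refine ⟨x, z, Nk.s i, ⟨hz, hs, hxs, ?_⟩, fun _ => hi⟩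
      have h1 := Nk.close z hz _ hs x hxs hxD
      have h2 := hc x hx
      rw [Metric.mem_ball, dist_eq_norm] at h2
      have h3 := Nk.ρ_le g
      have h4 : σ / 2 ^ (m + j) ≤ β / 2 / 2 ^ (m + j) := by gcongr
      have h5 : 0 < Nk.ρ g := Nk.pos g
      have h6 : β / 2 / 2 ^ (m + j) ≤ β / 2 ^ (m + j) := by
        have : 0 ≤ β / 2 / 2 ^ (m + j) := by linarith
        have e : β / 2 ^ (m + j) = 2 * (β / 2 / 2 ^ (m + j)) := by ring
        linarith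
      calc ‖Nk.b g - C.A z x‖ ≤ ‖Nk.b g - f x‖ + ‖f x - C.A z x‖ :=
            norm_sub_le_norm_sub_add_norm_sub _ _ _
        _ ≤ β / 2 ^ (m + j) + β / 2 ^ (m + j) := by
            rw [norm_sub_rev (Nk.b g)]
            linarith
        _ = _ := by ring
    · obtain ⟨z, hz, s, hs, x, hx, h⟩ := Nk.near g
      exact ⟨x, z, s, ⟨hz, hs, hx, h⟩, fun h => absurd h hg⟩
  choose o zz ss h1 h2 using key
  exact ⟨o, zz, ss, h1, h2⟩

/-- **[K6] existence of the cleaned homeomorphism** -/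
theorem exists_cleaned (hΩ : IsOpen Ω) (hΩc : IsPreconnected Ω) (hΛ : IsOpen Λ)
    (hf : ContinuousOn f Ω) (hP : SpecPaths) (hj : 2 ≤ j)
    (hT : TSet θ M κ t₀ δ₀ ε₁ Ω f F T) (hN : Num θ M κ β)
    (Nk : Necks θ M β σ f v m j C.J C.A) (hδ : β / 2 ^ (m + j) ≤ δ₀ / 2)
    (hc₀ : 4 / 2 ^ (m + j) < c₀) (hσ0 : 0 < σ) (hσ : σ ≤ β / 2) (hσ' : σ ≤ 1 / 40) (n N : ℕ)
    (J' : Finset (Fin 3 → ℤ)) :
    ∃ (o : Nk.γ → V) (G : Finset Nk.γ) (η₀ : ℝ), 0 < η₀ ∧ ∀ η, 0 ≤ η → η ≤ η₀ →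
      ∀ h₀ : ConHomeo Ω Λ, (∀ x ∈ Ω, ‖h₀.toFun x - f x‖ ≤ η) → ∃ h' : ConHomeo Ω Λ,
        ∀ l₀, 0 < l₀ → ∃ (Tc : V → V) (h₁ : ConHomeo Ω Λ),
          Cleaned C Nk n N J' η l₀ o h₀ h' h₁ Tc G := by
  classical
  have := Nk.fin
  let _ := Nk.ffin
  obtain ⟨o, zz, ss, Ho, Hs⟩ := Nk.exists_pt hσ n N J'
  obtain ⟨a, ha, ha1, ha2⟩ := Nk.exists_room hf hT
  have hr : (0:ℝ) < 1 / 2 ^ (m + j) := by positivity
  set G : Finset Nk.γ := Finset.univ.filter fun g => g ∈ selG Nk n N J' with hG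
  have hGm : ∀ g, g ∈ G ↔ g ∈ selG Nk n N J' := fun g => by simp [hG]
  have hβ := hN.β0
  have hβ1 := hN.β1
  set η₀ : ℝ := min a (β / 4 / 2 ^ (m + j)) with hη₀
  have hη₀0 : 0 < η₀ := lt_min ha (by positivity)
  refine ⟨o, G, η₀, hη₀0, fun η hη0 hη h₀ hclose => ?_⟩
  have hηa : η ≤ a := hη.trans (min_le_left _ _)
  have hηb : η < β / 2 / 2 ^ (m + j) := by
    refine (hη.trans (min_le_right _ _)).trans_lt ?_
    gcongr
    norm_num
  have hρ : ∀ g, Nk.ρ g ≤ β / 2 / 2 ^ (m + j) := fun g =>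
    (Nk.ρ_le g).trans (by gcongr)
  have hc₀' : (2 * β + 1) / 2 ^ (m + j) < c₀ := by
    refine lt_of_le_of_lt ?_ hc₀
    gcongr
    linarith
  have D := exists_data hΩ hΩc hP hj hT hN Nk hδ hc₀' hρ Ho hηb hclose (fun i => by
    obtain ⟨g, hg⟩ := ha2 i
    refine ⟨g, fun x hx => ?_⟩
    have := hg x hx
    linarith)
  have D' := data_restrict D (Subtype.val : (selI Nk n N J') → Nk.ι) Subtype.val_injective
    (Subtype.val : G → Nk.γ) Subtype.val_injective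
  -- the circles are in smaller balls
  set ρ₀ : G → ℝ := fun g => Nk.ρ g.1 - a with hρ₀
  have hρ₀0 : ∀ g, 0 < ρ₀ g := fun g => by
    have := ha1 g.1
    simp only [hρ₀]; linarith
  have hρ₀1 : ∀ g, ρ₀ g < Nk.ρ g.1 := fun g => by simp only [hρ₀]; linarith
  have hκ : ∀ i : selI Nk n N J', ∃ g : G, ∀ x ∈ Nk.c i.1,
      h₀.toFun x ∈ Metric.ball (Nk.b g.1) (ρ₀ g) := by
    rintro ⟨i, hi⟩
    obtain ⟨g, hg⟩ := ha2 i
    have hgG : g ∈ G := by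
      rw [hGm]
      refine ⟨i, hi, fun x hx => ?_⟩
      rw [Metric.mem_ball, dist_eq_norm]
      have := hg x hx
      linarith
    refine ⟨⟨g, hgG⟩, fun x hx => ?_⟩
    have hxΩ : x ∈ Ω := by
      obtain ⟨z, hz, hs⟩ := Nk.clean i
      exact C.sub hT hz (hs.sub (P86.rel_sub (Nk.sub i ((Nk.ball i).1 hx))))
    rw [Metric.mem_ball, dist_eq_norm]
    have h1 := hg x hx
    have h2 := hclose x hxΩ
    calc ‖h₀.toFun x - Nk.b g‖ ≤ ‖h₀.toFun x - f x‖ + ‖f x - Nk.b g‖ :=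
          norm_sub_le_norm_sub_add_norm_sub _ _ _
      _ < ρ₀ ⟨g, hgG⟩ := by simp only [hρ₀]; linarith
  obtain ⟨h', q1, q2, q3, -⟩ := H726.RA.retract_all hΛ h₀ D' hρ₀0 hρ₀1 hκ
  refine ⟨h', fun l₀ hl₀ => ?_⟩
  -- the collapse
  have hJ : ∀ g ∈ G, closedBall (Nk.b g) (2 * (1 / 2 ^ (m + j))) ⊆ Λ := by
    intro g _ y hy
    rw [mem_closedBall, dist_eq_norm] at hy
    have H := Ho g
    have h1 := H.near
    have h2 : c₀ ≤ infDist (C.A (zz g) (o g)) Λᶜ :=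
      (C.dist (zz g) H.mem (o g) ⟨o g, H.clean.sub H.sq, by simp; positivity⟩).2.2
    by_contra hcon
    have h3 : infDist (C.A (zz g) (o g)) Λᶜ ≤ ‖C.A (zz g) (o g) - y‖ := by
      rw [← dist_eq_norm]
      exact infDist_le_dist_of_mem hcon
    have h4 : ‖C.A (zz g) (o g) - y‖ ≤ ‖Nk.b g - C.A (zz g) (o g)‖ + ‖y - Nk.b g‖ := by
      have := norm_sub_le (C.A (zz g) (o g) - Nk.b g) (y - Nk.b g)
      rw [sub_sub_sub_cancel_right, norm_sub_rev _ (Nk.b g)] at this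
      exact this
    have e1 : 2 * β / 2 ^ (m + j) = 2 * β * (1 / 2 ^ (m + j)) := by ring
    have e2 : (4:ℝ) / 2 ^ (m + j) = 4 * (1 / 2 ^ (m + j)) := by ring
    rw [e1] at h1
    rw [e2] at hc₀
    nlinarith
  have hw : ∀ x, ∀ s ⊆ G, (∀ g ∈ s, ‖x - Nk.b g‖ ≤ 4 * (1 / 2 ^ (m + j))) →
      ∑ g ∈ s, Nk.ρ g ≤ σ * (1 / 2 ^ (m + j)) := by
    intro x s _ hs
    rw [mul_one_div]
    refine le_trans ?_ (Nk.loc x)
    refine Finset.sum_le_sum_of_subset_of_nonneg (fun g hg => ?_) fun g _ _ => (Nk.pos g).le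
    rw [Finset.mem_filter]
    refine ⟨Finset.mem_univ _, ?_⟩
    rw [norm_sub_rev]
    refine (hs g hg).trans ?_
    rw [mul_one_div]
    gcongr
    norm_num
  obtain ⟨Tc, hTc, hoff⟩ := H190.exists_colB_const hr (fun g _ => (Nk.pos g).le) hσ0.le hσ' hw hl₀
    hΛ hJ
  refine ⟨Tc.toFun, h'.trans Tc, hGm, Nk.ρ_le, hclose, fun x _ => rfl, hTc, hoff,
    fun i hi => ?_, fun x hx hxq => ?_, fun g hg x hx => ?_, fun g hg => ?_⟩
  · obtain ⟨g, hg⟩ := q1 ⟨i, hi⟩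
    exact ⟨g.1, g.2, hg⟩
  · rcases q2 x hx (fun i => hxq i.1 i.2) with h | ⟨g, hg⟩
    · exact Or.inl h
    · exact Or.inr ⟨g.1, g.2, hg⟩
  · exact q3 ⟨g, hg⟩ x hx
  · exact ⟨zz g, ss g, Ho g, Hs g ((hGm g).1 hg)⟩

end Vale.Agent.P073.H234
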