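import Vale.Agent.P073.H304.SegJoin

/-!
# P073, block B09, [HYB]: the hybrid map (many boxes)

`specHyb : H304.SpecHyb`.
-/

namespace Vale.Agent.P073.H234.Hyb

open MeasureTheory Set Filter Topology Metric Vale.Agent.P073.St Vale.Agent.P073.AB
open Vale.Agent.P073.H989 (Bz)
open Vale.Agent.P073.H304 (hyb1 SpecHyb)
open _root_.P073.Net (dyc dyo)
open _root_.P073 (ConHomeo)
open scoped ENNReal

section glue

variable {ι : Type*} {K : Set ι} {R : ι → Set V}

open Classical in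
/-- the map `φ k` on `R k`, `f` outside -/
noncomputable def hyb {E : Type*} (K : Set ι) (R : ι → Set V) (φ : ι → V → E) (f : V → E) (x : V) :
    E :=
  if h : ∃ k ∈ K, x ∈ R k then φ h.choose x else f x

theorem hyb_in {E : Type*} {φ : ι → V → E} {f : V → E}
    (hd : ∀ k ∈ K, ∀ l ∈ K, k ≠ l → Disjoint (R k) (R l)) {k : ι} (hk : k ∈ K) {x : V}
    (hx : x ∈ R k) : hyb K R φ f x = φ k x := by
  have h : ∃ k ∈ K, x ∈ R k := ⟨k, hk, hx⟩
  have e : h.choose = k := by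
    by_contra hne
    exact disjoint_left.1 (hd _ h.choose_spec.1 k hk hne) h.choose_spec.2 hx
  unfold hyb
  rw [dif_pos h, e]

theorem hyb_off {E : Type*} {φ : ι → V → E} {f : V → E} {x : V} (hx : ∀ k ∈ K, x ∉ R k) :
    hyb K R φ f x = f x := by
  unfold hyb
  rw [dif_neg]
  rintro ⟨k, hk, h⟩
  exact hx k hk h

/-- a map which tends to zero at the boundaries of the sets `R k` and vanishes outside is
continuous -/
theorem continuousOn_of_van {Ω : Set V} (hΩ : IsOpen Ω) (hR : ∀ k ∈ K, IsOpen (R k))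
    (lf : ∀ C ⊆ Ω, IsCompact C → {k ∈ K | (R k ∩ C).Nonempty}.Finite) {w : V → V}
    (w0 : ∀ x ∈ Ω, (∀ k ∈ K, x ∉ R k) → w x = 0) (wc : ∀ k ∈ K, ContinuousOn w (R k))
    (van : ∀ k ∈ K, ∀ η > 0, ∃ C ⊆ R k, IsCompact C ∧ ∀ x ∈ R k \ C, ‖w x‖ ≤ η) :
    ContinuousOn w Ω := by
  intro x hx
  by_cases h : ∃ k ∈ K, x ∈ R k
  · obtain ⟨k, hk, hxk⟩ := h
    exact ((wc k hk).continuousAt ((hR k hk).mem_nhds hxk)).continuousWithinAt
  push Not at h
  have hwx : w x = 0 := w0 x hx h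
  refine ContinuousAt.continuousWithinAt ?_
  rw [Metric.continuousAt_iff']
  intro η hη
  obtain ⟨r, hr, hrΩ⟩ := Metric.isOpen_iff.1 hΩ x hx
  have hN : closedBall x (r / 2) ⊆ Ω := (closedBall_subset_ball (by linarith)).trans hrΩ
  have hS := lf _ hN (isCompact_closedBall x (r / 2))
  have hex : ∀ k, ∃ C : Set V, k ∈ K → C ⊆ R k ∧ IsCompact C ∧ ∀ y ∈ R k \ C, ‖w y‖ ≤ η / 2 := by
    intro k
    by_cases hk : k ∈ K
    · obtain ⟨C, h1, h2, h3⟩ := van k hk (η / 2) (by positivity)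
      exact ⟨C, fun _ => ⟨h1, h2, h3⟩⟩
    · exact ⟨∅, fun h => absurd h hk⟩
  choose C hC using hex
  have hU : ∀ᶠ y in 𝓝 x, ∀ k ∈ {k ∈ K | (R k ∩ closedBall x (r / 2)).Nonempty}, y ∉ C k := by
    rw [Filter.eventually_all_finite hS]
    intro k hk
    have h1 := hC k hk.1
    exact (h1.2.1.isClosed.isOpen_compl).mem_nhds fun h2 => h k hk.1 (h1.1 h2)
  filter_upwards [hU, closedBall_mem_nhds x (show 0 < r / 2 by positivity)] with y hy hyN
  rw [hwx, dist_zero_right]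
  by_cases h2 : ∃ k ∈ K, y ∈ R k
  · obtain ⟨k, hk, hyk⟩ := h2
    have := (hC k hk).2.2 y ⟨hyk, hy k ⟨hk, y, hyk, hyN⟩⟩
    linarith
  · push Not at h2
    rw [w0 y (hN hyN) h2, norm_zero]
    exact hη

/-- **the hybrid map is a homeomorphism** -/
theorem isHomeo_hyb {Ω Λ : Set V} {f : V → V} (hΩ : IsOpen Ω) (hΛ : IsOpen Λ)
    (hf : St.IsHomeo Ω Λ f) (hR : ∀ k ∈ K, IsOpen (R k))
    (hRc : ∀ k ∈ K, IsCompact (closure (R k)) ∧ closure (R k) ⊆ Ω)
    (hd : ∀ k ∈ K, ∀ l ∈ K, k ≠ l → Disjoint (R k) (R l))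
    (lf : ∀ C ⊆ Ω, IsCompact C → {k ∈ K | (R k ∩ C).Nonempty}.Finite) {φ : ι → V → V}
    (hφ : ∀ k ∈ K, St.IsHomeo (R k) (f '' R k) (φ k))
    (van : ∀ k ∈ K, ∀ η > 0, ∃ C ⊆ R k, IsCompact C ∧ ∀ x ∈ R k \ C, ‖φ k x - f x‖ ≤ η) :
    St.IsHomeo Ω Λ (hyb K R φ f) := by
  obtain ⟨h₀, ⟨i1, i2⟩, hfc, hhc⟩ := id hf
  have hRΩ : ∀ k ∈ K, R k ⊆ Ω := fun k hk => subset_closure.trans (hRc k hk).2
  have hex : ∀ k, ∃ ψ : V → V, k ∈ K → St.IsInv (R k) (f '' R k) (φ k) ψ ∧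
      ContinuousOn (φ k) (R k) ∧ ContinuousOn ψ (f '' R k) := by
    intro k
    by_cases hk : k ∈ K
    · obtain ⟨ψ, h1, h2, h3⟩ := hφ k hk
      exact ⟨ψ, fun _ => ⟨h1, h2, h3⟩⟩
    · exact ⟨id, fun h => absurd h hk⟩
  choose ψ hψ using hex
  have hinj : ∀ a ∈ Ω, ∀ b ∈ Ω, f a = f b → a = b := by
    intro a ha b hb hab
    rw [← (i1 a ha).2, ← (i1 b hb).2, hab]
  -- the images
  have hRi : ∀ k ∈ K, IsOpen (f '' R k) := fun k hk =>
    H989.isOpen_image hΛ hf (hR k hk) (hRΩ k hk)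
  have hdi : ∀ k ∈ K, ∀ l ∈ K, k ≠ l → Disjoint (f '' R k) (f '' R l) := by
    intro k hk l hl hkl
    rw [Set.disjoint_left]
    rintro _ ⟨a, ha, rfl⟩ ⟨b, hb, hab⟩
    have := hinj b (hRΩ l hl hb) a (hRΩ k hk ha) hab
    exact disjoint_left.1 (hd k hk l hl hkl) ha (this ▸ hb)
  have hiΛ : ∀ k ∈ K, f '' R k ⊆ Λ := by
    rintro k hk _ ⟨a, ha, rfl⟩
    exact (i1 a (hRΩ k hk ha)).1
  have lfi : ∀ C ⊆ Λ, IsCompact C → {k ∈ K | (f '' R k ∩ C).Nonempty}.Finite := by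
    intro C hC hCc
    refine (lf (h₀ '' C) ?_ (hCc.image_of_continuousOn (hhc.mono hC))).subset ?_
    · rintro _ ⟨y, hy, rfl⟩
      exact (i2 y (hC hy)).1
    · rintro k ⟨hk, y, ⟨a, ha, rfl⟩, hy⟩
      refine ⟨hk, a, ha, f a, hy, (i1 a (hRΩ k hk ha)).2⟩
  have hmaps : ∀ x ∈ Ω, hyb K R φ f x ∈ Λ ∧
      hyb K (fun k => f '' R k) ψ h₀ (hyb K R φ f x) = x := by
    intro x hx
    by_cases h : ∃ k ∈ K, x ∈ R k
    · obtain ⟨k, hk, hxk⟩ := h
      obtain ⟨h1, h2⟩ := (hψ k hk).1.1 x hxk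
      rw [hyb_in hd hk hxk, hyb_in hdi hk h1]
      exact ⟨hiΛ k hk h1, h2⟩
    · push Not at h
      rw [hyb_off h, hyb_off]
      · exact i1 x hx
      · rintro k hk ⟨a, ha, hax⟩
        exact h k hk ((hinj a (hRΩ k hk ha) x hx hax) ▸ ha)
  have hmaps' : ∀ y ∈ Λ, hyb K (fun k => f '' R k) ψ h₀ y ∈ Ω ∧
      hyb K R φ f (hyb K (fun k => f '' R k) ψ h₀ y) = y := by
    intro y hy
    by_cases h : ∃ k ∈ K, y ∈ f '' R k
    · obtain ⟨k, hk, hyk⟩ := h
      obtain ⟨h1, h2⟩ := (hψ k hk).1.2 y hyk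
      rw [hyb_in hdi hk hyk, hyb_in hd hk h1]
      exact ⟨hRΩ k hk h1, h2⟩
    · push Not at h
      rw [hyb_off h, hyb_off]
      · exact i2 y hy
      · intro k hk hyk
        exact h k hk ⟨h₀ y, hyk, (i2 y hy).2⟩
  refine ⟨hyb K (fun k => f '' R k) ψ h₀, ⟨hmaps, hmaps'⟩, ?_, ?_⟩
  · -- continuity
    have hw : ContinuousOn (fun x => hyb K R φ f x - f x) Ω := by
      refine continuousOn_of_van hΩ hR lf (fun x hx h => ?_) (fun k hk => ?_) fun k hk η hη => ?_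
      · rw [hyb_off h, sub_self]
      · refine ((hψ k hk).2.1.sub (hfc.mono (hRΩ k hk))).congr fun x hx => ?_
        rw [hyb_in hd hk hx]
        rfl
      · obtain ⟨C, h1, h2, h3⟩ := van k hk η hη
        refine ⟨C, h1, h2, fun x hx => ?_⟩
        rw [hyb_in hd hk hx.1]
        exact h3 x hx
    refine (hw.add hfc).congr fun x _ => ?_
    simp
  · have hw : ContinuousOn (fun y => hyb K (fun k => f '' R k) ψ h₀ y - h₀ y) Λ := by
      refine continuousOn_of_van hΛ hRi lfi (fun x hx h => ?_) (fun k hk => ?_) fun k hk η hη => ?_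
      · rw [hyb_off h, sub_self]
      · refine ((hψ k hk).2.2.sub (hhc.mono (hiΛ k hk))).congr fun x hx => ?_
        rw [hyb_in hdi hk hx]
        rfl
      · -- uniform continuity of the inverse on the closure
        obtain ⟨hc1, hc2⟩ := hRc k hk
        have hcI : IsCompact (f '' closure (R k)) := hc1.image_of_continuousOn (hfc.mono hc2)
        have hcΛ : f '' closure (R k) ⊆ Λ := by
          rintro _ ⟨a, ha, rfl⟩
          exact (i1 a (hc2 ha)).1
        have huc := hcI.uniformContinuousOn_of_continuous (hhc.mono hcΛ)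
        rw [Metric.uniformContinuousOn_iff_le] at huc
        obtain ⟨δ, hδ, hu⟩ := huc η hη
        obtain ⟨C, h1, h2, h3⟩ := van k hk δ hδ
        refine ⟨φ k '' C, ?_, h2.image_of_continuousOn ((hψ k hk).2.1.mono h1), ?_⟩
        · rintro _ ⟨a, ha, rfl⟩
          exact ((hψ k hk).1.1 a (h1 ha)).1
        · rintro y ⟨hy, hyC⟩
          rw [hyb_in hdi hk hy]
          obtain ⟨b1, b2⟩ := (hψ k hk).1.2 y hy
          have b3 : ψ k y ∉ C := fun hc => hyC ⟨ψ k y, hc, b2⟩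
          have b4 := h3 _ ⟨b1, b3⟩
          rw [b2] at b4
          have b5 := hu (f (ψ k y)) (mem_image_of_mem f (subset_closure b1)) y
            (image_mono subset_closure hy) (by rw [dist_eq_norm, norm_sub_rev]; exact b4)
          rw [(i1 _ (hRΩ k hk b1)).2, dist_eq_norm] at b5
          exact b5
    refine (hw.add hhc).congr fun x _ => ?_
    simp

end glue

theorem goodDir_sum {ι : Type*} (S : Finset ι) {f g ft gt : V → V} {fk gk : ι → V → V} {x v : V}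
    (h0 : HB.GoodDir f g x v) (hk : ∀ k ∈ S, HB.GoodDir (fk k) (gk k) x v)
    (hft : ∀ t ∈ Icc (0:ℝ) 1, ft (x + t • v) =
      f (x + t • v) + ∑ k ∈ S, (fk k (x + t • v) - f (x + t • v)))
    (hgt : ∀ t ∈ Icc (0:ℝ) 1, gt (x + t • v) =
      g (x + t • v) + ∑ k ∈ S, (gk k (x + t • v) - g (x + t • v))) : HB.GoodDir ft gt x v := by
  have hsub : ∀ t ∈ Icc (0:ℝ) 1, uIcc 0 t ⊆ uIcc (0:ℝ) 1 := by
    intro t ht
    rw [uIcc_of_le ht.1, uIcc_of_le zero_le_one]
    exact Icc_subset_Icc_right ht.2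
  have hi : IntervalIntegrable (fun s : ℝ => g (x + s • v) +
      ∑ k ∈ S, (gk k (x + s • v) - g (x + s • v))) volume 0 1 := by
    refine h0.1.add ?_
    have := IntervalIntegrable.sum (μ := volume) (a := 0) (b := 1) S
      (f := fun k (s : ℝ) => gk k (x + s • v) - g (x + s • v)) fun k hkS => (hk k hkS).1.sub h0.1
    refine this.congr fun s _ => ?_
    simp
  refine ⟨hi.congr fun s hs => ?_, fun t ht => ?_⟩
  · rw [uIoc_of_le zero_le_one] at hs
    exact (hgt s ⟨hs.1.le, hs.2⟩).symm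
  · have e1 : ∫ s in (0:ℝ)..t, gt (x + s • v) = ∫ s in (0:ℝ)..t, (g (x + s • v) +
        ∑ k ∈ S, (gk k (x + s • v) - g (x + s • v))) := by
      refine intervalIntegral.integral_congr fun s hs => ?_
      rw [uIcc_of_le ht.1] at hs
      exact hgt s ⟨hs.1, hs.2.trans ht.2⟩
    have i0 : IntervalIntegrable (fun s : ℝ => g (x + s • v)) volume 0 t := h0.1.mono_set (hsub t ht)
    have ik : ∀ k ∈ S, IntervalIntegrable (fun s : ℝ => gk k (x + s • v) - g (x + s • v))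
        volume 0 t := fun k hkS => ((hk k hkS).1.sub h0.1).mono_set (hsub t ht)
    have iS : IntervalIntegrable (fun s : ℝ => ∑ k ∈ S, (gk k (x + s • v) - g (x + s • v)))
        volume 0 t := by
      have := IntervalIntegrable.sum (μ := volume) (a := 0) (b := t) S
        (f := fun k (s : ℝ) => gk k (x + s • v) - g (x + s • v)) ik
      refine this.congr fun s _ => ?_
      simp
    have h00 := hft 0 ⟨le_rfl, zero_le_one⟩
    rw [zero_smul, add_zero] at h00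
    rw [hft t ht, h0.2 t ht, h00, e1, intervalIntegral.integral_add i0 iS,
      intervalIntegral.integral_finsetSum ik]
    have e2 : ∑ k ∈ S, (fk k (x + t • v) - (f x + ∫ s in (0:ℝ)..t, g (x + s • v))) =
        ∑ k ∈ S, (fk k x - f x) + ∑ k ∈ S, ∫ s in (0:ℝ)..t, (gk k (x + s • v) - g (x + s • v)) := by
      rw [← Finset.sum_add_distrib]
      refine Finset.sum_congr rfl fun k hkS => ?_
      rw [(hk k hkS).2 t ht, intervalIntegral.integral_sub ((hk k hkS).1.mono_set (hsub t ht)) i0]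
      abel
    rw [e2]
    abel


/-- the values of the hybrid map as a finite sum -/
theorem hyb_sum {ι E : Type*} [AddCommGroup E] {K : Set ι} {R : ι → Set V} {φ : ι → V → E}
    {f : V → E} (hd : ∀ k ∈ K, ∀ l ∈ K, k ≠ l → Disjoint (R k) (R l)) {S : Finset ι}
    (hSK : ∀ k ∈ S, k ∈ K) {x : V} (hS : ∀ k ∈ K, x ∈ R k → k ∈ S) :
    hyb K R φ f x = f x + ∑ k ∈ S, (hyb1 (R k) (φ k) f x - f x) := by
  by_cases h : ∃ k ∈ K, x ∈ R k
  · obtain ⟨k, hk, hxk⟩ := h
    rw [Finset.sum_eq_single_of_mem k (hS k hk hxk)]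
    · rw [hyb_in hd hk hxk]
      unfold hyb1
      rw [if_pos hxk]
      abel
    · intro l hl hlk
      unfold hyb1
      rw [if_neg, sub_self]
      exact fun hxl => disjoint_left.1 (hd l (hSK l hl) k hk hlk) hxl hxk
  · push Not at h
    rw [hyb_off h, Finset.sum_eq_zero, add_zero]
    intro l hl
    unfold hyb1
    rw [if_neg (h l (hSK l hl)), sub_self]

/-- **the hybrid map is absolutely continuous on the rational segments** -/
theorem ratGood_hyb {ι : Type*} {K : Set ι} {R : ι → Set V} {v : V} {Ω : Set V} {f : V → V}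
    {F : V → Mat} (hF : RatGood v Ω f F)
    (hd : ∀ k ∈ K, ∀ l ∈ K, k ≠ l → Disjoint (R k) (R l))
    (lf : ∀ C ⊆ Ω, IsCompact C → {k ∈ K | (R k ∩ C).Nonempty}.Finite) {φ : ι → V → V}
    {G : ι → V → Mat} (hG : ∀ k ∈ K, RatGood v Ω (hyb1 (R k) (φ k) f) (hyb1 (R k) (G k) F)) :
    RatGood v Ω (hyb K R φ f) (hyb K R G F) := by
  intro a b ha hb hab
  have hC : IsCompact (segment ℝ a b) := by
    rw [segment_eq_image_lineMap]
    exact isCompact_Icc.image AffineMap.lineMap_continuous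
  have hfin := lf _ hab hC
  have hSK : ∀ k ∈ hfin.toFinset, k ∈ K := fun k hk => ((hfin.mem_toFinset).1 hk).1
  have hmem : ∀ t ∈ Icc (0:ℝ) 1, ∀ k ∈ K, a + t • (b - a) ∈ R k → k ∈ hfin.toFinset := by
    intro t ht k hk hx
    rw [hfin.mem_toFinset]
    refine ⟨hk, _, hx, ?_⟩
    rw [segment_eq_image']
    exact ⟨t, ht, rfl⟩
  refine goodDir_sum (fk := fun k => hyb1 (R k) (φ k) f)
    (gk := fun k y => cl (hyb1 (R k) (G k) F y) (b - a)) hfin.toFinset (hF a b ha hb hab)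
    (fun k hk => hG k (hSK k hk) a b ha hb hab) (fun t ht => ?_) fun t ht => ?_
  · exact hyb_sum hd hSK fun k hk hx => hmem t ht k hk hx
  · have h1 := hyb_sum (φ := fun k y => cl (G k y) (b - a)) (f := fun y => cl (F y) (b - a)) hd hSK
      fun k hk hx => hmem t ht k hk hx
    have e1 : ∀ y, hyb K R (fun k y => cl (G k y) (b - a)) (fun y => cl (F y) (b - a)) y =
        cl (hyb K R G F y) (b - a) := by
      intro y
      unfold hyb
      split_ifs <;> rfl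
    have e2 : ∀ k y, hyb1 (R k) (fun y => cl (G k y) (b - a)) (fun y => cl (F y) (b - a)) y =
        cl (hyb1 (R k) (G k) F y) (b - a) := by
      intro k y
      unfold hyb1
      split_ifs <;> rfl
    rw [e1] at h1
    simp only [e2] at h1
    exact h1

/-- **[HYB]** -/
theorem specHyb : SpecHyb := by
  intro Ω Λ f F v K R φ G hΩ hΛ hf hF hkΩ hdisj lf hR hcon hBz hG
  have hRk : ∀ k ∈ K, R k ⊆ dyc v k.1 k.2 := fun k hk =>
    subset_closure.trans ((hR k hk).2.trans interior_subset)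
  have hRo : ∀ k ∈ K, R k ⊆ dyo v k.1 k.2 := fun k hk => by
    have h := (hR k hk).2
    rw [_root_.P073.Gauge.C110.interior_dyc] at h
    exact subset_closure.trans h
  have hd : ∀ k ∈ K, ∀ l ∈ K, k ≠ l → Disjoint (R k) (R l) := fun k hk l hl hkl =>
    (hdisj k hk l hl hkl).mono (hRo k hk) (hRo l hl)
  have lf' : ∀ C ⊆ Ω, IsCompact C → {k ∈ K | (R k ∩ C).Nonempty}.Finite := by
    intro C hC hCc
    refine (lf C hC hCc).subset ?_
    rintro k ⟨hk, hne⟩
    exact ⟨hk, hne.mono (inter_subset_inter_left _ (hRk k hk))⟩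
  have hφ : ∀ k ∈ K, St.IsHomeo (R k) (f '' R k) (φ k) := by
    intro k hk
    obtain ⟨Ψ, hΨ⟩ := hcon k hk
    rw [← hΨ]
    exact ⟨Ψ.invFun, ⟨fun x hx => ⟨Ψ.mapsTo hx, Ψ.left_inv hx⟩,
      fun y hy => ⟨Ψ.mapsTo_inv hy, Ψ.right_inv hy⟩⟩, Ψ.cont, Ψ.cont_inv⟩
  have hc : ∀ k ∈ K, IsCompact (closure (R k)) ∧ closure (R k) ⊆ Ω := by
    intro k hk
    have h := (hR k hk).2.trans interior_subset
    exact ⟨(P86.isCompact_dyc v k.1 k.2).of_isClosed_subset isClosed_closure h,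
      h.trans (hkΩ k hk)⟩
  refine ⟨hyb K R φ f, hyb K R G F, ?_, ratGood_hyb hF hd lf' hG, ?_, ?_⟩
  · exact isHomeo_hyb hΩ.1 hΛ.1 hf (fun k hk => (hR k hk).1) hc hd lf' hφ fun k hk => (hBz k hk).2
  · exact fun k hk x hx => ⟨hyb_in hd hk hx, hyb_in hd hk hx⟩
  · exact fun x hx => ⟨hyb_off hx, hyb_off hx⟩

end Vale.Agent.P073.H234.Hyb
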