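import Vale.Agent.P073.H234.Final1
import Vale.Agent.P073.H234.Exist
import Vale.Agent.P073.H244.P2K3
import Vale.Agent.P073.H523.P2K5
import Vale.Agent.P073.H439.P2K1
import Vale.Agent.P073.H989.P2K0
import Vale.Agent.P073.H340.Paths
import Vale.Agent.P073.H732.P2K2
import Vale.Agent.P073.H953.P2AB
import Vale.Agent.P073.H333.PEnet

/-!
# P073, P2: the assembly [NETIN-P2]
-/

namespace Vale.Agent.P073.H234

open MeasureTheory Set Filter Topology Metric Vale.Agent.P073.St Vale.Agent.P073.AB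
open Vale.Agent.P073.SQ (ev)
open Vale.Agent.P073.AB.P86 (rel)
open _root_.P073.Net (dyc dyo)
open _root_.P073 (ConBall ConHomeo)
open _root_.P073.Gauge.C110
open Vale.Agent.P073.H333
open scoped ENNReal

/-- the numbers -/
theorem exists_numbers {θ M κc : ℝ} (hθ : 0 < θ) (hM : 0 < M) (hκc : 0 < κc) :
    ∃ (b₁ β σ₀ κ₀ : ℝ) (k₂ : ℕ), 0 < b₁ ∧ b₁ ≤ κc ∧ b₁ ≤ 1 ∧ 0 < β ∧ β ≤ 1 / 8 ∧ 16 * β ≤ θ ∧
      200 * ((16 * M / θ + 20) * β) ≤ b₁ ∧ 0 < σ₀ ∧ σ₀ ≤ β / 2 ∧ σ₀ ≤ 1 / 192 ∧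
      5760 * (M + 1) * σ₀ ≤ b₁ ∧ 0 < κ₀ ∧ 16 * κ₀ ≤ β ∧ 16 * κ₀ ≤ θ ∧ 200 * κ₀ ≤ b₁ ∧
      κ₀ ≤ 1 ∧ (3 * M + 3) * (1 / 2 ^ k₂) ≤ b₁ ∧ (3 * M + 3) * (1 / 2 ^ k₂) < θ / 4 ∧
      16 * (1 / 2 ^ k₂) ≤ θ ∧ 2 ≤ k₂ ∧ 3 * M + 3 * ((16 * M / θ + 20) * β) < θ * 2 ^ k₂ := by
  set b₁ := min κc 1 with hb₁
  have hb₁0 : 0 < b₁ := lt_min hκc one_pos
  set β := min (1 / 8) (min (θ / 16) (b₁ / (200 * (16 * M / θ + 20)))) with hβ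
  have hK : 0 < 16 * M / θ + 20 := by positivity
  have hβ0 : 0 < β := lt_min (by norm_num) (lt_min (by positivity) (by positivity))
  set σ₀ := min (β / 2) (min (1 / 192) (b₁ / (5760 * (M + 1)))) with hσ₀
  have hσ₀0 : 0 < σ₀ := lt_min (by positivity) (lt_min (by norm_num) (by positivity))
  set κ₀ := min (β / 16) (min (θ / 16) (b₁ / 200)) with hκ₀
  have hκ₀0 : 0 < κ₀ := lt_min (by positivity) (lt_min (by positivity) (by positivity))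
  set t := min b₁ (θ / 8) / (3 * M + 19) with ht
  have ht0 : 0 < t := div_pos (lt_min hb₁0 (by positivity)) (by positivity)
  obtain ⟨k', hk'⟩ := exists_pow_lt_of_lt_one ht0 (by norm_num : (1/2 : ℝ) < 1)
  rw [one_div_pow] at hk'
  obtain ⟨k₂, hk₂, hk2⟩ : ∃ k₂ : ℕ, (1:ℝ) / 2 ^ k₂ < t ∧ 2 ≤ k₂ := by
    refine ⟨k' + 2, lt_of_le_of_lt ?_ hk', by omega⟩
    exact one_div_le_one_div_of_le (by positivity) (pow_le_pow_right₀ (by norm_num) (by omega))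
  have h2 : (0:ℝ) < 1 / 2 ^ k₂ := by positivity
  have h3 : (3 * M + 19) * (1 / 2 ^ k₂) < min b₁ (θ / 8) := by
    have := mul_lt_mul_of_pos_left hk₂ (by positivity : 0 < 3 * M + 19)
    rwa [ht, mul_div_cancel₀ _ (by positivity : (3 * M + 19) ≠ 0)] at this
  have h4 := h3.trans_le (min_le_left _ _)
  have h5 := h3.trans_le (min_le_right _ _)
  have h6 : 0 < M * (1 / 2 ^ k₂) := by positivity
  have hβθ : β ≤ θ / 16 := (min_le_right _ _).trans (min_le_left _ _)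
  have hβ8 : β ≤ 1 / 8 := min_le_left _ _
  have hκβ : κ₀ ≤ β / 16 := min_le_left _ _
  refine ⟨b₁, β, σ₀, κ₀, k₂, hb₁0, min_le_left _ _, min_le_right _ _, hβ0, hβ8,
    by linarith, ?_, hσ₀0, min_le_left _ _, (min_le_right _ _).trans (min_le_left _ _), ?_, hκ₀0,
    by linarith, ?_, ?_, by linarith, by nlinarith, by nlinarith, by nlinarith, hk2, ?_⟩
  · have : β ≤ b₁ / (200 * (16 * M / θ + 20)) := (min_le_right _ _).trans (min_le_right _ _)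
    rw [le_div_iff₀ (by positivity)] at this
    linarith
  · have : σ₀ ≤ b₁ / (5760 * (M + 1)) := (min_le_right _ _).trans (min_le_right _ _)
    rw [le_div_iff₀ (by positivity)] at this
    linarith
  · have : κ₀ ≤ θ / 16 := (min_le_right _ _).trans (min_le_left _ _)
    linarith
  · have : κ₀ ≤ b₁ / 200 := (min_le_right _ _).trans (min_le_right _ _)
    linarith
  · have h7 : β ≤ b₁ / (200 * (16 * M / θ + 20)) := (min_le_right _ _).trans (min_le_right _ _)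
    rw [le_div_iff₀ (by positivity)] at h7
    have h8 : b₁ ≤ 1 := min_le_right _ _
    have h9 : (3 * M + 3) * (1 / 2 ^ k₂) < θ := by nlinarith
    have h10 : (0:ℝ) < 2 ^ k₂ := by positivity
    have h11 := mul_lt_mul_of_pos_right h9 h10
    rw [mul_assoc, one_div, inv_mul_cancel₀ h10.ne', mul_one] at h11
    linarith

variable {p : ℝ} {ε : ℝ≥0∞} {θ M κ c₀ t₀ δ₀ ε₁ β σ : ℝ} {j : ℕ} {Ω Λ : Set V} {f : V → V}
  {F : V → Mat} {T : Set V} {v : V} {m : ℕ}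
  {C : P2Cells p ε θ M κ c₀ t₀ δ₀ j Ω Λ f F T v m} {n N : ℕ} {J' : Finset (Fin 3 → ℤ)}
  {π : (Fin 3 → ℤ) → Fin 3 → ℤ}

/-- the affine map and `f` in a big cube -/
theorem P2Cells.fcl (hT : TSet θ M κ t₀ δ₀ ε₁ Ω f F T)
    (C : P2Cells p ε θ M κ c₀ t₀ δ₀ j Ω Λ f F T v m) (hM : 0 ≤ M) {z : Fin 3 → ℤ} (hz : z ∈ C.J)
    {x : V} (hx : x ∈ dyc v m z) : ‖C.A z x - f x‖ ≤ ε₁ + (M + κ) / 2 ^ (m + j) := by
  obtain ⟨w, hxw, hw⟩ := H439.exists_sub (N := m + j) (by omega) hx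
  have ha : pt v (m + j) w ∈ dyc v (m + j) w := fun i =>
    ⟨le_rfl, by
      show v i + w i / 2 ^ (m + j) ≤ _
      rw [P86.div_add_one]
      have : (0:ℝ) < 1 / 2 ^ (m + j) := by positivity
      linarith⟩
  obtain ⟨h1, h2, -⟩ := C.vert z hz w (hw ha)
  have h3 := dyc_dist hxw ha
  have hl := C.lat_le
  have ht := hT.t_pos C
  have h4 := hT.osc _ h1 x (h3.trans (by linarith))
  have h5 : ‖C.A z x - C.A z (pt v (m + j) w)‖ ≤ M * (1 / 2 ^ (m + j)) := by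
    rw [C.aff z hz]
    exact (C.above z hz _).trans (by gcongr)
  have e1 : (M + κ) / 2 ^ (m + j) = M * (1 / 2 ^ (m + j)) + κ / 2 ^ (m + j) := by ring
  rw [norm_sub_rev (f x)] at h4
  rw [norm_sub_rev (f _)] at h2
  calc ‖C.A z x - f x‖ ≤ ‖C.A z x - C.A z (pt v (m + j) w)‖ + ‖C.A z (pt v (m + j) w) - f x‖ :=
        norm_sub_le_norm_sub_add_norm_sub _ _ _
    _ ≤ ‖C.A z x - C.A z (pt v (m + j) w)‖ + (‖C.A z (pt v (m + j) w) - f (pt v (m + j) w)‖ +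
        ‖f (pt v (m + j) w) - f x‖) := by
        gcongr
        exact norm_sub_le_norm_sub_add_norm_sub _ _ _
    _ ≤ _ := by rw [e1]; linarith

/-- one affine map where the tile of a cell meets another open cell -/
theorem SubCells.same (S : SubCells C n J' π) (hmn : m ≤ n) (hnN : n ≤ N) {z z' u : Fin 3 → ℤ}
    (hz : z ∈ J') (hz' : z' ∈ J') (hu : Touch v n N z u) {x : V} (hx : x ∈ dyc v N u)
    (hx' : x ∈ dyo v n z') : π z = π z' := by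
  have h1 := H989.touch_sub S hmn hnN hz hu hx
  have h2 : x ∈ dyo v m (π z') := by
    have := S.sub z' hz'
    have h3 : interior (dyc v n z') ⊆ interior (dyo v m (π z')) := interior_mono this
    rw [(isOpen_dyo v m (π z')).interior_eq, interior_dyc] at h3
    exact h3 hx'
  exact H439.eq_of_mem h2 h1

theorem num_edges {b₁ aβ : ℝ} {k₂ : ℕ} (hM : 0 < M) (haβ : 200 * aβ ≤ b₁) (haβ0 : 0 < aβ)
    (hσ0 : 0 < σ) (hσ : 5760 * (M + 1) * σ ≤ b₁) (hκ : 200 * κ ≤ b₁) :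
    30 * κ + 1152 * σ * M + 6 * aβ / 2 ^ k₂ ≤ b₁ := by
  have hk1 : (1:ℝ) / 2 ^ k₂ ≤ 1 := by
    rw [div_le_one (by positivity)]
    exact one_le_pow₀ (by norm_num)
  have e1 : 6 * aβ / 2 ^ k₂ = 6 * aβ * (1 / 2 ^ k₂) := by ring
  have e2 : 6 * aβ * (1 / 2 ^ k₂) ≤ 6 * aβ * 1 := mul_le_mul_of_nonneg_left hk1 (by positivity)
  rw [e1]
  nlinarith

theorem num_near {η : ℝ} (hM : 0 < M) (hβ8 : β ≤ 1 / 8) (hβ0 : 0 < β) (hσ0 : 0 < σ)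
    (hσ : σ ≤ 1 / 192) (hηβ : η ≤ β / 2 ^ (m + j)) :
    2 * ε₁ + η + (M + 1 / 2 + 5 * σ) / 2 ^ (m + j) ≤ 2 * ε₁ + (M + 4) / 2 ^ m := by
  have hr : (0:ℝ) < 1 / 2 ^ (m + j) := by positivity
  have hrm : (1:ℝ) / 2 ^ (m + j) ≤ 1 / 2 ^ m := one_lat m j
  have e1 : (M + 1 / 2 + 5 * σ) / 2 ^ (m + j) = (M + 1 / 2 + 5 * σ) * (1 / 2 ^ (m + j)) := by ring
  have e2 : (M + 4) / 2 ^ m = (M + 4) * (1 / 2 ^ m) := by ring
  have e3 : β / 2 ^ (m + j) = β * (1 / 2 ^ (m + j)) := by ring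
  rw [e1, e2]
  rw [e3] at hηβ
  have e4 : (M + 4) * (1 / 2 ^ (m + j)) ≤ (M + 4) * (1 / 2 ^ m) :=
    mul_le_mul_of_nonneg_left hrm (by positivity)
  nlinarith

theorem num_fcl (hM : 0 < M) (hε₁ : 0 ≤ ε₁) (hκ0 : 0 < κ) (hκ : κ ≤ 1) :
    ε₁ + (M + κ) / 2 ^ (m + j) ≤ 2 * ε₁ + (M + 4) / 2 ^ m := by
  have hr : (0:ℝ) < 1 / 2 ^ (m + j) := by positivity
  have hrm : (1:ℝ) / 2 ^ (m + j) ≤ 1 / 2 ^ m := one_lat m j
  have e1 : (M + κ) / 2 ^ (m + j) = (M + κ) * (1 / 2 ^ (m + j)) := by ring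
  have e2 : (M + 4) / 2 ^ m = (M + 4) * (1 / 2 ^ m) := by ring
  rw [e1, e2]
  have e4 : (M + 4) * (1 / 2 ^ (m + j)) ≤ (M + 4) * (1 / 2 ^ m) :=
    mul_le_mul_of_nonneg_left hrm (by positivity)
  nlinarith

theorem num_tau {η l₀ τ : ℝ} (hσ0 : 0 < σ) (hσ : σ ≤ 1 / 192) (hl0 : 0 < l₀) (hl : l₀ ≤ τ / 8)
    (hη : η ≤ τ / 8) : 4 * η + 4 * l₀ * σ * (1 / 2 ^ (m + j)) ≤ τ := by
  have h1 : σ * (1 / 2 ^ (m + j)) ≤ 1 := by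
    have : (1:ℝ) / 2 ^ (m + j) ≤ 1 := by
      rw [div_le_one (by positivity)]
      exact one_le_pow₀ (by norm_num)
    nlinarith
  have h2 : 4 * l₀ * σ * (1 / 2 ^ (m + j)) = 4 * l₀ * (σ * (1 / 2 ^ (m + j))) := by ring
  have h3 : 4 * l₀ * (σ * (1 / 2 ^ (m + j))) ≤ 4 * l₀ * 1 :=
    mul_le_mul_of_nonneg_left h1 (by positivity)
  rw [h2]
  linarith

theorem num_cN {b₁ c : ℝ} {k₂ : ℕ} (hmj : m + j = N + k₂) (hc : c * (1 / 2 ^ k₂) ≤ b₁) :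
    c / 2 ^ (m + j) ≤ b₁ / 2 ^ N := by
  have hrN : (1:ℝ) / 2 ^ (m + j) = 1 / 2 ^ k₂ * (1 / 2 ^ N) := by
    rw [hmj, pow_add]; field_simp
  have e1 : c / 2 ^ (m + j) = (c * (1 / 2 ^ k₂)) * (1 / 2 ^ N) := by
    rw [mul_assoc, ← hrN]; ring
  rw [e1, div_eq_mul_one_div b₁]
  exact mul_le_mul_of_nonneg_right hc (by positivity)

theorem num_a {aβ c : ℝ} {k₂ : ℕ} (hmj : m + j = N + k₂) (haβ : 3 * aβ ≤ 3)
    (hc : (3 * M + 3) * (1 / 2 ^ k₂) < c / 4) :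
    (3 * M + 3 * aβ) / 2 ^ (m + j) < c * (1 / 2 ^ (N + 2)) := by
  have hrN : (1:ℝ) / 2 ^ (m + j) = 1 / 2 ^ k₂ * (1 / 2 ^ N) := by
    rw [hmj, pow_add]; field_simp
  have e1 : (3 * M + 3 * aβ) / 2 ^ (m + j) =
      ((3 * M + 3 * aβ) * (1 / 2 ^ k₂)) * (1 / 2 ^ N) := by rw [mul_assoc, ← hrN]; ring
  have e2 : c * (1 / 2 ^ (N + 2)) = c / 4 * (1 / 2 ^ N) := by rw [pow_add]; ring
  rw [e1, e2]
  refine mul_lt_mul_of_pos_right (lt_of_le_of_lt ?_ hc) (by positivity)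
  exact mul_le_mul_of_nonneg_right (by linarith) (by positivity)

theorem num_r {k₂ : ℕ} (hmj : m + j = N + k₂) (h : 16 * (1 / 2 ^ k₂) ≤ θ) :
    16 * (1 / 2 ^ (m + j)) ≤ θ * (1 / 2 ^ N) := by
  have hrN : (1:ℝ) / 2 ^ (m + j) = 1 / 2 ^ k₂ * (1 / 2 ^ N) := by
    rw [hmj, pow_add]; field_simp
  rw [hrN, ← mul_assoc]
  exact mul_le_mul_of_nonneg_right h (by positivity)

section Own

variable {I : Set Idx} {Nk : Necks θ M β σ f v m j C.J C.A} {η l₀ : ℝ} {o : Nk.γ → V}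
    {h₀ h' h₁ : ConHomeo Ω Λ} {Tc : V → V} {G : Finset Nk.γ}

/-- the own edges -/
theorem own_close (hN : Num θ M κ β) (hσ₀β : σ ≤ β / 2) (hmn : m ≤ n) (hnN : n ≤ N)
    (hNj : N ≤ m + j) (hT : TSet θ M κ t₀ δ₀ ε₁ Ω f F T) (S : SubCells C n J' π)
    (K : Cleaned C Nk n N J' η l₀ o h₀ h' h₁ Tc G) (hηβ : η ≤ β / 2 ^ (m + j)) :
    ∀ z ∈ J', ∀ u, Touch v n N z u → ∀ e : Idx × Fin 3, EdgeOf e (N, u) →
      ∀ x ∈ edge v e, ‖h₁.toFun x - C.A (π z) x‖ ≤ ((16 * M / θ + 20) * β) / 2 ^ (m + j) := by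
  intro z hz u hu e he x hx
  refine H732.of_own_edges
    (P := fun x => ‖h₁.toFun x - C.A (π z) x‖ ≤ ((16 * M / θ + 20) * β) / 2 ^ (m + j)) hNj
    (B := dyc v m (π z)) (fun e' he' hez x hx => ?_) he.1
    ((PK.edgeOf_subset he).trans (H732.touch_sub S hmn hnN hz hu)) x hx
  exact H439.K1.close_edge hT hN K hηβ hσ₀β (S.mem z hz) he' hez hx

/-- the own edges: the integral -/
theorem own_int {b₁ : ℝ} (hM : 0 < M) (hN : Num θ M κ β) (hθ : 0 < θ) (hβ0 : 0 < β)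
    (hβb : 200 * ((16 * M / θ + 20) * β) ≤ b₁)
    (hσ₀0 : 0 < σ) (hσ₀β : σ ≤ β / 2) (hσ₀ : σ ≤ 1 / 192) (hσ₀b : 5760 * (M + 1) * σ ≤ b₁)
    (hκ : 0 < κ) (hκb : 200 * κ ≤ b₁) {k₂ : ℕ} (hmj : m + j = N + k₂) (hmn : m ≤ n) (hnN : n ≤ N)
    (rat : RatGood v Ω f F) (hT : TSet θ M κ t₀ δ₀ ε₁ Ω f F T) (S : SubCells C n J' π)
    (K : Cleaned C Nk n N J' η l₀ o h₀ h' h₁ Tc G)
    (hηβ : η ≤ β / 2 ^ (m + j)) (hl₀0 : 0 < l₀) {z u : Fin 3 → ℤ} (hz : z ∈ J')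
    (hu : Touch v n N z u) {e : Idx × Fin 3} (he : EdgeOf e (N, u))
    (g2 : eInt v e (fun x => ENNReal.ofReal
      ‖lineDeriv ℝ h₀.toFun x (ev e.2) - cl (F x) (ev e.2)‖) ≤ ENNReal.ofReal (κ / 2 ^ N))
    (HO : ENNReal.ofReal l₀ * _root_.P073.Gauge.dvar 1 h'.toFun v e 0 ≤
        ENNReal.ofReal (κ / 2 ^ N)) :
    eInt v e (fun x => ENNReal.ofReal ‖lineDeriv ℝ h₁.toFun x (ev e.2) -
      C.L (π z) (ev e.2)‖) ≤ ENNReal.ofReal (b₁ / 2 ^ N) := by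
  have hNj : N ≤ m + j := by omega
  refine (H732.K2_own hT S hmn hnN hNj rat K hκ.le hσ₀0.le (by linarith) hl₀0.le hz hu he
    (own_close hN hσ₀β hmn hnN hNj hT S K hηβ z hz u hu e he) g2 HO).trans
    (ENNReal.ofReal_le_ofReal ?_)
  have hmjN : m + j - N = k₂ := by omega
  rw [hmjN]
  exact div_le_div_of_nonneg_right (num_edges hM hβb (by positivity) hσ₀0 hσ₀b hκb)
    (by positivity)

/-- the alternative off the cells -/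
theorem own_alt (hβb : 3 * ((16 * M / θ + 20) * β) ≤ 3) (hN : Num θ M κ β)
    (hσ₀0 : 0 < σ) (hσ₀β : σ ≤ β / 2) (hσ₀ : σ ≤ 1 / 192)
    {k₁ k₀ k₂ : ℕ} (hmj : m + j = n + k₁ + k₀ + k₂) (hmn : m ≤ n)
    (hk₂' : (3 * M + 3) * (1 / 2 ^ k₂) < θ / 4)
    (hk₂'' : 16 * (1 / 2 ^ k₂) ≤ θ) (hΛ : IsOpen Λ)
    (hT : TSet θ M κ t₀ δ₀ ε₁ Ω f F T) (S : SubCells C n J' π)
    {σf : V → ℝ} {τ : ℝ}
    (K : Cleaned C Nk n (n + k₁ + k₀) J' η l₀ o h₀ h' h₁ Tc G) (hητ : η ≤ τ / 8)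
    (hηβ : η ≤ β / 2 ^ (m + j)) (hl₀0 : 0 < l₀) (hl₀h : l₀ ≤ 1 / 2) (hl₀τ : l₀ ≤ τ / 8)
    (g1 : ∀ x ∈ Ω, ‖h₀.toFun x - f x‖ ≤ σf x) {S' : Set V}
    (hS' : S' ⊆ Ω) (hSc : IsPreconnected S') (hSo : ∀ z ∈ J', Disjoint S' (dyo v n z))
    (hSu : ∀ u, Tch v n (n + k₁ + k₀) J' u → Disjoint S' (dyo v (n + k₁ + k₀) u)) :
    (∀ x ∈ S', ‖h₁.toFun x - f x‖ ≤ σf x) ∨
    ∀ D, (∀ x ∈ S', ∀ y ∈ S', ‖f x - f y‖ ≤ D) →
      (∀ x ∈ S', ∀ y ∈ S', ‖h₁.toFun x - h₁.toFun y‖ ≤ 2 * D + τ) ∧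
      ∀ x ∈ S', ∃ z ∈ J', ∃ y ∈ dyc v n z, y ∉ interior (boxB v n k₁ z) ∧
        ‖h₁.toFun x - C.A (π z) y‖ ≤ 2 * D + τ + (M + 4) / 2 ^ (n + k₁ + k₀) := by
  have hNj : n + k₁ + k₀ ≤ m + j := by omega
  exact H953.off_cleaned hN S hmn (k₁ := k₁) (k₀ := k₀) rfl hNj K hσ₀0.le (by linarith)
      hl₀0.le (H953.cell_sub hT S)
      (fun z hz x hx => H439.K1.close_cell hT hN K hηβ hσ₀β hl₀0.le hl₀h hΛ S (by omega) hNj hz hx)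
      (num_a hmj hβb hk₂') (num_r hmj hk₂'') (σf := σf) g1
      (num_tau hσ₀0 hσ₀ hl₀0 hl₀τ hητ) le_rfl hS' hSc hSo hSu

end Own

/-- `H1` from the cleaned homeomorphism -/
theorem H1_of_cleaned {b₁ : ℝ} (hM : 0 < M)
    (hβ0 : 0 < β) (hβ8 : β ≤ 1 / 8) (hβθ : 16 * β ≤ θ)
    (hβb : 200 * ((16 * M / θ + 20) * β) ≤ b₁) (hb₁1 : b₁ ≤ 1) (hθ : 0 < θ)
    (hσ₀0 : 0 < σ) (hσ₀β : σ ≤ β / 2) (hσ₀ : σ ≤ 1 / 192) (hσ₀b : 5760 * (M + 1) * σ ≤ b₁)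
    (hκ : 0 < κ) (hκβ : 16 * κ ≤ β) (hκθ : 16 * κ ≤ θ) (hκb : 200 * κ ≤ b₁)
    {k₁ k₀ k₂ : ℕ} (hmj : m + j = n + k₁ + k₀ + k₂) (hmn : m ≤ n) (hk₁ : 3 ≤ k₁)
    (hk₂ : (3 * M + 3) * (1 / 2 ^ k₂) ≤ b₁) (hk₂' : (3 * M + 3) * (1 / 2 ^ k₂) < θ / 4)
    (hk₂'' : 16 * (1 / 2 ^ k₂) ≤ θ) (hΛ : IsOpen Λ)
    (rat : RatGood v Ω f F) (hT : TSet θ M κ t₀ δ₀ ε₁ Ω f F T) (hε₁ : 0 ≤ ε₁)
    {Nk : Necks θ M β σ f v m j C.J C.A} (S : SubCells C n J' π) {I : Set Idx}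
    (hTI : ∀ u, Tch v n (n + k₁ + k₀) J' u → ((n + k₁ + k₀, u) : Idx) ∈ I)
    {σf : V → ℝ} {δ : Idx × Fin 3 → ℝ} {τ : ℝ} {η l₀ : ℝ} {o : Nk.γ → V}
    {h₀ h' h₁ : ConHomeo Ω Λ} {Tc : V → V} {G : Finset Nk.γ}
    (K : Cleaned C Nk n (n + k₁ + k₀) J' η l₀ o h₀ h' h₁ Tc G) (hητ : η ≤ τ / 8)
    (hηβ : η ≤ β / 2 ^ (m + j)) (hl₀0 : 0 < l₀) (hl₀h : l₀ ≤ 1 / 2) (hl₀τ : l₀ ≤ τ / 8)
    (g1 : ∀ x ∈ Ω, ‖h₀.toFun x - f x‖ ≤ σf x)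
    (g2 : ∀ e : Idx × Fin 3, (∃ q ∈ I, EdgeOf e q) →
      eInt v e (fun x => ENNReal.ofReal ‖lineDeriv ℝ h₀.toFun x (ev e.2) - cl (F x) (ev e.2)‖) ≤
        ENNReal.ofReal (κ / 2 ^ (n + k₁ + k₀)))
    (HO : ∀ z ∈ J', ∀ u, Touch v n (n + k₁ + k₀) z u → ∀ e : Idx × Fin 3,
      EdgeOf e (n + k₁ + k₀, u) →
      ENNReal.ofReal l₀ * _root_.P073.Gauge.dvar 1 h'.toFun v e 0 ≤
        ENNReal.ofReal (κ / 2 ^ (n + k₁ + k₀)))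
    (HL : ∀ e : Idx × Fin 3, (∃ q ∈ I, EdgeOf e q) →
      eInt v e (fun x => ENNReal.ofReal ‖lineDeriv ℝ h₁.toFun x (ev e.2)‖) ≤
        8 * eInt v e (fun x => ENNReal.ofReal ‖cl (F x) (ev e.2)‖) + ENNReal.ofReal (δ e)) :
    H1 θ M b₁ (2 * ε₁ + (M + 4) / 2 ^ m) τ v I n k₁ k₀ J'
      (fun z => C.A (π z)) (fun z => C.L (π z)) f F Ω σf δ h₁.toFun := by
  have hnN : n ≤ n + k₁ + k₀ := by omega
  have hmN : m ≤ n + k₁ + k₀ := by omega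
  have hNj : n + k₁ + k₀ ≤ m + j := by omega
  have hNum : Num θ M κ β := ⟨hθ, hM.le, hβ0, hβ8, hκβ, hκθ⟩
  have haβ0 : 0 < (16 * M / θ + 20) * β := by positivity
  have haβ1 : 3 * ((16 * M / θ + 20) * β) ≤ 3 := by linarith
  have hk0 : (0:ℝ) < 1 / 2 ^ k₂ := by positivity
  have hb3 : (3 * M + 3 * ((16 * M / θ + 20) * β)) * (1 / 2 ^ k₂) ≤ b₁ :=
    (mul_le_mul_of_nonneg_right (by linarith) hk0.le).trans hk₂
  have hb2 : (M + 3 * ((16 * M / θ + 20) * β)) * (1 / 2 ^ k₂) ≤ b₁ :=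
    (mul_le_mul_of_nonneg_right (by linarith) hk0.le).trans hk₂
  have hb1 : ((16 * M / θ + 20) * β) * (1 / 2 ^ k₂) ≤ b₁ :=
    (mul_le_mul_of_nonneg_right (by linarith) hk0.le).trans hk₂
  refine ⟨?_, ?_, ?_, ?_, ?_, ?_, ?_, ?_, ?_, ?_, ?_, ?_, ?_⟩
  · exact fun z hz => C.aff _ (S.mem z hz)
  · exact fun z hz => C.below _ (S.mem z hz)
  · exact fun z hz => C.above _ (S.mem z hz)
  · -- same
    intro z hz z' hz' u hu x hx hx'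
    show C.A (π z) = C.A (π z')
    rw [S.same hmn hnN hz hz' hu hx hx']
  · exact fun z u hu x hx => H989.Touch.near hu hx
  · exact fun s _ h1 h2 => H989.tch_common (by omega) h1 h2
  · exact fun z hz x hx =>
      (H439.K1.close_cell hT hNum K hηβ hσ₀β hl₀0.le hl₀h hΛ S hnN hNj hz hx).trans
        (num_cN hmj hb3)
  · -- edges
    exact fun z hz u hu e he => ⟨fun x hx =>
      (own_close hNum hσ₀β hmn hnN hNj hT S K hηβ z hz u hu e he x hx).trans (num_cN hmj hb1),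
      own_int hM hNum hθ hβ0 hβb hσ₀0 hσ₀β hσ₀ hσ₀b hκ hκb hmj hmn hnN rat hT S K hηβ hl₀0 hz hu
        he (g2 e ⟨_, hTI u ⟨z, hz, hu⟩, he⟩) (HO z hz u hu e he)⟩
  · -- squares
    intro s hs z hz h1 h2 x hx
    exact (H439.K1.close_osq hT hNum K hηβ hσ₀β hl₀0.le hl₀h S hmN hNj hz hs h1 h2 hx).trans
      (num_cN hmj hb2)
  · -- near
    intro x hx
    exact (H244.near hΛ hT hNum hε₁ K (H244.hR_of hT C hNum hβθ) hx).trans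
      (num_near hM hβ8 hβ0 hσ₀0 hσ₀ hηβ)
  · -- f and A
    intro z hz x hx
    exact (C.fcl hT hM.le (S.mem z hz) (P86.dyo_sub_dyc (S.sub z hz hx))).trans
      (num_fcl hM hε₁ hκ (by linarith))
  · -- alternative
    intro S' hS' hSc hSo hSu
    exact own_alt haβ1 hNum hσ₀0 hσ₀β hσ₀ hmj hmn hk₂' hk₂'' hΛ hT S K hητ hηβ hl₀0 hl₀h hl₀τ g1
      hS' hSc hSo hSu
  · -- lengths
    intro e he _
    exact HL e he

/-- the structure `H1` from all the leaves -/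
theorem exists_H1 (hNet : _root_.P073.Top.NetOutN) {b₁ : ℝ} (hb₁0 : 0 < b₁) (hM : 0 < M)
    (hβ0 : 0 < β) (hβ8 : β ≤ 1 / 8) (hβθ : 16 * β ≤ θ)
    (hβb : 200 * ((16 * M / θ + 20) * β) ≤ b₁) (hb₁1 : b₁ ≤ 1) (hθ : 0 < θ)
    (hσ₀0 : 0 < σ) (hσ₀β : σ ≤ β / 2) (hσ₀ : σ ≤ 1 / 192) (hσ₀b : 5760 * (M + 1) * σ ≤ b₁)
    (hκ : 0 < κ) (hκβ : 16 * κ ≤ β) (hκθ : 16 * κ ≤ θ) (hκb : 200 * κ ≤ b₁)
    {k₁ k₀ k₂ : ℕ} (hmj : m + j = n + k₁ + k₀ + k₂) (hmn : m ≤ n) (hk₁ : 3 ≤ k₁)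
    (hk₂ : (3 * M + 3) * (1 / 2 ^ k₂) ≤ b₁) (hk₂' : (3 * M + 3) * (1 / 2 ^ k₂) < θ / 4)
    (hk₂'' : 16 * (1 / 2 ^ k₂) ≤ θ) (bΩ : St.IsBoundedDomain Ω) (bΛ : St.IsBoundedDomain Λ)
    (hf : St.IsHomeo Ω Λ f) (rat : RatGood v Ω f F) (hT : TSet θ M κ t₀ δ₀ ε₁ Ω f F T)
    (hε₁ : 0 ≤ ε₁) (hδ₀ : 1 / 2 ^ m ≤ δ₀) (hc₀ : 4 / 2 ^ m < c₀)
    (Nk : Necks θ M β σ f v m j C.J C.A) (S : SubCells C n J' π) {I : Set Idx}
    (hPI : Part Ω v I) (hTI : ∀ u, Tch v n (n + k₁ + k₀) J' u → ((n + k₁ + k₀, u) : Idx) ∈ I)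
    (fin : ∀ e : Idx × Fin 3, (∃ q ∈ I, EdgeOf e q) →
      eInt v e (fun x => ENNReal.ofReal ‖cl (F x) (ev e.2)‖) ≠ ⊤)
    {σf : V → ℝ} {δ : Idx × Fin 3 → ℝ} {τ : ℝ} (hσc : ContinuousOn σf Ω)
    (hσ0 : ∀ x ∈ Ω, 0 < σf x) (hδ : ∀ e, 0 < δ e) (hτ : 0 < τ) :
    ∃ h₁ : ConHomeo Ω Λ, H1 θ M b₁ (2 * ε₁ + (M + 4) / 2 ^ m) τ v I n k₁ k₀ J'
      (fun z => C.A (π z)) (fun z => C.L (π z)) f F Ω σf δ h₁.toFun := by
  classical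
  have hj2 : 2 ≤ j := by omega
  have hNum : Num θ M κ β := ⟨hθ, hM.le, hβ0, hβ8, hκβ, hκθ⟩
  have hrm : (1:ℝ) / 2 ^ (m + j) ≤ 1 / 2 ^ m := one_lat m j
  have hfc : ContinuousOn f Ω := by
    obtain ⟨g, h1, h2, -⟩ := hf
    exact h2
  have hc₀' : 4 / 2 ^ (m + j) < c₀ := by
    refine lt_of_le_of_lt ?_ hc₀
    have e1 : (4:ℝ) / 2 ^ (m + j) = 4 * (1 / 2 ^ (m + j)) := by ring
    have e2 : (4:ℝ) / 2 ^ m = 4 * (1 / 2 ^ m) := by ring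
    rw [e1, e2]
    linarith
  have hδβ : β / 2 ^ (m + j) ≤ δ₀ / 2 := by
    have hr : (0:ℝ) < 1 / 2 ^ (m + j) := by positivity
    have e1 : β / 2 ^ (m + j) = β * (1 / 2 ^ (m + j)) := by ring
    rw [e1]
    nlinarith
  -- the cleaned homeomorphism
  obtain ⟨o, G, η₀, hη₀, HC⟩ := exists_cleaned bΩ.1 bΩ.2.1.isPreconnected bΛ.1 hfc
    H340.specPaths hj2 hT hNum Nk hδβ hc₀' hσ₀0 hσ₀β (by linarith) n (n + k₁ + k₀) J'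
  set η := min η₀ (min (τ / 8) (β / 2 ^ (m + j))) with hη
  have hη0 : 0 < η := lt_min hη₀ (lt_min (by positivity) (by positivity))
  have hητ : η ≤ τ / 8 := (min_le_right _ _).trans (min_le_left _ _)
  have hηβ : η ≤ β / 2 ^ (m + j) := (min_le_right _ _).trans (min_le_right _ _)
  have hκN : 0 < κ / 2 ^ (n + k₁ + k₀) := by positivity
  obtain ⟨h₀, g1, g2⟩ := _root_.P073.BV567.net_ofN hNet AB.specGraph (p := 1) le_rfl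
    one_lt_two bΩ bΛ hf hPI rat (by simpa using fin)
    (fun e => min (δ e / 16) (κ / 2 ^ (n + k₁ + k₀)))
    (fun e => lt_min (by have := hδ e; positivity) hκN) (σ := fun x => min (σf x) η)
    (hσc.inf continuousOn_const) (fun x hx => lt_min (hσ0 x hx) hη0)
  simp only [Real.rpow_one] at g2
  obtain ⟨h', HC'⟩ := HC η hη0.le (min_le_left _ _) h₀ fun x hx => (g1 x hx).trans (min_le_right _ _)
  obtain ⟨Tc', h₁', K'⟩ := HC' 1 one_pos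
  obtain ⟨l₁, hl₁, HL⟩ := H523.exists_len_cleaned hβ8 hσ₀0.le (by linarith) hc₀' K' rat hPI hTI hδ
    (fun e he => (g2 e he).2.trans (ENNReal.ofReal_le_ofReal (min_le_left _ _)))
  obtain ⟨l₂, hl₂, HO⟩ := H732.exists_l₂ hT S hmn (by omega : n ≤ n + k₁ + k₀) h' hκN
  set l₀ := min (1 / 2) (min (min l₁ l₂) (τ / 8)) with hl₀
  have hl₀0 : 0 < l₀ := lt_min (by norm_num) (lt_min (lt_min hl₁ hl₂) (by positivity))
  have hl₀h : l₀ ≤ 1 / 2 := min_le_left _ _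
  have hl₀1 : l₀ ≤ l₁ := (min_le_right _ _).trans ((min_le_left _ _).trans (min_le_left _ _))
  have hl₀2 : l₀ ≤ l₂ := (min_le_right _ _).trans ((min_le_left _ _).trans (min_le_right _ _))
  have hl₀τ : l₀ ≤ τ / 8 := (min_le_right _ _).trans (min_le_right _ _)
  obtain ⟨Tc, h₁, K⟩ := HC' l₀ hl₀0
  exact ⟨h₁, H1_of_cleaned hM hβ0 hβ8 hβθ hβb hb₁1 hθ hσ₀0 hσ₀β hσ₀ hσ₀b hκ hκβ hκθ hκb hmj
    hmn hk₁ hk₂ hk₂' hk₂'' bΛ.1 rat hT hε₁ S hTI K hητ hηβ hl₀0 hl₀h hl₀τ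
    (fun x hx => (g1 x hx).trans (min_le_left _ _))
    (fun e he => (g2 e he).2.trans (ENNReal.ofReal_le_ofReal (min_le_right _ _)))
    (fun z hz u hu e he => HO l₀ hl₀0.le hl₀2 z hz u hu e he)
    (fun e he => HL l₀ hl₀0.le hl₀1 Tc h₁ K e he)⟩

/-- **[NETIN-P2]**, with the numbers of `H333.NetInP2'` -/
theorem netInP2'_of (hNet : _root_.P073.Top.NetOutN) (hM : CellMod) : H333.NetInP2' := by
  obtain ⟨Cc, K₀, κc, hCc, hκc, hM⟩ := hM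
  refine ⟨fun θ M => Cc θ M + |M| + 4, K₀, fun θ M => by
    have := hCc θ M
    positivity, ?_⟩
  intro θ M k₁ k₃ hθ hM0 hk₁ hk₃
  obtain ⟨b₁, β, σ₀, κ₀, k₂, a1, a2, a3, a4, a5, a6, a7, a8, a9, a10, a11, a12, a13, a14, a15, a16,
    a17, a18, a19, a20, a21⟩ := exists_numbers hθ hM0 (hκc θ M k₁)
  refine ⟨k₂, β, σ₀, κ₀, a20, by linarith, a21, a4, a5, a8, a9, a12, ?_⟩
  intro κ hκ hκκ p ε c₀ t₀ δ₀ ε₁ Ω Λ f F T v m P bΩ bΛ hf rat hT hε₁ ht₀ hδ₀ hc₀ ⟨Nk⟩ J' π S I hPI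
    hTI fin σf δ τ hσc hσ0 hδ hτ
  obtain ⟨h₁, H⟩ := exists_H1 (C := P) (n := m + k₃) (J' := J') (π := π) (k₁ := k₁)
    (k₀ := K₀ θ M k₁) (k₂ := k₂) hNet a1 hM0 a4 a5 a6 a7 a3 hθ a8 a9 a10 a11 hκ (by linarith)
    (by linarith) (by linarith) (by omega) (by omega) hk₁ a17 a18 a19 bΩ bΛ hf rat hT hε₁ hδ₀ hc₀
    Nk S hPI hTI fin hσc hσ0 hδ hτ
  have hCcp := hCc θ M
  obtain ⟨h, Hh⟩ := netRes2_of_H1 hM bΩ.1 bΛ.1 hPI hθ hM0 hk₁ rfl a2 a1.le a3 hCcp hTI H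
  refine ⟨h, ?_⟩
  show NetRes2 v I (m + k₃) k₁ (K₀ θ M k₁) J' (Cc θ M + |M| + 4)
    (4 * ε₁ + (Cc θ M + |M| + 4) / 2 ^ m) τ (fun z => P.A (π z)) f F Ω σf δ h.toFun
  rw [abs_of_pos hM0]
  refine ⟨fun x hx => (Hh.near x hx).trans ?_, Hh.layer, Hh.inn, Hh.box, Hh.gap, Hh.own, Hh.osq,
    Hh.off, Hh.len⟩
  have hp : (1:ℝ) / 2 ^ (m + k₃) ≤ 1 / 2 ^ m := one_lat m k₃
  have e1 : Cc θ M / 2 ^ (m + k₃) = Cc θ M * (1 / 2 ^ (m + k₃)) := by ring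
  have e2 : (Cc θ M + M + 4) / 2 ^ m = Cc θ M * (1 / 2 ^ m) + (M + 4) / 2 ^ m := by ring
  rw [e1, e2]
  have e3 : Cc θ M * (1 / 2 ^ (m + k₃)) ≤ Cc θ M * (1 / 2 ^ m) :=
    mul_le_mul_of_nonneg_left hp hCcp.le
  linarith

/-- **[NETIN-P2]** -/
theorem netInP2_of (hNet : _root_.P073.Top.NetOutN) (hM : CellMod) : NetInP2 :=
  H333.netInP2_of (netInP2'_of hNet hM)

end Vale.Agent.P073.H234
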