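import Vale.Agent.P073.H234.Cleaned
import Vale.Agent.P073.H439.CloseSub

/-!
# P073, P2: from the cleaned homeomorphism to the result for the machines
-/

namespace Vale.Agent.P073.H234

open MeasureTheory Set Filter Topology Metric Vale.Agent.P073.St Vale.Agent.P073.AB
open Vale.Agent.P073.SQ (ev)
open Vale.Agent.P073.AB.P86 (rel)
open _root_.P073.Net (dyc dyo)
open _root_.P073 (ConBall ConHomeo)
open _root_.P073.Gauge.C110
open Vale.Agent.P073.H333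
open scoped ENNReal

/-- the facts about the cleaned homeomorphism `h₁` (and the net `h₀`); `N = n + k₁ + k₀` -/
structure H1 (θ M b₁ e₁ τ : ℝ) (v : V) (I : Set Idx) (n k₁ k₀ : ℕ) (J : Finset (Fin 3 → ℤ))
    (A : (Fin 3 → ℤ) → V → V) (L : (Fin 3 → ℤ) → V →L[ℝ] V) (f : V → V) (F : V → Mat) (Ω : Set V)
    (σ : V → ℝ) (δ : Idx × Fin 3 → ℝ) (h₁ : V → V) : Prop where
  aff : ∀ z ∈ J, ∀ x y, A z y - A z x = L z (y - x)
  below : ∀ z ∈ J, ∀ w, θ * ‖w‖ ≤ ‖L z w‖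
  above : ∀ z ∈ J, ∀ w, ‖L z w‖ ≤ M * ‖w‖
  /-- one affine map where the tile of a cell meets another open cell -/
  same : ∀ z ∈ J, ∀ z' ∈ J, ∀ u, Touch v n (n + k₁ + k₀) z u → ∀ x ∈ dyc v (n + k₁ + k₀) u,
    x ∈ dyo v n z' → A z = A z'
  /-- distance of the points of the touching tiles to the cell -/
  tnear : ∀ z u, Touch v n (n + k₁ + k₀) z u → ∀ x ∈ dyc v (n + k₁ + k₀) u,
    ∃ y ∈ dyc v n z, ‖x - y‖ ≤ 1 / 2 ^ (n + k₁ + k₀)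
  common : ∀ s : Idx × Fin 3, s.1.1 = n + k₁ + k₀ → Tch v n (n + k₁ + k₀) J s.1.2 →
    Tch v n (n + k₁ + k₀) J (dn s) → ∃ z ∈ J, Touch v n (n + k₁ + k₀) z s.1.2 ∧
      Touch v n (n + k₁ + k₀) z (dn s)
  close : ∀ z ∈ J, ∀ x ∈ dyc v n z, ‖h₁ x - A z x‖ ≤ b₁ / 2 ^ (n + k₁ + k₀)
  ecl : ∀ z ∈ J, ∀ u, Touch v n (n + k₁ + k₀) z u → ∀ e : Idx × Fin 3,
    EdgeOf e (n + k₁ + k₀, u) → (∀ x ∈ edge v e, ‖h₁ x - A z x‖ ≤ b₁ / 2 ^ (n + k₁ + k₀)) ∧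
    eInt v e (fun x => ENNReal.ofReal ‖lineDeriv ℝ h₁ x (ev e.2) - L z (ev e.2)‖) ≤
      ENNReal.ofReal (b₁ / 2 ^ (n + k₁ + k₀))
  scl : ∀ s : Idx × Fin 3, s.1.1 = n + k₁ + k₀ → ∀ z ∈ J, Touch v n (n + k₁ + k₀) z s.1.2 →
    Touch v n (n + k₁ + k₀) z (dn s) → ∀ x ∈ squ v s, ‖h₁ x - A z x‖ ≤ b₁ / 2 ^ (n + k₁ + k₀)
  near : ∀ x ∈ Ω, ‖h₁ x - f x‖ ≤ e₁
  /-- `f` and the affine maps in the cells -/
  fcl : ∀ z ∈ J, ∀ x ∈ dyc v n z, ‖A z x - f x‖ ≤ e₁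
  off : ∀ S ⊆ Ω, IsPreconnected S → (∀ z ∈ J, Disjoint S (dyo v n z)) →
    (∀ u, Tch v n (n + k₁ + k₀) J u → Disjoint S (dyo v (n + k₁ + k₀) u)) →
    (∀ x ∈ S, ‖h₁ x - f x‖ ≤ σ x) ∨
    ∀ D, (∀ x ∈ S, ∀ y ∈ S, ‖f x - f y‖ ≤ D) →
      (∀ x ∈ S, ∀ y ∈ S, ‖h₁ x - h₁ y‖ ≤ 2 * D + τ) ∧
      ∀ x ∈ S, ∃ z ∈ J, ∃ y ∈ dyc v n z, y ∉ interior (boxB v n k₁ z) ∧
        ‖h₁ x - A z y‖ ≤ 2 * D + τ + (M + 4) / 2 ^ (n + k₁ + k₀)
  len : ∀ e : Idx × Fin 3, (∃ q ∈ I, EdgeOf e q) →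
    (∀ z ∈ J, Disjoint (edge v e) (interior (boxB v n k₁ z))) →
    eInt v e (fun x => ENNReal.ofReal ‖lineDeriv ℝ h₁ x (ev e.2)‖) ≤
      8 * eInt v e (fun x => ENNReal.ofReal ‖cl (F x) (ev e.2)‖) + ENNReal.ofReal (δ e)

/-- a point of a tile which touches the cell `z` is not in the inner box of another cell -/
theorem notMem_box {v : V} {n k₁ k₀ : ℕ} {z z' u : Fin 3 → ℤ} (hzz : z ≠ z')
    (ht : ∀ x ∈ dyc v (n + k₁ + k₀) u, ∃ y ∈ dyc v n z, ‖x - y‖ ≤ 1 / 2 ^ (n + k₁ + k₀)) {x : V}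
    (hx : x ∈ dyc v (n + k₁ + k₀) u) : x ∉ interior (boxB v n k₁ z') := by
  intro hx'
  obtain ⟨y, hy, hxy⟩ := ht x hx
  obtain ⟨r, hr, hb⟩ := Metric.isOpen_iff.1 isOpen_interior x hx'
  have hpn : (0:ℝ) < 2 ^ n := by positivity
  -- `y` is in the open cell `z'`
  have hyo : y ∈ dyo v n z' := by
    have hN : (1:ℝ) / 2 ^ (n + k₁ + k₀) ≤ 1 / 2 ^ (n + k₁) := by
      apply one_div_le_one_div_of_le (by positivity)
      exact pow_le_pow_right₀ (by norm_num) (by omega)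
    intro k
    have h1 : |x k - y k| ≤ 1 / 2 ^ (n + k₁) := by
      have := norm_le_pi_norm (x - y) k
      rw [Pi.sub_apply, Real.norm_eq_abs] at this
      exact (this.trans hxy).trans hN
    have key : ∀ t : ℝ, |t| < r → Function.update x k (x k + t) ∈ boxB v n k₁ z' := by
      intro t ht
      refine interior_subset (hb ?_)
      rw [Metric.mem_ball, dist_pi_lt_iff hr]
      intro i
      by_cases hi : i = k
      · subst hi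
        rw [Function.update_self, Real.dist_eq]
        simpa using ht
      · rw [Function.update_of_ne hi, dist_self]
        exact hr
    have h2 := key (r / 2) (by rw [abs_of_pos (by positivity)]; linarith) k
    have h3 := key (-(r / 2)) (by rw [abs_neg, abs_of_pos (by positivity)]; linarith) k
    rw [Function.update_self] at h2 h3
    obtain ⟨-, h4⟩ := h2
    obtain ⟨h5, -⟩ := h3
    rw [abs_le] at h1
    constructor <;> linarith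
  -- contradiction
  apply hzz
  funext k
  obtain ⟨h1, h2⟩ := hy k
  obtain ⟨h3, h4⟩ := hyo k
  have h5 : (z k : ℝ) / 2 ^ n < (z' k + 1) / 2 ^ n := by linarith
  have h6 : (z' k : ℝ) / 2 ^ n < (z k + 1) / 2 ^ n := by linarith
  rw [div_lt_div_iff_of_pos_right hpn] at h5 h6
  have h7 : z k < z' k + 1 := by exact_mod_cast h5
  have h8 : z' k < z k + 1 := by exact_mod_cast h6
  omega

variable {θ M b₁ e₁ τ : ℝ} {v : V} {I : Set Idx} {n k₁ k₀ : ℕ} {J : Finset (Fin 3 → ℤ)}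
  {A : (Fin 3 → ℤ) → V → V} {L : (Fin 3 → ℤ) → V →L[ℝ] V} {f : V → V} {F : V → Mat} {Ω Λ : Set V}
  {σ : V → ℝ} {δ : Idx × Fin 3 → ℝ}

theorem CloseCell.mono {θ M κ κ' : ℝ} {k₁ k₀ : ℕ} {v : V} {I : Set Idx} {h : V → V} {q : Idx}
    {A : V → V} {L : V →L[ℝ] V} (H : CloseCell θ M κ k₁ k₀ v I h q A L) (hκ : κ ≤ κ') :
    CloseCell θ M κ' k₁ k₀ v I h q A L where
  aff := H.aff
  below := H.below
  above := H.above
  fine := H.fine
  close := fun x hx => (H.close x hx).trans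
    (div_le_div_of_nonneg_right hκ (by positivity))
  own := fun e he hsub => (H.own e he hsub).trans (ENNReal.ofReal_le_ofReal
    (div_le_div_of_nonneg_right hκ (by positivity)))

/-- the good cells of `h₁` -/
theorem H1.closeCell {h₁ : ConHomeo Ω Λ}
    (H : H1 θ M b₁ e₁ τ v I n k₁ k₀ J A L f F Ω σ δ h₁.toFun)
    (hI : ∀ u, Tch v n (n + k₁ + k₀) J u → ((n + k₁ + k₀, u) : Idx) ∈ I) {z : Fin 3 → ℤ}
    (hz : z ∈ J) : CloseCell θ M b₁ k₁ k₀ v I h₁.toFun (n, z) (A z) (L z) where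
  aff := H.aff z hz
  below := H.below z hz
  above := H.above z hz
  fine := fun z' hz' => hI z' ⟨z, hz, hz'⟩
  close := H.close z hz
  own := fun e he hsub => by
    obtain ⟨w, hw1, hw2⟩ := cube_of_edge (j := k₁ + k₀) (by rw [he]; ring) hsub
    have hNeq : n + (k₁ + k₀) = n + k₁ + k₀ := by ring
    rw [hNeq] at hw1 hw2
    refine (H.ecl z hz w ?_ e hw1).2
    obtain ⟨x, hx⟩ : (dyc v (n + k₁ + k₀) w).Nonempty :=
      ⟨_, P86.dyo_sub_dyc (P86.cen_mem v _ w)⟩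
    exact ⟨x, hx, hw2 hx⟩

/-- **[K7a]** -/
theorem netRes2_of_H1 {Cc : ℝ → ℝ → ℝ} {K₀ : ℝ → ℝ → ℕ → ℕ} {κ : ℝ → ℝ → ℕ → ℝ}
    (hM : ∀ (Ω Λ : Set V) (v : V) (I₀ I J : Set Idx) (θ M : Idx → ℝ)
      (k₁ : Idx → ℕ) (A : Idx → V → V) (L : Idx → V →L[ℝ] V) (h₀ : ConHomeo Ω Λ),
      IsOpen Ω → IsOpen Λ → Part Ω v I₀ → Part Ω v I →
      (∀ q ∈ J, 0 < θ q ∧ 0 < M q ∧ 3 ≤ k₁ q) →
      (∀ q ∈ J, ∀ q' ∈ J, q ≠ q' → Disjoint (dyo v q.1 q.2) (dyo v q'.1 q'.2)) →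
      (∀ q ∈ J, CloseCell (θ q) (M q) (κ (θ q) (M q) (k₁ q)) (k₁ q) (K₀ (θ q) (M q) (k₁ q)) v I₀
        h₀.toFun q (A q) (L q)) →
      (∀ q ∈ J, ∀ r ∈ I₀, dyc v r.1 r.2 ⊆ dyc v q.1 q.2 → r ∈ I) →
      ∃ h : ConHomeo Ω Λ,
        (∀ x ∈ Ω, (∀ q ∈ J, x ∉ dyo v q.1 q.2) → h.toFun x = h₀.toFun x) ∧
        (∀ q ∈ J, ∀ x ∈ dyc v q.1 q.2, x ∉ interior (boxB v q.1 (k₁ q) q.2) →
          ‖h.toFun x - A q x‖ ≤ Cc (θ q) (M q) / 2 ^ (q.1 + k₁ q + K₀ (θ q) (M q) (k₁ q))) ∧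
        (∀ q ∈ J, ∀ x ∈ boxB v q.1 (k₁ q) q.2,
          ‖h.toFun x - A q x‖ ≤ Cc (θ q) (M q) / 2 ^ (q.1 + k₁ q)) ∧
        (∀ q ∈ J, ∀ x ∈ boxR v q.1 (k₁ q) q.2, h.toFun x = A q x) ∧
        (∀ e : Idx × Fin 3, (∃ q ∈ I, EdgeOf e q) →
          (∀ q ∈ J, Disjoint (edge v e) (interior (boxB v q.1 (k₁ q) q.2))) →
          ∀ x ∈ edge v e, h.toFun x = h₀.toFun x) ∧
        ∀ q ∈ J, ∀ e : Idx × Fin 3, e.1.1 = q.1 + k₁ q → edge v e ⊆ boxB v q.1 (k₁ q) q.2 →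
          eInt v e (fun x => ENNReal.ofReal ‖lineDeriv ℝ h.toFun x (ev e.2)‖) ≤
            ENNReal.ofReal (Cc (θ q) (M q) / 2 ^ (q.1 + k₁ q)))
    (hΩ : IsOpen Ω) (hΛ : IsOpen Λ) (hPI : Part Ω v I) (hθ : 0 < θ) (hM0 : 0 < M) (hk₁ : 3 ≤ k₁)
    (hk₀ : k₀ = K₀ θ M k₁) (hb₁ : b₁ ≤ κ θ M k₁) (hb₁0 : 0 ≤ b₁) (hb₁1 : b₁ ≤ 1)
    (hCc : 0 < Cc θ M)
    (hI : ∀ u, Tch v n (n + k₁ + k₀) J u → ((n + k₁ + k₀, u) : Idx) ∈ I)
    {h₁ : ConHomeo Ω Λ} (H : H1 θ M b₁ e₁ τ v I n k₁ k₀ J A L f F Ω σ δ h₁.toFun) :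
    ∃ h : ConHomeo Ω Λ, NetRes2 v I n k₁ k₀ J (Cc θ M + M + 4) (e₁ + Cc θ M / 2 ^ n) τ A f F Ω σ δ
      h.toFun := by
  classical
  subst hk₀
  set k₀ := K₀ θ M k₁ with hk₀
  have hJne : ∀ z ∈ J, ∀ z' ∈ J, z ≠ z' → Disjoint (dyo v n z) (dyo v n z') := by
    intro z _ z' _ hzz
    rw [disjoint_left]
    intro x hx hx'
    exact hzz (H439.eq_of_mem hx' (P86.dyo_sub_dyc hx))
  obtain ⟨h, c1, c2, c3, c4, c5, c6⟩ := hM Ω Λ v I I {q | q.1 = n ∧ q.2 ∈ J} (fun _ => θ)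
    (fun _ => M) (fun _ => k₁) (fun q => A q.2) (fun q => L q.2) h₁ hΩ hΛ hPI hPI
    (fun _ _ => ⟨hθ, hM0, hk₁⟩)
    (by
      rintro ⟨n', z⟩ ⟨h1, hz⟩ ⟨n'', z'⟩ ⟨h2, hz'⟩ hne
      dsimp only at h1 h2 hz hz' ⊢
      subst h1
      subst h2
      exact hJne z hz z' hz' fun h => hne (by rw [h]))
    (by
      rintro ⟨n', z⟩ ⟨h1, hz⟩
      dsimp only at h1 hz ⊢
      subst h1
      exact (H.closeCell hI hz).mono hb₁)
    (fun _ _ r hr _ => hr)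
  simp only [mem_setOf_eq] at c1 c2 c3 c4 c5 c6
  have d1 : ∀ x ∈ Ω, (∀ z ∈ J, x ∉ dyo v n z) → h.toFun x = h₁.toFun x := fun x hx hno =>
    c1 x hx (by rintro ⟨n', z⟩ ⟨h1, hz⟩; dsimp only at h1 hz ⊢; subst h1; exact hno z hz)
  have d2 : ∀ z ∈ J, ∀ x ∈ dyc v n z, x ∉ interior (boxB v n k₁ z) →
      ‖h.toFun x - A z x‖ ≤ Cc θ M / 2 ^ (n + k₁ + k₀) := fun z hz => c2 (n, z) ⟨rfl, hz⟩
  have d3 : ∀ z ∈ J, ∀ x ∈ boxB v n k₁ z, ‖h.toFun x - A z x‖ ≤ Cc θ M / 2 ^ (n + k₁) :=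
    fun z hz => c3 (n, z) ⟨rfl, hz⟩
  have d5 : ∀ e : Idx × Fin 3, (∃ q ∈ I, EdgeOf e q) →
      (∀ z ∈ J, Disjoint (edge v e) (interior (boxB v n k₁ z))) →
      ∀ x ∈ edge v e, h.toFun x = h₁.toFun x := fun e he hd =>
    c5 e he (by rintro ⟨n', z⟩ ⟨h1, hz⟩; dsimp only at h1 hz ⊢; subst h1; exact hd z hz)
  have hN : (0:ℝ) < 2 ^ (n + k₁ + k₀) := by positivity
  have hCle : ∀ a : ℕ, Cc θ M / 2 ^ a ≤ (Cc θ M + M + 4) / 2 ^ a := fun a => by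
    gcongr; linarith
  have hbl : b₁ / 2 ^ (n + k₁ + k₀) ≤ (Cc θ M + M + 4) / 2 ^ (n + k₁ + k₀) := by
    gcongr; linarith
  have hpow : ∀ a : ℕ, n ≤ a → Cc θ M / 2 ^ a ≤ Cc θ M / 2 ^ n := fun a ha => by
    have : (2:ℝ) ^ n ≤ 2 ^ a := pow_le_pow_right₀ (by norm_num) ha
    gcongr
  have hCn : 0 < Cc θ M / 2 ^ n := by positivity
  refine ⟨h, ?_, ?_, ?_, ?_, ?_, ?_, ?_, ?_, ?_⟩
  · -- near
    intro x hx
    by_cases hex : ∃ z ∈ J, x ∈ dyo v n z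
    · obtain ⟨z, hz, hxz⟩ := hex
      have hxz' : x ∈ dyc v n z := P86.dyo_sub_dyc hxz
      have h1 : ‖h.toFun x - A z x‖ ≤ Cc θ M / 2 ^ n := by
        by_cases hB : x ∈ interior (boxB v n k₁ z)
        · exact (d3 z hz x (interior_subset hB)).trans (hpow _ (by omega))
        · exact (d2 z hz x hxz' hB).trans (hpow _ (by omega))
      have h2 := H.fcl z hz x hxz'
      calc ‖h.toFun x - f x‖ ≤ ‖h.toFun x - A z x‖ + ‖A z x - f x‖ :=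
            norm_sub_le_norm_sub_add_norm_sub _ _ _
        _ ≤ _ := by linarith
    · push Not at hex
      rw [d1 x hx hex]
      have := H.near x hx
      linarith
  · exact fun z hz x hx hB => (d2 z hz x hx hB).trans (hCle _)
  · exact fun z hz x hx => (d3 z hz x hx).trans (hCle _)
  · exact fun z hz => c4 (n, z) ⟨rfl, hz⟩
  · exact fun z hz e he hB => (c6 (n, z) ⟨rfl, hz⟩ e he hB).trans
      (ENNReal.ofReal_le_ofReal (hCle _))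
  · -- own
    intro z hz u hu e he hd
    have hsub : edge v e ⊆ dyc v (n + k₁ + k₀) u := Gr.edge_subset_dyc (q := (n + k₁ + k₀, u)) he
    have hd' : ∀ z' ∈ J, Disjoint (edge v e) (interior (boxB v n k₁ z')) := by
      intro z' hz'
      by_cases hzz : z = z'
      · subst hzz; exact hd
      · rw [disjoint_left]
        intro x hx
        exact notMem_box hzz (H.tnear z u hu) (hsub hx)
    have heq := d5 e ⟨_, hI u ⟨z, hz, hu⟩, he⟩ hd'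
    obtain ⟨h1, h2⟩ := H.ecl z hz u hu e he
    refine ⟨fun x hx => by rw [heq x hx]; exact (h1 x hx).trans hbl, ?_⟩
    have hcong := eInt_congr_edge heq (fun _ w => ENNReal.ofReal ‖w‖)
    rw [hcong]
    have he1 : e.1.1 = n + k₁ + k₀ := he.1
    have h3 := len_le_of_close (h := h₁.toFun) hb₁0 hM0.le (H.above z hz) (by rw [he1]; exact h2)
    refine h3.trans (ENNReal.ofReal_le_ofReal ?_)
    rw [he1]
    exact div_le_div_of_nonneg_right (by linarith) hN.le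
  · -- osq
    intro s hs h1 h2
    obtain ⟨z, hz, hz1, hz2⟩ := H.common s hs h1 h2
    refine ⟨z, hz, hz1, hz2, fun x hx hB => ?_⟩
    have hxu : x ∈ dyc v (n + k₁ + k₀) s.1.2 := by
      have := H439.squ_sub_dyc hx
      rwa [hs] at this
    by_cases hex : ∃ z' ∈ J, x ∈ dyo v n z'
    · obtain ⟨z', hz', hxz'⟩ := hex
      have hB' : x ∉ interior (boxB v n k₁ z') := by
        by_cases hzz : z = z'
        · subst hzz; exact hB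
        · exact notMem_box hzz (H.tnear z _ hz1) hxu
      rw [H.same z hz z' hz' _ hz1 x hxu hxz']
      exact (d2 z' hz' x (P86.dyo_sub_dyc hxz') hB').trans (hCle _)
    · push Not at hex
      have hxΩ : x ∈ Ω := hPI.sub _ (hI _ ⟨z, hz, hz1⟩) hxu
      rw [d1 x hxΩ hex]
      exact (H.scl s hs z hz hz1 hz2 x hx).trans hbl
  · -- off
    intro S hS hSc hSo hSu
    have heq : ∀ x ∈ S, h.toFun x = h₁.toFun x := fun x hx =>
      d1 x (hS hx) fun z hz => disjoint_left.1 (hSo z hz) hx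
    rcases H.off S hS hSc hSo hSu with h1 | h1
    · exact Or.inl fun x hx => by rw [heq x hx]; exact h1 x hx
    · refine Or.inr fun D hD => ?_
      obtain ⟨h2, h3⟩ := h1 D hD
      refine ⟨fun x hx y hy => by rw [heq x hx, heq y hy]; exact h2 x hx y hy, fun x hx => ?_⟩
      obtain ⟨z, hz, y, hy, hyB, h4⟩ := h3 x hx
      refine ⟨z, hz, y, hy, hyB, ?_⟩
      rw [heq x hx]
      refine h4.trans ?_
      have : (M + 4) / 2 ^ (n + k₁ + k₀) ≤ (Cc θ M + M + 4) / 2 ^ (n + k₁ + k₀) := by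
        gcongr; linarith
      linarith
  · -- len
    intro e he hd
    have heq := d5 e he hd
    have hcong := eInt_congr_edge heq (fun _ w => ENNReal.ofReal ‖w‖)
    rw [hcong]
    exact H.len e he hd

end Vale.Agent.P073.H234
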