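import Vale.Agent.P073.H234.Final2
import Vale.Agent.P073.H608.Top

/-!
# P073, P2: the net at the exponent two, unconditional
-/

namespace Vale.Agent.P073.H234

theorem cellMod : CellMod := cellMod_of H608.specCellE

/-- **[NETIN-P2]**, unconditional, with 333's numbers -/
theorem netInP2' : H333.NetInP2' := netInP2'_of PA285.netOutN cellMod

/-- **[NETIN-P2]**, unconditional -/
theorem netInP2 : NetInP2 := netInP2_of PA285.netOutN cellMod

end Vale.Agent.P073.H234
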