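import Vale.Agent.P073.H234.M1P
import Vale.Agent.P073.H490.R2c

/-!
# P073, block B09: `M1P p` (`3 ≤ p`) from Round 1 (`St1C p`) and (K3C)
-/

open Set Metric Topology Filter MeasureTheory Matrix WithLp
open scoped ENNReal NNReal

namespace Vale.Agent.P073.H234.Ch

open Vale.Agent.P073

/-- **(M1P)** for `3 ≤ p`: the open inputs are Round 1 and (K3C) -/
theorem m1P_of_K3C {p : ℝ} (hp : 3 ≤ p) (hSt : H304.K3C p → St1C p) (hK : H304.K3C p) :
    H235.M1P p :=
  m1P_of hp (hSt hK) (H490.specR2 (by linarith) hK)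

end Vale.Agent.P073.H234.Ch
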