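import Vale.Agent.P073.H234.Lat

/-!
# P073, P2: the images of the points which must not enter a neck cube
-/

namespace Vale.Agent.P073.H234

open MeasureTheory Set Filter Topology Metric Vale.Agent.P073.St Vale.Agent.P073.AB
open Vale.Agent.P073.SQ (ev)
open Vale.Agent.P073.AB.P86 (rel)
open _root_.P073.Net (dyc dyo)
open _root_.P073 (ConBall)
open scoped ENNReal

variable {p : ℝ} {ε : ℝ≥0∞} {θ M κ c₀ t₀ δ₀ ε₁ : ℝ} {j : ℕ} {Ω Λ : Set V} {f : V → V}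
  {F : V → Mat} {T : Set V} {v : V} {m : ℕ}

theorem TSet.t_pos (hT : TSet θ M κ t₀ δ₀ ε₁ Ω f F T)
    (C : P2Cells p ε θ M κ c₀ t₀ δ₀ j Ω Λ f F T v m) : 0 < t₀ :=
  lt_of_lt_of_le (by positivity) C.small

/-- comparison of the affine approximations at two points of `T` -/
theorem TSet.core (hT : TSet θ M κ t₀ δ₀ ε₁ Ω f F T) {a a' x o b y : V} {E E' : ℝ} (ha : a ∈ T)
    (ha' : a' ∈ T) (h4 : ‖a - a'‖ ≤ 4 * t₀) (hx : ‖y - f a - cl (F a) (x - a)‖ ≤ E)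
    (hb : ‖b - f a' - cl (F a') (o - a')‖ ≤ E') :
    ‖y - b - cl (F a') (x - o)‖ ≤ κ * ‖a - a'‖ + κ * ‖x - a‖ + E + E' := by
  obtain ⟨h1, h2⟩ := hT.two a' ha' a ha h4
  have h3 : ‖(cl (F a) - cl (F a')) (x - a)‖ ≤ κ * ‖x - a‖ :=
    ((cl (F a) - cl (F a')).le_opNorm _).trans (mul_le_mul_of_nonneg_right h1 (norm_nonneg _))
  have e : y - b - cl (F a') (x - o) =
      (f a - f a' - cl (F a') (a - a')) + (cl (F a) - cl (F a')) (x - a) +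
        (y - f a - cl (F a) (x - a)) - (b - f a' - cl (F a') (o - a')) := by
    simp only [ContinuousLinearMap.sub_apply, map_sub]
    abel
  rw [e]
  calc _ ≤ ‖f a - f a' - cl (F a') (a - a')‖ + ‖(cl (F a) - cl (F a')) (x - a)‖ +
        ‖y - f a - cl (F a) (x - a)‖ + ‖b - f a' - cl (F a') (o - a')‖ :=
      (norm_sub_le _ _).trans (add_le_add_left (norm_add₃_le) _)
    _ ≤ _ := by gcongr

theorem TSet.low_of (hT : TSet θ M κ t₀ δ₀ ε₁ Ω f F T) {a a' x o b y : V} {E E' : ℝ} (ha : a ∈ T)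
    (ha' : a' ∈ T) (h4 : ‖a - a'‖ ≤ 4 * t₀) (hx : ‖y - f a - cl (F a) (x - a)‖ ≤ E)
    (hb : ‖b - f a' - cl (F a') (o - a')‖ ≤ E') :
    θ * ‖x - o‖ ≤ ‖y - b‖ + κ * ‖a - a'‖ + κ * ‖x - a‖ + E + E' := by
  have h1 := hT.core ha ha' h4 hx hb
  have h2 := hT.low a' ha' (x - o)
  have h3 : ‖cl (F a') (x - o)‖ ≤ ‖y - b‖ + ‖y - b - cl (F a') (x - o)‖ := by
    have := norm_sub_le (y - b) (y - b - cl (F a') (x - o))
    rwa [sub_sub_cancel] at this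
  linarith

theorem TSet.upp_of (hT : TSet θ M κ t₀ δ₀ ε₁ Ω f F T) {a a' x o b y : V} {E E' : ℝ} (ha : a ∈ T)
    (ha' : a' ∈ T) (h4 : ‖a - a'‖ ≤ 4 * t₀) (hx : ‖y - f a - cl (F a) (x - a)‖ ≤ E)
    (hb : ‖b - f a' - cl (F a') (o - a')‖ ≤ E') :
    ‖y - b‖ ≤ M * ‖x - o‖ + κ * ‖a - a'‖ + κ * ‖x - a‖ + E + E' := by
  have h1 := hT.core ha ha' h4 hx hb
  have h2 := hT.upp a' ha' (x - o)
  have h3 : ‖y - b‖ ≤ ‖cl (F a') (x - o)‖ + ‖y - b - cl (F a') (x - o)‖ := by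
    have := norm_add_le (cl (F a') (x - o)) (y - b - cl (F a') (x - o))
    rwa [add_sub_cancel] at this
  linarith

/-- from the affine map of the cell to the affine approximation at a vertex -/
theorem P2Cells.at_vertex (C : P2Cells p ε θ M κ c₀ t₀ δ₀ j Ω Λ f F T v m) {z : Fin 3 → ℤ}
    (hz : z ∈ C.J) {a : Fin 3 → ℤ} (ha : pt v (m + j) a ∈ dyc v m z) {x y : V} {E : ℝ}
    (h : ‖y - C.A z x‖ ≤ E) :
    ‖y - f (pt v (m + j) a) - cl (F (pt v (m + j) a)) (x - pt v (m + j) a)‖ ≤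
      E + κ / 2 ^ (m + j) + κ * ‖x - pt v (m + j) a‖ := by
  obtain ⟨-, h1, h2⟩ := C.vert z hz a ha
  set a' := pt v (m + j) a
  have h3 : ‖(cl (F a') - C.L z) (x - a')‖ ≤ κ * ‖x - a'‖ :=
    ((cl (F a') - C.L z).le_opNorm _).trans (mul_le_mul_of_nonneg_right h2 (norm_nonneg _))
  have h4 := C.aff z hz a' x
  have e : y - f a' - cl (F a') (x - a') = (y - C.A z x) - (f a' - C.A z a') -
      (cl (F a') - C.L z) (x - a') := by
    rw [ContinuousLinearMap.sub_apply, ← h4]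
    abel
  rw [e]
  calc _ ≤ ‖y - C.A z x‖ + ‖f a' - C.A z a'‖ + ‖(cl (F a') - C.L z) (x - a')‖ :=
      (norm_sub_le _ _).trans (add_le_add_left (norm_sub_le _ _) _)
    _ ≤ _ := by gcongr

theorem kap_nonneg (C : P2Cells p ε θ M κ c₀ t₀ δ₀ j Ω Λ f F T v m) {z : Fin 3 → ℤ}
    (hz : z ∈ C.J) : 0 ≤ κ := by
  have h1 : pt v (m + j) (fun k => z k * 2 ^ j) ∈ dyc v m z := by
    intro k
    simp only [pt]
    have hp : (0:ℝ) < 2 ^ m := by positivity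
    have hj : (0:ℝ) < 2 ^ j := by positivity
    have e : (((z k * 2 ^ j : ℤ)) : ℝ) / 2 ^ (m + j) = z k / 2 ^ m := by
      push_cast
      rw [pow_add]
      field_simp
    rw [e]
    refine ⟨le_rfl, ?_⟩
    gcongr
    linarith
  exact (norm_nonneg _).trans (C.vert z hz _ h1).2.2

/-- a neck: the centre `b` of a neck cube and the point `o` of a clean square of the cell `z` -/
structure NeckPt (C : P2Cells p ε θ M κ c₀ t₀ δ₀ j Ω Λ f F T v m) (β : ℝ) (b o : V)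
    (z : Fin 3 → ℤ) (s : Idx × Fin 3) : Prop where
  mem : z ∈ C.J
  clean : Clean v m j z s
  sq : o ∈ squ v s
  near : ‖b - C.A z o‖ ≤ 2 * β / 2 ^ (m + j)

variable {C : P2Cells p ε θ M κ c₀ t₀ δ₀ j Ω Λ f F T v m} {β : ℝ} {b o : V} {z : Fin 3 → ℤ}
  {s : Idx × Fin 3}

/-- the vertex of a clean square -/
theorem Clean.vertex {z : Fin 3 → ℤ} {s : Idx × Fin 3} (h : Clean v m j z s) :
    pt v (m + j) s.1.2 ∈ dyc v m z ∧ pt v (m + j) s.1.2 ∈ squ v s := by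
  have h1 := pt_mem_squ (v := v) s
  rw [h.1] at h1
  exact ⟨h.sub h1, h1⟩

theorem NeckPt.vert (H : NeckPt C β b o z s) : pt v (m + j) s.1.2 ∈ T ∧
    ‖o - pt v (m + j) s.1.2‖ ≤ 1 / 2 ^ (m + j) ∧
    ‖b - f (pt v (m + j) s.1.2) - cl (F (pt v (m + j) s.1.2)) (o - pt v (m + j) s.1.2)‖ ≤
      (2 * β + 2 * κ) / 2 ^ (m + j) := by
  obtain ⟨h1, h2⟩ := H.clean.vertex
  have h3 := squ_dist H.sq h2
  rw [H.clean.1] at h3
  refine ⟨(C.vert z H.mem _ h1).1, h3, (C.at_vertex H.mem h1 H.near).trans ?_⟩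
  have hk := kap_nonneg C H.mem
  have e : (2 * β + 2 * κ) / 2 ^ (m + j) = 2 * β / 2 ^ (m + j) + κ / 2 ^ (m + j) +
      κ * (1 / 2 ^ (m + j)) := by ring
  rw [e]
  gcongr

/-- the centre of the neck is close to the image of the vertex -/
theorem NeckPt.b_near (hT : TSet θ M κ t₀ δ₀ ε₁ Ω f F T) (H : NeckPt C β b o z s) (hβ : β ≤ 1 / 8)
    (hκ : κ ≤ 1 / 8) (hM : 0 ≤ M) : ‖b - f (pt v (m + j) s.1.2)‖ ≤ δ₀ / 16 := by
  obtain ⟨h1, h2, h3⟩ := H.vert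
  have h4 := hT.upp _ h1 (o - pt v (m + j) s.1.2)
  have h5 : ‖b - f (pt v (m + j) s.1.2)‖ ≤ ‖cl (F (pt v (m + j) s.1.2)) (o - pt v (m + j) s.1.2)‖ +
      ‖b - f (pt v (m + j) s.1.2) - cl (F (pt v (m + j) s.1.2)) (o - pt v (m + j) s.1.2)‖ := by
    have := norm_add_le (cl (F (pt v (m + j) s.1.2)) (o - pt v (m + j) s.1.2))
      (b - f (pt v (m + j) s.1.2) - cl (F (pt v (m + j) s.1.2)) (o - pt v (m + j) s.1.2))
    rwa [add_sub_cancel] at this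
  have h6 := C.fine
  have h7 : (1:ℝ) / 2 ^ (m + j) ≤ 1 / 2 ^ m := by
    apply one_div_le_one_div_of_le (by positivity)
    exact pow_le_pow_right₀ (by norm_num) (by omega)
  have h8 : M * ‖o - pt v (m + j) s.1.2‖ ≤ M * (1 / 2 ^ m) :=
    mul_le_mul_of_nonneg_left (h2.trans h7) hM
  have h9 : (2 * β + 2 * κ) / 2 ^ (m + j) ≤ 1 * (1 / 2 ^ m) := by
    have h10 : (2 * β + 2 * κ) / 2 ^ (m + j) = (2 * β + 2 * κ) * (1 / 2 ^ (m + j)) := by ring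
    rw [h10]
    have : (2 * β + 2 * κ) * (1 / 2 ^ (m + j)) ≤ 1 * (1 / 2 ^ (m + j)) :=
      mul_le_mul_of_nonneg_right (by linarith) (by positivity)
    linarith
  have e : 64 * (M + 1) / 2 ^ m = 64 * (M * (1 / 2 ^ m) + 1 * (1 / 2 ^ m)) := by ring
  rw [e] at h6
  have h11 : 0 ≤ M * (1 / 2 ^ m) := by positivity
  have h12 : (0:ℝ) ≤ 1 * (1 / 2 ^ m) := by positivity
  linarith

/-- far points -/
theorem NeckPt.far (hT : TSet θ M κ t₀ δ₀ ε₁ Ω f F T) (H : NeckPt C β b o z s) (hβ : β ≤ 1 / 8)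
    (hκ : κ ≤ 1 / 8) (hM : 0 ≤ M) {x : V} (hx : x ∈ Ω) (hxo : t₀ ≤ ‖x - o‖) :
    δ₀ / 2 ≤ ‖f x - b‖ := by
  obtain ⟨h1, h2, h3⟩ := H.vert
  have ht := hT.t_pos C
  have h7 : (1:ℝ) / 2 ^ (m + j) ≤ 1 / 2 ^ m := by
    apply one_div_le_one_div_of_le (by positivity)
    exact pow_le_pow_right₀ (by norm_num) (by omega)
  have h8 : (1:ℝ) / 2 ^ m ≤ t₀ / 4 := by
    have := C.small
    have e : (4:ℝ) / 2 ^ m = 4 * (1 / 2 ^ m) := by ring
    rw [e] at this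
    linarith
  have h9 : t₀ / 2 ≤ ‖x - pt v (m + j) s.1.2‖ := by
    have h10 : ‖x - o‖ ≤ ‖x - pt v (m + j) s.1.2‖ + ‖o - pt v (m + j) s.1.2‖ := by
      have := norm_sub_le (x - pt v (m + j) s.1.2) (o - pt v (m + j) s.1.2)
      simpa using this
    linarith
  have h11 := hT.far _ h1 x hx h9
  have h12 := H.b_near hT hβ hκ hM
  have h13 : ‖f x - f (pt v (m + j) s.1.2)‖ ≤ ‖f x - b‖ + ‖b - f (pt v (m + j) s.1.2)‖ :=
    norm_sub_le_norm_sub_add_norm_sub _ _ _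
  have h14 : 0 ≤ δ₀ := by linarith [norm_nonneg (b - f (pt v (m + j) s.1.2))]
  linarith

/-- **lower bound**: `x` near an own vertex `a` where `f` is close to its affine approximation at
`a` -/
theorem NeckPt.low (hT : TSet θ M κ t₀ δ₀ ε₁ Ω f F T) (H : NeckPt C β b o z s)
    (hκθ : 4 * κ ≤ θ) {a x : V} (ha : a ∈ T) (hao : ‖a - o‖ ≤ 3 * t₀) {E : ℝ}
    (hE : ‖f x - f a - cl (F a) (x - a)‖ ≤ E) :
    θ / 2 * ‖x - o‖ ≤ ‖f x - b‖ + 2 * κ * ‖x - a‖ + E + (2 * β + 3 * κ) / 2 ^ (m + j) := by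
  obtain ⟨h1, h2, h3⟩ := H.vert
  have ht := hT.t_pos C
  have hk := kap_nonneg C H.mem
  have hd : ‖a - o‖ ≤ ‖x - o‖ + ‖x - a‖ := by
    have := norm_sub_le (x - o) (x - a)
    rwa [sub_sub_sub_cancel_left, ← neg_sub, ← norm_neg, neg_neg, norm_sub_rev] at this
  have h7 : (1:ℝ) / 2 ^ (m + j) ≤ 1 / 2 ^ m := by
    apply one_div_le_one_div_of_le (by positivity)
    exact pow_le_pow_right₀ (by norm_num) (by omega)
  have h8 : (1:ℝ) / 2 ^ m ≤ t₀ / 4 := by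
    have := C.small
    have e : (4:ℝ) / 2 ^ m = 4 * (1 / 2 ^ m) := by ring
    rw [e] at this
    linarith
  have h9 : ‖a - pt v (m + j) s.1.2‖ ≤ ‖a - o‖ + ‖o - pt v (m + j) s.1.2‖ :=
    norm_sub_le_norm_sub_add_norm_sub _ _ _
  have h10 : ‖a - pt v (m + j) s.1.2‖ ≤ 4 * t₀ := by linarith
  have h11 := hT.low_of ha h1 h10 hE h3
  have h12 : κ * ‖a - pt v (m + j) s.1.2‖ ≤ κ * (‖x - o‖ + ‖x - a‖ + 1 / 2 ^ (m + j)) :=
    mul_le_mul_of_nonneg_left (by linarith) hk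
  have h13 : 0 ≤ ‖x - o‖ := norm_nonneg _
  have h14 : κ * ‖x - o‖ ≤ θ / 4 * ‖x - o‖ := mul_le_mul_of_nonneg_right (by linarith) h13
  have e : (2 * β + 3 * κ) / 2 ^ (m + j) = (2 * β + 2 * κ) / 2 ^ (m + j) + κ * (1 / 2 ^ (m + j)) := by
    ring
  rw [e]
  have h15 : 0 ≤ θ / 4 * ‖x - o‖ := by
    have : 0 ≤ κ * ‖x - o‖ := mul_nonneg hk h13
    linarith
  nlinarith [mul_nonneg hk (norm_nonneg (x - a))]

end Vale.Agent.P073.H234
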