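import Vale.Agent.P073.H234.Img

/-!
# P073, P2: the points of `NSet` do not enter the neck cube
-/

namespace Vale.Agent.P073.H234

open MeasureTheory Set Filter Topology Metric Vale.Agent.P073.St Vale.Agent.P073.AB
open Vale.Agent.P073.SQ (ev)
open Vale.Agent.P073.AB.P86 (rel)
open _root_.P073.Net (dyc dyo)
open _root_.P073 (ConBall)
open scoped ENNReal

variable {p : ℝ} {ε : ℝ≥0∞} {θ M κ c₀ t₀ δ₀ ε₁ : ℝ} {j : ℕ} {Ω Λ : Set V} {f : V → V}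
  {F : V → Mat} {T : Set V} {v : V} {m : ℕ}
  {C : P2Cells p ε θ M κ c₀ t₀ δ₀ j Ω Λ f F T v m} {β σ : ℝ} {b o : V} {z : Fin 3 → ℤ}
  {s : Idx × Fin 3}

/-- the numerical hypotheses -/
structure Num (θ M κ β : ℝ) : Prop where
  θ0 : 0 < θ
  M0 : 0 ≤ M
  β0 : 0 < β
  β1 : β ≤ 1 / 8
  κβ : 16 * κ ≤ β
  κθ : 16 * κ ≤ θ

theorem Num.κ1 (h : Num θ M κ β) : κ ≤ 1 / 8 := by linarith [h.κβ, h.β1, h.β0]

theorem one_lat (m j : ℕ) : (1:ℝ) / 2 ^ (m + j) ≤ 1 / 2 ^ m := by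
  apply one_div_le_one_div_of_le (by positivity)
  exact pow_le_pow_right₀ (by norm_num) (by omega)

theorem P2Cells.lat_le (C : P2Cells p ε θ M κ c₀ t₀ δ₀ j Ω Λ f F T v m) :
    (1:ℝ) / 2 ^ (m + j) ≤ t₀ / 4 := by
  have := C.small
  have e : (4:ℝ) / 2 ^ m = 4 * (1 / 2 ^ m) := by ring
  rw [e] at this
  linarith [one_lat m j]

/-- points of clean squares where `f` is close to the affine map -/
theorem NeckPt.sq_low (hT : TSet θ M κ t₀ δ₀ ε₁ Ω f F T) (hN : Num θ M κ β)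
    (H : NeckPt C β b o z s) {z' : Fin 3 → ℤ} {s' : Idx × Fin 3} (hz' : z' ∈ C.J)
    (hs' : Clean v m j z' s') {x : V} (hx : x ∈ squ v s')
    (hc : ‖f x - C.A z' x‖ ≤ β / 2 ^ (m + j)) (hxo : ‖x - o‖ < t₀) :
    θ / 2 * ‖x - o‖ ≤ ‖f x - b‖ + 4 * β / 2 ^ (m + j) := by
  obtain ⟨h1, h2⟩ := hs'.vertex
  have h3 := squ_dist hx h2
  rw [hs'.1] at h3
  have hk := kap_nonneg C H.mem
  have hl := C.lat_le
  have ht := hT.t_pos C
  have h4 := C.at_vertex hz' h1 hc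
  have h5 : ‖pt v (m + j) s'.1.2 - o‖ ≤ 3 * t₀ := by
    have : ‖pt v (m + j) s'.1.2 - o‖ ≤ ‖x - pt v (m + j) s'.1.2‖ + ‖x - o‖ := by
      have := norm_sub_le (x - o) (x - pt v (m + j) s'.1.2)
      rw [sub_sub_sub_cancel_left] at this
      linarith
    linarith
  have h6 := H.low hT (by linarith [hN.κθ, hk]) (C.vert z' hz' _ h1).1 h5 h4
  have h7 : κ * ‖x - pt v (m + j) s'.1.2‖ ≤ κ * (1 / 2 ^ (m + j)) :=
    mul_le_mul_of_nonneg_left h3 hk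
  have hr : (0:ℝ) < 1 / 2 ^ (m + j) := by positivity
  have e1 : β / 2 ^ (m + j) = β * (1 / 2 ^ (m + j)) := by ring
  have e2 : κ / 2 ^ (m + j) = κ * (1 / 2 ^ (m + j)) := by ring
  have e3 : (2 * β + 3 * κ) / 2 ^ (m + j) = (2 * β + 3 * κ) * (1 / 2 ^ (m + j)) := by ring
  have e4 : 4 * β / 2 ^ (m + j) = 4 * β * (1 / 2 ^ (m + j)) := by ring
  rw [e1, e2, e3] at h6
  rw [e4]
  have h8 : 7 * κ * (1 / 2 ^ (m + j)) ≤ β * (1 / 2 ^ (m + j)) :=
    mul_le_mul_of_nonneg_right (by linarith [hN.κβ]) hr.le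
  nlinarith

/-- points of the own edges -/
theorem NeckPt.ed_low (hT : TSet θ M κ t₀ δ₀ ε₁ Ω f F T) (hN : Num θ M κ β)
    (H : NeckPt C β b o z s) {z' : Fin 3 → ℤ} {e : Idx × Fin 3} (hz' : z' ∈ C.J)
    (he : e.1.1 = m + j) (hez : edge v e ⊆ dyc v m z') {x : V} (hx : x ∈ edge v e)
    (hxo : ‖x - o‖ < t₀) : θ / 2 * ‖x - o‖ ≤ ‖f x - b‖ + 4 * β / 2 ^ (m + j) := by
  obtain ⟨t, ht0, ht1, rfl⟩ := exists_of_mem_edge hx
  have hk := kap_nonneg C H.mem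
  have hl := C.lat_le
  have ht := hT.t_pos C
  have ha : pt v e.1.1 e.1.2 ∈ edge v e := left_mem_segment ℝ _ _
  have h1 : pt v (m + j) e.1.2 ∈ T := by
    rw [← he]
    rw [he]
    refine (C.vert z' hz' _ ?_).1
    rw [← he]
    exact hez ha
  rw [he] at ht1 hxo ha ⊢
  set a := pt v (m + j) e.1.2
  have hxa : a + t • ev e.2 - a = t • ev e.2 := add_sub_cancel_left _ _
  have hn : ‖t • ev e.2‖ = t := by rw [norm_smul, S293.ev_norm, mul_one, Real.norm_eq_abs,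
    abs_of_nonneg ht0]
  have h2 := hT.ray a h1 e.2 t (by rw [abs_of_nonneg ht0]; linarith)
  rw [abs_of_nonneg ht0] at h2
  have h3 : ‖f (a + t • ev e.2) - f a - cl (F a) (a + t • ev e.2 - a)‖ ≤ κ * t := by
    rw [hxa, map_smul]; exact h2
  have h5 : ‖a - o‖ ≤ 3 * t₀ := by
    have h6 := norm_sub_le (a + t • ev e.2 - o) (a + t • ev e.2 - a)
    rw [sub_sub_sub_cancel_left, hxa, hn] at h6
    linarith
  have h6 := H.low hT (by linarith [hN.κθ, hk]) h1 h5 h3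
  rw [hxa, hn] at h6
  have h7 : κ * t ≤ κ * (1 / 2 ^ (m + j)) := mul_le_mul_of_nonneg_left ht1 hk
  have hr : (0:ℝ) < 1 / 2 ^ (m + j) := by positivity
  have e3 : (2 * β + 3 * κ) / 2 ^ (m + j) = (2 * β + 3 * κ) * (1 / 2 ^ (m + j)) := by ring
  have e4 : 4 * β / 2 ^ (m + j) = 4 * β * (1 / 2 ^ (m + j)) := by ring
  rw [e3] at h6
  rw [e4]
  have h8 : 7 * κ * (1 / 2 ^ (m + j)) ≤ β * (1 / 2 ^ (m + j)) :=
    mul_le_mul_of_nonneg_right (by linarith [hN.κβ]) hr.le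
  have h9 : 0 < β * (1 / 2 ^ (m + j)) := mul_pos hN.β0 hr
  nlinarith

/-- points of the rays pointing away -/
theorem NeckPt.ray_low (hT : TSet θ M κ t₀ δ₀ ε₁ Ω f F T) (hN : Num θ M κ β)
    (H : NeckPt C β b o z s) {z' : Fin 3 → ℤ} (hz' : z' ∈ C.J) {a : Fin 3 → ℤ}
    (ha : pt v (m + j) a ∈ dyc v m z') {k : Fin 3} {t : ℝ} (ht : |t| ≤ 2 * t₀)
    (haw : 0 ≤ t * (pt v (m + j) a k - o k))
    (hmax : |pt v (m + j) a k - o k| = ‖pt v (m + j) a - o‖)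
    (hxo : ‖pt v (m + j) a + t • ev k - o‖ < t₀) :
    ‖pt v (m + j) a - o‖ ≤ ‖pt v (m + j) a + t • ev k - o‖ ∧
    θ / 4 * ‖pt v (m + j) a + t • ev k - o‖ ≤
      ‖f (pt v (m + j) a + t • ev k) - b‖ + 3 * β / 2 ^ (m + j) := by
  have h1 := (C.vert z' hz' _ ha).1
  set a' := pt v (m + j) a
  have hk := kap_nonneg C H.mem
  have hxa : a' + t • ev k - a' = t • ev k := add_sub_cancel_left _ _
  have hn : ‖t • ev k‖ = |t| := by rw [norm_smul, S293.ev_norm, mul_one, Real.norm_eq_abs]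
  have h2 := hT.ray a' h1 k t ht
  have h3 : ‖f (a' + t • ev k) - f a' - cl (F a') (a' + t • ev k - a')‖ ≤ κ * |t| := by
    rw [hxa, map_smul]; exact h2
  have h4 : |a' k - o k| + |t| ≤ ‖a' + t • ev k - o‖ := by
    have h5 := norm_le_pi_norm (a' + t • ev k - o) k
    have h6 : (a' + t • ev k - o) k = (a' k - o k) + t := by
      simp only [Pi.sub_apply, Pi.add_apply, Pi.smul_apply, smul_eq_mul, ev_apply, if_true]
      ring
    rw [h6, Real.norm_eq_abs] at h5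
    refine le_trans (le_of_eq ?_) h5
    rcases le_total 0 (a' k - o k) with h7 | h7
    · rcases h7.eq_or_lt with h8 | h8
      · rw [← h8]; simp
      · have h9 : 0 ≤ t := by
          by_contra hcon
          have := mul_neg_of_neg_of_pos (not_le.1 hcon) h8
          linarith
        rw [abs_of_nonneg h7, abs_of_nonneg h9, abs_of_nonneg (by linarith)]
    · rcases h7.eq_or_lt with h8 | h8
      · rw [h8]; simp
      · have h9 : t ≤ 0 := by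
          by_contra hcon
          have := mul_neg_of_pos_of_neg (not_le.1 hcon) h8
          linarith
        rw [abs_of_nonpos h7, abs_of_nonpos h9, abs_of_nonpos (by linarith)]
        ring
  rw [hmax] at h4
  have h0 := abs_nonneg t
  have ht0 := hT.t_pos C
  have h5 : ‖a' - o‖ ≤ 3 * t₀ := by linarith
  refine ⟨by linarith, ?_⟩
  have h6 := H.low hT (by linarith [hN.κθ, hk]) h1 h5 h3
  rw [hxa, hn] at h6
  have h7 : |t| ≤ ‖a' + t • ev k - o‖ := by linarith [norm_nonneg (a' - o)]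
  have h8 : κ * |t| ≤ κ * ‖a' + t • ev k - o‖ := mul_le_mul_of_nonneg_left h7 hk
  have h9 : 16 * κ * ‖a' + t • ev k - o‖ ≤ θ * ‖a' + t • ev k - o‖ :=
    mul_le_mul_of_nonneg_right hN.κθ (norm_nonneg _)
  have hr : (0:ℝ) < 1 / 2 ^ (m + j) := by positivity
  have e3 : (2 * β + 3 * κ) / 2 ^ (m + j) = (2 * β + 3 * κ) * (1 / 2 ^ (m + j)) := by ring
  have e4 : 3 * β / 2 ^ (m + j) = 3 * β * (1 / 2 ^ (m + j)) := by ring
  rw [e3] at h6
  rw [e4]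
  have h10 : 3 * κ * (1 / 2 ^ (m + j)) ≤ β * (1 / 2 ^ (m + j)) :=
    mul_le_mul_of_nonneg_right (by linarith [hN.κβ]) hr.le
  nlinarith

/-- **the points of `NSet` off the circles** -/
theorem NeckPt.nset (hT : TSet θ M κ t₀ δ₀ ε₁ Ω f F T) (hN : Num θ M κ β)
    (Nk : Necks θ M β σ f v m j C.J C.A) (H : NeckPt C β b o z s) (hδ : β / 2 ^ (m + j) ≤ δ₀ / 2)
    {x : V} (hxΩ : x ∈ Ω)
    (hx : x ∈ NExt v m j C.J t₀ Nk.D Nk.c Ω o ∪
      NSq v m j C.J Nk.D o (16 * β / θ / 2 ^ (m + j)) ∪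
      NEd v m j C.J o (16 * β / θ / 2 ^ (m + j)) ∪
      NRay v m j C.J t₀ o (16 * β / θ / 2 ^ (m + j))) : β / 2 ^ (m + j) ≤ ‖f x - b‖ := by
  have hfar : t₀ ≤ ‖x - o‖ → β / 2 ^ (m + j) ≤ ‖f x - b‖ := fun h =>
    hδ.trans (H.far hT hN.β1 hN.κ1 hN.M0 hxΩ h)
  have hr : (0:ℝ) < 1 / 2 ^ (m + j) := by positivity
  have hθ := hN.θ0
  have hβ := hN.β0
  have hR : θ * (16 * β / θ / 2 ^ (m + j)) = 16 * β * (1 / 2 ^ (m + j)) := by
    field_simp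
  have e1 : β / 2 ^ (m + j) = β * (1 / 2 ^ (m + j)) := by ring
  have e4 : 4 * β / 2 ^ (m + j) = 4 * β * (1 / 2 ^ (m + j)) := by ring
  have e3 : 3 * β / 2 ^ (m + j) = 3 * β * (1 / 2 ^ (m + j)) := by ring
  have hpos : 0 < β * (1 / 2 ^ (m + j)) := mul_pos hβ hr
  rcases hx with ((hx | hx) | hx) | hx
  · exact hfar (le_of_notMem_dbox hx.2.2.2)
  · obtain ⟨⟨z', hz', s', hs', hxs⟩, hD, hxR⟩ := hx
    by_cases hxo : t₀ ≤ ‖x - o‖
    · exact hfar hxo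
    have h1 := H.sq_low hT hN hz' hs' hxs (Nk.close z' hz' s' hs' x hxs fun i hi => hD i hi.1)
      (not_le.1 hxo)
    have h2 : θ * (16 * β / θ / 2 ^ (m + j)) ≤ θ * ‖x - o‖ := mul_le_mul_of_nonneg_left hxR.le hθ.le
    rw [hR] at h2
    rw [e4] at h1
    rw [e1]
    nlinarith
  · obtain ⟨⟨z', hz', e, he, hez, hxe⟩, hxR⟩ := hx
    by_cases hxo : t₀ ≤ ‖x - o‖
    · exact hfar hxo
    have h1 := H.ed_low hT hN hz' he hez hxe (not_le.1 hxo)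
    have h2 : θ * (16 * β / θ / 2 ^ (m + j)) ≤ θ * ‖x - o‖ := mul_le_mul_of_nonneg_left hxR.le hθ.le
    rw [hR] at h2
    rw [e4] at h1
    rw [e1]
    nlinarith
  · obtain ⟨z', hz', a, ha, k, t, ht, rfl, haw, hmax, haR⟩ := hx
    by_cases hxo : t₀ ≤ ‖pt v (m + j) a + t • ev k - o‖
    · exact hfar hxo
    obtain ⟨h0, h1⟩ := H.ray_low hT hN hz' ha ht haw hmax (not_le.1 hxo)
    have h2 : θ * (16 * β / θ / 2 ^ (m + j)) ≤ θ * ‖pt v (m + j) a + t • ev k - o‖ :=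
      mul_le_mul_of_nonneg_left (haR.le.trans h0) hθ.le
    rw [hR] at h2
    rw [e3] at h1
    rw [e1]
    nlinarith

/-- a circle which is mapped into the neck cube is near `o` -/
theorem NeckPt.circle (hT : TSet θ M κ t₀ δ₀ ε₁ Ω f F T) (hN : Num θ M κ β)
    (Nk : Necks θ M β σ f v m j C.J C.A) (H : NeckPt C β b o z s) (hδ : β / 2 ^ (m + j) ≤ δ₀ / 2)
    (hJ : ∀ z ∈ C.J, dyc v m z ⊆ Ω)
    {i : Nk.ι} {y : V} (hy : y ∈ Nk.c i) (hyR : 16 * β / θ / 2 ^ (m + j) < ‖y - o‖) :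
    β / 2 ^ (m + j) ≤ ‖f y - b‖ := by
  obtain ⟨z', hz', hs'⟩ := Nk.clean i
  have hyD : y ∈ Nk.D i := (Nk.ball i).1 hy
  have hys : y ∈ squ v (Nk.s i) := P86.rel_sub (Nk.sub i hyD)
  have hno : ∀ i', y ∉ Nk.D i' \ Nk.c i' := by
    intro i' hi'
    rcases eq_or_ne i' i with rfl | hne
    · exact hi'.2 hy
    · exact disjoint_left.1 (Nk.disj i' i hne) hi'.1 hyD
  have hc := Nk.close z' hz' _ hs' y hys hno
  by_cases hxo : t₀ ≤ ‖y - o‖
  · exact hδ.trans (H.far hT hN.β1 hN.κ1 hN.M0 (hJ z' hz' (hs'.sub hys)) hxo)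
  have h1 := H.sq_low hT hN hz' hs' hys hc (not_le.1 hxo)
  have hr : (0:ℝ) < 1 / 2 ^ (m + j) := by positivity
  have hθ := hN.θ0
  have hβ := hN.β0
  have hR : θ * (16 * β / θ / 2 ^ (m + j)) = 16 * β * (1 / 2 ^ (m + j)) := by
    field_simp
  have h2 : θ * (16 * β / θ / 2 ^ (m + j)) ≤ θ * ‖y - o‖ := mul_le_mul_of_nonneg_left hyR.le hθ.le
  have e1 : β / 2 ^ (m + j) = β * (1 / 2 ^ (m + j)) := by ring
  have e4 : 4 * β / 2 ^ (m + j) = 4 * β * (1 / 2 ^ (m + j)) := by ring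
  have hpos : 0 < β * (1 / 2 ^ (m + j)) := mul_pos hβ hr
  rw [hR] at h2
  rw [e4] at h1
  rw [e1]
  nlinarith

end Vale.Agent.P073.H234
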