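import Vale.Agent.P073.H234.P2Defs

/-!
# P073, P2: lattice facts
-/

namespace Vale.Agent.P073.H234

open MeasureTheory Set Filter Topology Metric Vale.Agent.P073.St Vale.Agent.P073.AB
open Vale.Agent.P073.SQ (ev)
open Vale.Agent.P073.AB.P86 (rel)
open _root_.P073.Net (dyc dyo)
open _root_.P073 (ConBall)

variable {v : V} {m j : ℕ} {J : Finset (Fin 3 → ℤ)}

theorem int_lt_contra {a b : ℤ} {N : ℕ} (h1 : (b : ℝ) / 2 ^ N < a / 2 ^ N)
    (h2 : (a : ℝ) / 2 ^ N < (b + 1) / 2 ^ N) : False := by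
  have hp : (0:ℝ) < 2 ^ N := by positivity
  rw [div_lt_div_iff_of_pos_right hp] at h1 h2
  have h3 : b < a := by exact_mod_cast h1
  have h4 : a < b + 1 := by exact_mod_cast h2
  omega

/-- a point of a lattice plane is in no open cube -/
theorem notMem_dyo_of_plane {N : ℕ} {x : V} {l : Fin 3} {n : ℤ} (h : x l = v l + n / 2 ^ N)
    (w : Fin 3 → ℤ) : x ∉ dyo v N w := by
  intro hx
  obtain ⟨h1, h2⟩ := hx l
  rw [h] at h1 h2
  exact int_lt_contra (a := n) (b := w l) (N := N) (by linarith) (by linarith)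

/-- a point with two lattice coordinates is in no open lattice square -/
theorem notMem_rel_of_line {s : Idx × Fin 3} {x : V} {l l' : Fin 3} {n n' : ℤ} (hl : l ≠ l')
    (h : x l = v l + n / 2 ^ s.1.1) (h' : x l' = v l' + n' / 2 ^ s.1.1) : x ∉ rel v s := by
  intro hx
  rcases eq_or_ne l s.2 with rfl | hne
  · obtain ⟨h1, h2⟩ := hx.2 l' hl.symm
    rw [h'] at h1 h2
    exact int_lt_contra (a := n') (b := s.1.2 l') (N := s.1.1) (by linarith) (by linarith)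
  · obtain ⟨h1, h2⟩ := hx.2 l hne
    rw [h] at h1 h2
    exact int_lt_contra (a := n) (b := s.1.2 l) (N := s.1.1) (by linarith) (by linarith)

theorem rel_plane {s : Idx × Fin 3} {x : V} (hx : x ∈ rel v s) :
    x s.2 = v s.2 + s.1.2 s.2 / 2 ^ s.1.1 := hx.1

theorem squ_plane {s : Idx × Fin 3} {x : V} (hx : x ∈ squ v s) :
    x s.2 = v s.2 + s.1.2 s.2 / 2 ^ s.1.1 := hx.1

theorem ev_apply (i k : Fin 3) : ev i k = if k = i then 1 else 0 := by
  unfold SQ.ev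
  by_cases h : k = i
  · subst h; simp
  · simp [h, Pi.single_apply]

/-- coordinates of the points of a line -/
theorem line_apply (v : V) (N : ℕ) (a : Fin 3 → ℤ) (t : ℝ) (k l : Fin 3) :
    (pt v N a + t • ev k) l = v l + a l / 2 ^ N + if l = k then t else 0 := by
  simp only [Pi.add_apply, Pi.smul_apply, smul_eq_mul, ev_apply, pt]
  split_ifs <;> ring

theorem line_other {v : V} {N : ℕ} {a : Fin 3 → ℤ} {t : ℝ} {k l : Fin 3} (h : l ≠ k) :
    (pt v N a + t • ev k) l = v l + a l / 2 ^ N := by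
  rw [line_apply, if_neg h, add_zero]

/-- points of an edge -/
theorem exists_of_mem_edge {e : Idx × Fin 3} {x : V} (hx : x ∈ edge v e) :
    ∃ t : ℝ, 0 ≤ t ∧ t ≤ 1 / 2 ^ e.1.1 ∧ x = pt v e.1.1 e.1.2 + t • ev e.2 := by
  unfold edge at hx
  rw [segment_eq_image'] at hx
  obtain ⟨t, ⟨h0, h1⟩, rfl⟩ := hx
  have hp : (0:ℝ) < 1 / 2 ^ e.1.1 := by positivity
  refine ⟨t * (1 / 2 ^ e.1.1), by positivity, ?_, ?_⟩
  · nlinarith
  · simp only [add_sub_cancel_left, smul_smul]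

theorem two_other (k : Fin 3) : ∃ l l' : Fin 3, l ≠ l' ∧ l ≠ k ∧ l' ≠ k := by
  fin_cases k
  · exact ⟨1, 2, by decide, by decide, by decide⟩
  · exact ⟨0, 2, by decide, by decide, by decide⟩
  · exact ⟨0, 1, by decide, by decide, by decide⟩

theorem line_notMem_dyo (v : V) (N : ℕ) (a : Fin 3 → ℤ) (t : ℝ) (k : Fin 3) (w : Fin 3 → ℤ) :
    pt v N a + t • ev k ∉ dyo v N w := by
  obtain ⟨l, -, -, hl, -⟩ := two_other k
  exact notMem_dyo_of_plane (line_other hl) w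

theorem line_notMem_rel (v : V) {N : ℕ} (a : Fin 3 → ℤ) (t : ℝ) (k : Fin 3) {s : Idx × Fin 3}
    (hs : s.1.1 = N) : pt v N a + t • ev k ∉ rel v s := by
  obtain ⟨l, l', h1, h2, h3⟩ := two_other k
  subst hs
  exact notMem_rel_of_line h1 (line_other h2) (line_other h3)

theorem edge_notMem_dyo {e : Idx × Fin 3} {N : ℕ} (he : e.1.1 = N) {x : V} (hx : x ∈ edge v e)
    (w : Fin 3 → ℤ) : x ∉ dyo v N w := by
  obtain ⟨t, -, -, rfl⟩ := exists_of_mem_edge hx
  subst he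
  exact line_notMem_dyo v _ _ _ _ _

theorem edge_notMem_rel {e : Idx × Fin 3} {s : Idx × Fin 3} (he : e.1.1 = s.1.1) {x : V}
    (hx : x ∈ edge v e) : x ∉ rel v s := by
  obtain ⟨t, -, -, rfl⟩ := exists_of_mem_edge hx
  rw [he]
  exact line_notMem_rel v _ _ _ rfl

theorem notMem_ownO {x : V} (h : ∀ w, x ∉ dyo v (m + j) w) : x ∉ ownO v m j J := by
  unfold ownO
  simp only [mem_iUnion, not_exists]
  exact fun w _ => h w

theorem squ_notMem_dyo {s : Idx × Fin 3} {N : ℕ} (hs : s.1.1 = N) {x : V} (hx : x ∈ squ v s)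
    (w : Fin 3 → ℤ) : x ∉ dyo v N w := by
  subst hs
  exact notMem_dyo_of_plane (squ_plane hx) w

/-- a square is in the upper adjacent cube -/
theorem squ_sub_up {s : Idx × Fin 3} : squ v s ⊆ dyc v s.1.1 s.1.2 := by
  intro x hx k
  by_cases hk : k = s.2
  · subst hk
    rw [squ_plane hx]
    refine ⟨le_rfl, ?_⟩
    gcongr
    linarith
  · exact hx.2 k hk

theorem squ_sub_dn {s : Idx × Fin 3} : squ v s ⊆ dyc v s.1.1 (dn s) := by
  intro x hx k
  unfold dn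
  by_cases hk : k = s.2
  · subst hk
    simp only [if_true]
    rw [squ_plane hx]
    push_cast
    refine ⟨?_, ?_⟩
    · gcongr
      linarith
    · rw [sub_add_cancel]
  · simp only [if_neg hk]
    exact hx.2 k hk

theorem Clean.sub {z : Fin 3 → ℤ} {s : Idx × Fin 3} (h : Clean v m j z s) :
    squ v s ⊆ dyc v m z := by
  have h1 := squ_sub_up (v := v) (s := s)
  rw [h.1] at h1
  exact h1.trans h.2.1

theorem pt_mem_squ (s : Idx × Fin 3) : pt v s.1.1 s.1.2 ∈ squ v s := by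
  refine ⟨rfl, fun k _ => ⟨le_rfl, ?_⟩⟩
  simp only [pt]
  gcongr
  linarith

/-- two points of a square -/
theorem squ_dist {s : Idx × Fin 3} {x y : V} (hx : x ∈ squ v s) (hy : y ∈ squ v s) :
    ‖x - y‖ ≤ 1 / 2 ^ s.1.1 := by
  rw [pi_norm_le_iff_of_nonneg (by positivity)]
  intro k
  rw [Pi.sub_apply, Real.norm_eq_abs, abs_le]
  obtain ⟨h1, h2⟩ := squ_sub_up hx k
  obtain ⟨h3, h4⟩ := squ_sub_up hy k
  have e : ((s.1.2 k : ℝ) + 1) / 2 ^ s.1.1 = s.1.2 k / 2 ^ s.1.1 + 1 / 2 ^ s.1.1 := by ring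
  rw [e] at h2 h4
  by_cases hk : k = s.2
  · subst hk
    rw [squ_plane hx, squ_plane hy]
    simp
  · constructor <;> linarith

theorem dyc_dist {n : ℕ} {z : Fin 3 → ℤ} {x y : V} (hx : x ∈ dyc v n z) (hy : y ∈ dyc v n z) :
    ‖x - y‖ ≤ 1 / 2 ^ n := by
  rw [pi_norm_le_iff_of_nonneg (by positivity)]
  intro k
  rw [Pi.sub_apply, Real.norm_eq_abs, abs_le]
  obtain ⟨h1, h2⟩ := hx k
  obtain ⟨h3, h4⟩ := hy k
  have e : ((z k : ℝ) + 1) / 2 ^ n = z k / 2 ^ n + 1 / 2 ^ n := by ring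
  rw [e] at h2 h4
  constructor <;> linarith

/-- points outside of the box are far away -/
theorem le_of_notMem_dbox {t₀ : ℝ} {o x : V} (hx : x ∉ dbox v m t₀ o) : t₀ ≤ ‖x - o‖ := by
  unfold dbox at hx
  simp only [mem_setOf_eq, not_forall] at hx
  obtain ⟨k, hk⟩ := hx
  have hp : (0:ℝ) < 2 ^ m := by positivity
  have h1 := Int.floor_le (2 ^ m * (o k - v k))
  have h2 := Int.lt_floor_add_one (2 ^ m * (o k - v k))
  have h3 := Int.le_ceil (2 ^ m * t₀)
  have h4 : |x k - o k| ≤ ‖x - o‖ := by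
    have := norm_le_pi_norm (x - o) k
    rwa [Pi.sub_apply, Real.norm_eq_abs] at this
  refine le_trans ?_ h4
  by_contra hcon
  push Not at hcon
  rw [abs_lt] at hcon
  apply hk
  constructor
  · have : ((⌊2 ^ m * (o k - v k)⌋ : ℝ) - ⌈2 ^ m * t₀⌉) / 2 ^ m ≤ o k - v k - t₀ := by
      rw [div_le_iff₀ hp]
      nlinarith
    linarith [hcon.1]
  · have : o k - v k + t₀ ≤ ((⌊2 ^ m * (o k - v k)⌋ : ℝ) + 1 + ⌈2 ^ m * t₀⌉) / 2 ^ m := by
      rw [le_div_iff₀ hp]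
      nlinarith
    linarith [hcon.2]

theorem dbox_sub {t₀ : ℝ} {o : V} (hm : 4 / 2 ^ m ≤ t₀) : dbox v m t₀ o ⊆ closedBall o (3 / 2 * t₀) := by
  intro x hx
  have ht : 0 < t₀ := lt_of_lt_of_le (by positivity) hm
  rw [mem_closedBall, dist_eq_norm, pi_norm_le_iff_of_nonneg (by positivity)]
  intro k
  rw [Pi.sub_apply, Real.norm_eq_abs, abs_le]
  have hp : (0:ℝ) < 2 ^ m := by positivity
  obtain ⟨h5, h6⟩ := hx k
  have h1 := Int.floor_le (2 ^ m * (o k - v k))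
  have h2 := Int.lt_floor_add_one (2 ^ m * (o k - v k))
  have h3 := Int.ceil_lt_add_one (2 ^ m * t₀)
  have hm' : 4 ≤ t₀ * 2 ^ m := by rwa [div_le_iff₀ hp] at hm
  constructor
  · have : o k - v k - 3 / 2 * t₀ ≤ ((⌊2 ^ m * (o k - v k)⌋ : ℝ) - ⌈2 ^ m * t₀⌉) / 2 ^ m := by
      rw [le_div_iff₀ hp]
      nlinarith
    linarith
  · have : ((⌊2 ^ m * (o k - v k)⌋ : ℝ) + 1 + ⌈2 ^ m * t₀⌉) / 2 ^ m ≤ o k - v k + 3 / 2 * t₀ := by
      rw [div_le_iff₀ hp]
      nlinarith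
    linarith

end Vale.Agent.P073.H234
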