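import Vale.Agent.P073.H234.ChainM
import Vale.Agent.P073.H950.MFin

/-!
# P073, block B09: `M1P p` (`3 ≤ p`) from Round 1 (`St1C p`) and Round 2 (`SpecR2 p`)
-/

open Set Metric Topology Filter MeasureTheory Matrix WithLp
open scoped ENNReal NNReal

namespace Vale.Agent.P073.H234.Ch

open Vale.Agent.P073

/-- the data of the chain -/
theorem chM {p : ℝ} (hp : 3 ≤ p) (hSt : St1C p) : H950F.ChM p := by
  obtain ⟨C₂, Cu, Lc, -, hCu, hLc, H⟩ := exists_chM hp hSt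
  refine ⟨Cu, Lc, C₂, hCu, hLc, fun δ j hδ hj Ω Λ f F hΩ hΛ hf hF hfd ε hε hε1 => ?_⟩
  obtain ⟨v, nn, X, M₀, c, τ, φ, κ, μ, s, c₀, a, k₁, E₀, Eb, r, εD, tolD, I, N', hX⟩ :=
    H δ j hδ hj Ω Λ f F hΩ hΛ hf hF hfd ε hε hε1 ε hε
  exact ⟨v, X, M₀, 1, 1, c, τ, φ, κ, μ, s, nn, c₀, a, k₁, E₀, Eb, r, εD, tolD, I, N', hX⟩

/-- **(M1P)** for `3 ≤ p`: the open inputs are Round 1 and Round 2 (both follow from (K3C)) -/
theorem m1P_of {p : ℝ} (hp : 3 ≤ p) (hSt : St1C p) (hR : H696.SpecR2 p) : H235.M1P p :=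
  H950F.m1P_of_chM (by linarith) (chM hp hSt) hR

end Vale.Agent.P073.H234.Ch
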