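import Vale.Agent.P073.H234.Img2
import Vale.Agent.P073.H726.RetractAll

/-!
# P073, P2: the data for all the retractions
-/

namespace Vale.Agent.P073.H234

open MeasureTheory Set Filter Topology Metric Vale.Agent.P073.St Vale.Agent.P073.AB
open Vale.Agent.P073.SQ (ev)
open Vale.Agent.P073.AB.P86 (rel)
open _root_.P073.Net (dyc dyo)
open _root_.P073 (ConBall ConHomeo)
open scoped ENNReal

/-- the two open cubes at a square -/
def qC (v : V) (s : Idx × Fin 3) : Set V := dyo v s.1.1 s.1.2 ∪ dyo v s.1.1 (dn s)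

/-- the open prism around the open square -/
def oC (v : V) (s : Idx × Fin 3) : Set V :=
  {x | (v s.2 + (s.1.2 s.2 - 1) / 2 ^ s.1.1 < x s.2 ∧ x s.2 < v s.2 + (s.1.2 s.2 + 1) / 2 ^ s.1.1) ∧
    ∀ k, k ≠ s.2 → v k + s.1.2 k / 2 ^ s.1.1 < x k ∧ x k < v k + (s.1.2 k + 1) / 2 ^ s.1.1}

theorem isOpen_oC (v : V) (s : Idx × Fin 3) : IsOpen (oC v s) := by
  have e : oC v s = ({x | v s.2 + (s.1.2 s.2 - 1) / 2 ^ s.1.1 < x s.2} ∩
      {x | x s.2 < v s.2 + (s.1.2 s.2 + 1) / 2 ^ s.1.1}) ∩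
      ⋂ k : {k // k ≠ s.2}, ({x : V | v k + s.1.2 k / 2 ^ s.1.1 < x k} ∩
        {x | x k < v k + (s.1.2 k + 1) / 2 ^ s.1.1}) := by
    ext x
    simp only [oC, mem_setOf_eq, mem_inter_iff, mem_iInter, Subtype.forall]
  rw [e]
  refine ((isOpen_lt (by fun_prop) (by fun_prop)).inter (isOpen_lt (by fun_prop) (by fun_prop))).inter
    (isOpen_iInter_of_finite fun k => (isOpen_lt (by fun_prop) (by fun_prop)).inter
      (isOpen_lt (by fun_prop) (by fun_prop)))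

theorem rel_sub_oC {v : V} {s : Idx × Fin 3} : rel v s ⊆ oC v s := by
  intro x hx
  have hp : (0:ℝ) < 2 ^ s.1.1 := by positivity
  refine ⟨⟨?_, ?_⟩, hx.2⟩
  · rw [hx.1]
    gcongr
    linarith
  · rw [hx.1]
    gcongr
    linarith

theorem oC_up {v : V} {s : Idx × Fin 3} {x : V} (hx : x ∈ oC v s)
    (h : v s.2 + s.1.2 s.2 / 2 ^ s.1.1 < x s.2) : x ∈ dyo v s.1.1 s.1.2 := by
  intro k
  by_cases hk : k = s.2
  · subst hk
    exact ⟨h, hx.1.2⟩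
  · exact hx.2 k hk

theorem oC_dn {v : V} {s : Idx × Fin 3} {x : V} (hx : x ∈ oC v s)
    (h : x s.2 < v s.2 + s.1.2 s.2 / 2 ^ s.1.1) : x ∈ dyo v s.1.1 (dn s) := by
  intro k
  unfold dn
  by_cases hk : k = s.2
  · subst hk
    simp only [if_true]
    push_cast
    refine ⟨hx.1.1, ?_⟩
    rw [sub_add_cancel]
    exact h
  · simp only [if_neg hk]
    exact hx.2 k hk

theorem oC_sub {v : V} {s : Idx × Fin 3} :
    oC v s ⊆ dyc v s.1.1 s.1.2 ∪ dyc v s.1.1 (dn s) := by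
  intro x hx
  rcases lt_trichotomy (x s.2) (v s.2 + s.1.2 s.2 / 2 ^ s.1.1) with h | h | h
  · exact Or.inr (P86.dyo_sub_dyc (oC_dn hx h))
  · left
    have h1 : x ∈ squ v s := ⟨h, fun k hk => ⟨(hx.2 k hk).1.le, (hx.2 k hk).2.le⟩⟩
    exact squ_sub_up h1
  · exact Or.inl (P86.dyo_sub_dyc (oC_up hx h))

theorem isOpen_qC (v : V) (s : Idx × Fin 3) : IsOpen (qC v s) :=
  (H333.isOpen_dyo _ _ _).union (H333.isOpen_dyo _ _ _)

theorem qC_notMem {v : V} {s : Idx × Fin 3} {x : V} (h : ∀ w, x ∉ dyo v s.1.1 w) : x ∉ qC v s := by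
  rintro (h1 | h1)
  · exact h _ h1
  · exact h _ h1

theorem Clean.up_sub {v : V} {m j : ℕ} {z : Fin 3 → ℤ} {s : Idx × Fin 3} (h : Clean v m j z s) :
    dyc v s.1.1 s.1.2 ⊆ dyc v m z := by rw [h.1]; exact h.2.1

theorem Clean.dn_sub {v : V} {m j : ℕ} {z : Fin 3 → ℤ} {s : Idx × Fin 3} (h : Clean v m j z s) :
    dyc v s.1.1 (dn s) ⊆ dyc v m z := by rw [h.1]; exact h.2.2

theorem Clean.qC_sub_own {v : V} {m j : ℕ} {J : Finset (Fin 3 → ℤ)} {z : Fin 3 → ℤ}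
    {s : Idx × Fin 3} (h : Clean v m j z s) (hz : z ∈ J) : qC v s ⊆ ownO v m j J := by
  unfold ownO
  rintro x (hx | hx)
  · refine mem_iUnion₂.2 ⟨s.1.2, ⟨z, hz, h.2.1⟩, ?_⟩
    rwa [h.1] at hx
  · refine mem_iUnion₂.2 ⟨dn s, ⟨z, hz, h.2.2⟩, ?_⟩
    rwa [h.1] at hx

theorem Clean.qC_sub {v : V} {m j : ℕ} {z : Fin 3 → ℤ} {s : Idx × Fin 3}
    (h : Clean v m j z s) : qC v s ⊆ dyc v m z := by
  rintro x (hx | hx)
  · exact h.up_sub (P86.dyo_sub_dyc hx)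
  · exact h.dn_sub (P86.dyo_sub_dyc hx)

theorem ownO_sub {v : V} {m j : ℕ} {J : Finset (Fin 3 → ℤ)} :
    ownO v m j J ⊆ ⋃ z ∈ J, dyc v m z := by
  unfold ownO
  intro x hx
  obtain ⟨w, ⟨z, hz, hw⟩, hxw⟩ := mem_iUnion₂.1 hx
  exact mem_iUnion₂.2 ⟨z, hz, hw (P86.dyo_sub_dyc hxw)⟩

variable {p : ℝ} {ε : ℝ≥0∞} {θ M κ c₀ t₀ δ₀ ε₁ : ℝ} {j : ℕ} {Ω Λ : Set V} {f : V → V}
  {F : V → Mat} {T : Set V} {v : V} {m : ℕ}
  {C : P2Cells p ε θ M κ c₀ t₀ δ₀ j Ω Λ f F T v m} {β σ : ℝ} {b o : V} {z : Fin 3 → ℤ}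
  {s : Idx × Fin 3}

/-- the big cubes are in the domain -/
theorem P2Cells.sub (hT : TSet θ M κ t₀ δ₀ ε₁ Ω f F T)
    (C : P2Cells p ε θ M κ c₀ t₀ δ₀ j Ω Λ f F T v m) {z : Fin 3 → ℤ} (hz : z ∈ C.J) :
    dyc v m z ⊆ Ω := by
  intro x hx
  have h1 : pt v (m + j) (fun k => z k * 2 ^ j) ∈ dyc v m z := by
    intro k
    simp only [pt]
    have e : (((z k * 2 ^ j : ℤ)) : ℝ) / 2 ^ (m + j) = z k / 2 ^ m := by
      push_cast
      rw [pow_add]
      field_simp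
    rw [e]
    refine ⟨le_rfl, ?_⟩
    gcongr
    linarith
  refine hT.sub _ (C.vert z hz _ h1).1 ?_
  rw [mem_closedBall, dist_eq_norm]
  have h2 := dyc_dist hx h1
  have h3 := C.small
  have e : (4:ℝ) / 2 ^ m = 4 * (1 / 2 ^ m) := by ring
  rw [e] at h3
  have h4 : (0:ℝ) < 1 / 2 ^ m := by positivity
  linarith

/-- `NSet` without the circles -/
theorem mem_nset {ι : Type} {D c : ι → Set V} {J : Finset (Fin 3 → ℤ)} {R : ℝ} {x : V}
    (hx : x ∈ NSet v m j J t₀ D c Ω o R) :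
    x ∈ NExt v m j J t₀ D c Ω o ∪ NSq v m j J D o R ∪ NEd v m j J o R ∪ NRay v m j J t₀ o R ∨
      x ∈ NCi c o R := by
  rcases hx with (((hx | hx) | hx) | hx) | hx
  · exact Or.inl (Or.inl (Or.inl (Or.inl hx)))
  · exact Or.inl (Or.inl (Or.inl (Or.inr hx)))
  · exact Or.inr hx
  · exact Or.inl (Or.inl (Or.inr hx))
  · exact Or.inl (Or.inr hx)

theorem nset_sub (hT : TSet θ M κ t₀ δ₀ ε₁ Ω f F T) (Nk : Necks θ M β σ f v m j C.J C.A) {R : ℝ} :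
    NSet v m j C.J t₀ Nk.D Nk.c Ω o R ⊆ Ω := by
  intro x hx
  rcases mem_nset hx with (((hx | hx) | hx) | hx) | hx
  · exact hx.1
  · obtain ⟨⟨z, hz, s, hs, hxs⟩, -⟩ := hx
    exact C.sub hT hz (hs.sub hxs)
  · obtain ⟨⟨z, hz, e, he, hez, hxe⟩, -⟩ := hx
    exact C.sub hT hz (hez hxe)
  · obtain ⟨z, hz, a, ha, k, t, ht, rfl, -⟩ := hx
    refine hT.sub _ (C.vert z hz _ ha).1 ?_
    rw [mem_closedBall, dist_eq_norm, add_sub_cancel_left, norm_smul, S293.ev_norm, mul_one,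
      Real.norm_eq_abs]
    linarith [hT.t_pos C]
  · obtain ⟨i, hi, -⟩ := hx
    obtain ⟨z, hz, hs⟩ := Nk.clean i
    exact C.sub hT hz (hs.sub (P86.rel_sub (Nk.sub i ((Nk.ball i).1 hi))))

theorem nset_dyo (Nk : Necks θ M β σ f v m j C.J C.A) {R : ℝ} {x : V}
    (hx : x ∈ NSet v m j C.J t₀ Nk.D Nk.c Ω o R) {w : Fin 3 → ℤ} {z : Fin 3 → ℤ} (hz : z ∈ C.J)
    (hw : dyc v (m + j) w ⊆ dyc v m z) : x ∉ dyo v (m + j) w := by
  rcases mem_nset hx with (((hx | hx) | hx) | hx) | hx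
  · intro h
    exact hx.2.1 (mem_iUnion₂.2 ⟨w, ⟨z, hz, hw⟩, h⟩)
  · obtain ⟨⟨z, hz, s, hs, hxs⟩, -⟩ := hx
    exact squ_notMem_dyo hs.1 hxs w
  · obtain ⟨⟨z, hz, e, he, hez, hxe⟩, -⟩ := hx
    exact edge_notMem_dyo he hxe w
  · obtain ⟨z, hz, a, ha, k, t, ht, rfl, -⟩ := hx
    exact line_notMem_dyo _ _ _ _ _ _
  · obtain ⟨i, hi, -⟩ := hx
    obtain ⟨z, hz, hs⟩ := Nk.clean i
    exact squ_notMem_dyo hs.1 (P86.rel_sub (Nk.sub i ((Nk.ball i).1 hi))) w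

theorem nset_disc (Nk : Necks θ M β σ f v m j C.J C.A) {R : ℝ} {x : V}
    (hx : x ∈ NSet v m j C.J t₀ Nk.D Nk.c Ω o R) (i : Nk.ι) : x ∉ Nk.D i \ Nk.c i := by
  obtain ⟨z', hz', hs'⟩ := Nk.clean i
  rcases mem_nset hx with (((hx | hx) | hx) | hx) | hx
  · exact hx.2.2.1 i
  · exact fun h => hx.2.1 i h.1
  · obtain ⟨⟨z, hz, e, he, hez, hxe⟩, -⟩ := hx
    intro h
    exact edge_notMem_rel (he.trans hs'.1.symm) hxe (Nk.sub i h.1)
  · obtain ⟨z, hz, a, ha, k, t, ht, rfl, -⟩ := hx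
    intro h
    exact line_notMem_rel v a t k hs'.1 (Nk.sub i h.1)
  · obtain ⟨i', hi', -⟩ := hx
    intro h
    rcases eq_or_ne i' i with rfl | hne
    · exact h.2 hi'
    · exact disjoint_left.1 (Nk.disj i' i hne) ((Nk.ball i').1 hi') h.1

theorem nset_far (hT : TSet θ M κ t₀ δ₀ ε₁ Ω f F T) (Nk : Necks θ M β σ f v m j C.J C.A)
    (H : NeckPt C β b o z s) {R : ℝ} :
    ∃ L ⊆ Ω, IsCompact L ∧ Ω \ L ⊆ NSet v m j C.J t₀ Nk.D Nk.c Ω o R := by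
  have ht := hT.t_pos C
  have h0 : closedBall o (3 / 2 * t₀) ⊆ Ω := by
    obtain ⟨h1, h2, -⟩ := H.vert
    refine Subset.trans ?_ (hT.sub _ h1)
    refine closedBall_subset_closedBall' ?_
    rw [dist_eq_norm]
    have := C.lat_le
    linarith
  refine ⟨(⋃ z ∈ C.J, dyc v m z) ∪ closedBall o (3 / 2 * t₀), ?_, ?_, ?_⟩
  · exact union_subset (iUnion₂_subset fun z hz => C.sub hT hz) h0
  · refine IsCompact.union ?_ (isCompact_closedBall _ _)
    exact C.J.finite_toSet.isCompact_biUnion fun z _ => P86.isCompact_dyc v m z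
  · rintro x ⟨hx, hxL⟩
    rw [mem_union, not_or] at hxL
    refine Or.inl (Or.inl (Or.inl (Or.inl ⟨hx, fun h => hxL.1 (ownO_sub h), fun i hi => ?_,
      fun h => hxL.2 (dbox_sub C.small h)⟩)))
    obtain ⟨z, hz, hs⟩ := Nk.clean i
    exact hxL.1 (mem_iUnion₂.2 ⟨z, hz, hs.sub (P86.rel_sub (Nk.sub i hi.1))⟩)

/-- the room around the circles -/
theorem Necks.exists_room (Nk : Necks θ M β σ f v m j C.J C.A) (hf : ContinuousOn f Ω)
    (hT : TSet θ M κ t₀ δ₀ ε₁ Ω f F T) :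
    ∃ η > 0, (∀ g, 4 * η ≤ Nk.ρ g) ∧ ∀ i, ∃ g, ∀ x ∈ Nk.c i, ‖f x - Nk.b g‖ + 4 * η ≤ Nk.ρ g := by
  have := Nk.fin
  have := Nk.ffin
  have h1 : ∀ i : Nk.ι, ∃ η > 0, ∃ g, ∀ x ∈ Nk.c i, ‖f x - Nk.b g‖ + 4 * η ≤ Nk.ρ g := by
    intro i
    obtain ⟨g, hg⟩ := Nk.circ i
    obtain ⟨z, hz, hs⟩ := Nk.clean i
    have hsub : Nk.c i ⊆ Ω := fun x hx =>
      C.sub hT hz (hs.sub (P86.rel_sub (Nk.sub i ((Nk.ball i).1 hx))))
    have hc : IsCompact (Nk.c i) := by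
      obtain ⟨φ, hφ⟩ := (Nk.ball i).eq_preimage
      rw [← hφ]
      exact (isCompact_sphere _ _).image_of_continuousOn (φ.cont_inv.mono sphere_subset_closedBall)
    rcases (Nk.c i).eq_empty_or_nonempty with he | hne
    · exact ⟨1, one_pos, g, by rw [he]; simp⟩
    obtain ⟨x₀, hx₀, hmax⟩ := hc.exists_isMaxOn hne
      ((((hf.mono hsub).sub continuousOn_const).norm) : ContinuousOn (fun x => ‖f x - Nk.b g‖) _)
    have h3 : ‖f x₀ - Nk.b g‖ < Nk.ρ g := by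
      have := hg x₀ hx₀
      rwa [Metric.mem_ball, dist_eq_norm] at this
    refine ⟨(Nk.ρ g - ‖f x₀ - Nk.b g‖) / 4, by linarith, g, fun x hx => ?_⟩
    have : ‖f x - Nk.b g‖ ≤ ‖f x₀ - Nk.b g‖ := hmax hx
    linarith
  choose η hη g hg using h1
  have hfin : (range η ∪ range Nk.ρ).Finite := (finite_range η).union (finite_range Nk.ρ)
  obtain ⟨a, ha, ha'⟩ := _root_.P073.Gauge.O407.exists_pos_le hfin id (by
    rintro x (⟨i, rfl⟩ | ⟨g, rfl⟩)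
    · exact hη i
    · exact Nk.pos g)
  refine ⟨a / 4, by positivity, fun g => ?_, fun i => ⟨g i, fun x hx => ?_⟩⟩
  · have : a ≤ Nk.ρ g := ha' _ (Or.inr ⟨g, rfl⟩)
    linarith
  · have h1 : a ≤ η i := ha' _ (Or.inl ⟨i, rfl⟩)
    have h2 := hg i x hx
    have h3 := hη i
    linarith

/-- **the data for the retractions** -/
theorem exists_data (hΩ : IsOpen Ω) (hΩc : IsPreconnected Ω) (hP : SpecPaths) (hj : 2 ≤ j)
    (hT : TSet θ M κ t₀ δ₀ ε₁ Ω f F T) (hN : Num θ M κ β)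
    (Nk : Necks θ M β σ f v m j C.J C.A) (hδ : β / 2 ^ (m + j) ≤ δ₀ / 2)
    (hc₀ : (2 * β + 1) / 2 ^ (m + j) < c₀) (hρ : ∀ g, Nk.ρ g ≤ β / 2 / 2 ^ (m + j))
    {o : Nk.γ → V} {zz : Nk.γ → Fin 3 → ℤ} {ss : Nk.γ → Idx × Fin 3}
    (Ho : ∀ g, NeckPt C β (Nk.b g) (o g) (zz g) (ss g)) {h₀ : ConHomeo Ω Λ} {η : ℝ}
    (hη : η < β / 2 / 2 ^ (m + j)) (hclose : ∀ x ∈ Ω, ‖h₀.toFun x - f x‖ ≤ η)
    (hcirc : ∀ i, ∃ g, ∀ x ∈ Nk.c i, ‖f x - Nk.b g‖ + η < Nk.ρ g) :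
    H726.RA.Data Ω Λ h₀.toFun (fun i => qC v (Nk.s i)) Nk.D Nk.c (fun i => oC v (Nk.s i))
      (fun i => ContinuousLinearMap.proj (R := ℝ) (φ := fun _ : Fin 3 => ℝ) (Nk.s i).2)
      (fun i => v (Nk.s i).2 + (Nk.s i).1.2 (Nk.s i).2 / 2 ^ (Nk.s i).1.1) Nk.b Nk.ρ
      (fun g => NSet v m j C.J t₀ Nk.D Nk.c Ω (o g) (16 * β / θ / 2 ^ (m + j))) where
  ball := Nk.ball
  one := fun i => ⟨ev (Nk.s i).2, by simp [ev_apply]⟩
  flat := fun i x hx => (Nk.sub i hx).1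
  Oo := fun i => isOpen_oC _ _
  EO := fun i => (Nk.sub i).trans rel_sub_oC
  OΩ := fun i => by
    obtain ⟨z, hz, hs⟩ := Nk.clean i
    exact oC_sub.trans (union_subset (hs.up_sub.trans (C.sub hT hz))
      (hs.dn_sub.trans (C.sub hT hz)))
  Oq := fun i x hx hxq => by
    by_contra hne
    rcases lt_or_gt_of_ne hne with h | h
    · exact hxq (Or.inr (oC_dn hx h))
    · exact hxq (Or.inl (oC_up hx h))
  EE := Nk.disj
  qE := fun i i' => by
    rw [disjoint_left]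
    intro x hx hx'
    obtain ⟨z, hz, hs⟩ := Nk.clean i
    obtain ⟨z', hz', hs'⟩ := Nk.clean i'
    refine qC_notMem (s := Nk.s i) (fun w => ?_) hx
    rw [hs.1]
    exact squ_notMem_dyo hs'.1 (P86.rel_sub (Nk.sub i' hx')) w
  BΛ := fun g => by
    intro y hy
    rw [mem_closedBall, dist_eq_norm] at hy
    have H := Ho g
    have h1 := H.near
    have h2 : c₀ ≤ infDist (C.A (zz g) (o g)) Λᶜ :=
      (C.dist (zz g) H.mem (o g) ⟨o g, H.clean.sub H.sq, by simp; positivity⟩).2.2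
    by_contra hcon
    have h3 : infDist (C.A (zz g) (o g)) Λᶜ ≤ ‖C.A (zz g) (o g) - y‖ := by
      rw [← dist_eq_norm]
      exact infDist_le_dist_of_mem hcon
    have h4 : ‖C.A (zz g) (o g) - y‖ ≤ ‖Nk.b g - C.A (zz g) (o g)‖ + ‖y - Nk.b g‖ := by
      have := norm_sub_le (C.A (zz g) (o g) - Nk.b g) (y - Nk.b g)
      rw [sub_sub_sub_cancel_right, norm_sub_rev _ (Nk.b g)] at this
      exact this
    have h5 := hρ g
    have hr : (0:ℝ) < 1 / 2 ^ (m + j) := by positivity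
    have e1 : 2 * β / 2 ^ (m + j) = 2 * β * (1 / 2 ^ (m + j)) := by ring
    have e2 : (2 * β + 1) / 2 ^ (m + j) = (2 * β + 1) * (1 / 2 ^ (m + j)) := by ring
    have e3 : β / 2 / 2 ^ (m + j) = β / 2 * (1 / 2 ^ (m + j)) := by ring
    rw [e1] at h1
    rw [e2] at hc₀
    rw [e3] at h5
    have h6 := hN.β1
    have h7 := hN.β0
    nlinarith
  disj := Nk.bdisj
  Nc := fun g => by
    have H := Ho g
    refine hP Ω v m j C.J t₀ Nk.ι Nk.D Nk.c Nk.s (o g) _ hΩ hΩc Nk.fin ?_ C.small hj ?_ ?_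
      (fun z hz => C.sub hT hz) (fun z hz a ha => hT.sub _ (C.vert z hz a ha).1)
      (fun i => Nk.clean i) Nk.ball Nk.disj Nk.sub Nk.op
    · have := hN.β0
      have := hN.θ0
      positivity
    · refine ⟨zz g, H.mem, fun x hx => ?_⟩
      rw [Metric.mem_ball, dist_eq_norm]
      refine (dyc_dist hx (H.clean.sub H.sq)).trans_lt ?_
      rw [div_lt_div_iff_of_pos_right (by positivity)]
      norm_num
    · obtain ⟨h1, h2, -⟩ := H.vert
      refine Subset.trans ?_ (hT.sub _ h1)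
      refine closedBall_subset_closedBall' ?_
      rw [dist_eq_norm]
      have := C.lat_le
      have := hT.t_pos C
      linarith
  NΩ := fun g => nset_sub hT Nk
  Nq := fun i g => by
    rw [disjoint_left]
    intro x hx hq
    obtain ⟨z, hz, hs⟩ := Nk.clean i
    rcases hq with hq | hq
    · rw [hs.1] at hq
      exact nset_dyo Nk hx hz hs.2.1 hq
    · rw [hs.1] at hq
      exact nset_dyo Nk hx hz hs.2.2 hq
  NE := fun i g => by
    rw [disjoint_left]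
    exact fun x hx => nset_disc Nk hx i
  NB := fun g x hx hc => by
    have hxΩ := nset_sub hT Nk hx
    have hcl := hclose x hxΩ
    have hρg := hρ g
    rw [mem_closedBall, dist_eq_norm] at hc
    rcases mem_nset hx with h | h
    · have h1 := (Ho g).nset hT hN Nk hδ hxΩ h
      have h2 : ‖f x - Nk.b g‖ ≤ ‖h₀.toFun x - f x‖ + ‖h₀.toFun x - Nk.b g‖ := by
        have := norm_sub_le (h₀.toFun x - Nk.b g) (h₀.toFun x - f x)
        rw [sub_sub_sub_cancel_left] at this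
        linarith
      have e3 : β / 2 ^ (m + j) = β / 2 / 2 ^ (m + j) + β / 2 / 2 ^ (m + j) := by ring
      linarith
    · obtain ⟨i, hi, y, hy, hyR⟩ := h
      obtain ⟨g', hg'⟩ := hcirc i
      have h3 : ∀ w ∈ Nk.c i, ‖h₀.toFun w - Nk.b g'‖ ≤ Nk.ρ g' := by
        intro w hw
        have hwΩ : w ∈ Ω := by
          obtain ⟨z, hz, hs⟩ := Nk.clean i
          exact C.sub hT hz (hs.sub (P86.rel_sub (Nk.sub i ((Nk.ball i).1 hw))))
        have h4 : ‖h₀.toFun w - Nk.b g'‖ ≤ ‖h₀.toFun w - f w‖ + ‖f w - Nk.b g'‖ :=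
          norm_sub_le_norm_sub_add_norm_sub _ _ _
        have := hclose w hwΩ
        have := hg' w hw
        linarith
      rcases eq_or_ne g' g with rfl | hne
      · have h5 := (Ho g').circle hT hN Nk hδ (fun z hz => C.sub hT hz) hy hyR
        have h6 := hg' y hy
        have h7 := hρ g'
        have h8 : 0 ≤ η := (norm_nonneg _).trans hcl
        have e3 : β / 2 ^ (m + j) = β / 2 / 2 ^ (m + j) + β / 2 / 2 ^ (m + j) := by ring
        have h9 : 0 < β / 2 / 2 ^ (m + j) := lt_of_le_of_lt h8 hη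
        linarith
      · refine disjoint_left.1 (Nk.bdisj g' g hne) ?_ (mem_closedBall.2 (by rwa [dist_eq_norm]))
        rw [mem_closedBall, dist_eq_norm]
        exact h3 x hi
  far := fun g => nset_far hT Nk (Ho g)

end Vale.Agent.P073.H234
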